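import Crest.Agent.R220.CkCalc
import Crest.Agent.R220.Gauss

/-!
# Row 220: `avg_frame`: the average of two close solutions, extended globally
-/

set_option autoImplicit false

open scoped ContDiff

namespace Crest.Agent.R220.AvgFrame

/-! ### squares -/

theorem sq_mono {a b : ℝ} (h : a ≤ b) : sq a ⊆ sq b := fun _ hz => ⟨hz.1.trans h, hz.2.trans h⟩

theorem eventually_mem_sq {a b : ℝ} (h : a < b) {z : Pl} (hz : z ∈ sq a) :
    ∀ᶠ y in nhds z, y ∈ sq b := by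
  have h1 : ∀ᶠ y : Pl in nhds z, |y.1| < b :=
    (continuous_abs.comp continuous_fst).continuousAt.eventually_lt continuousAt_const
      (lt_of_le_of_lt hz.1 h)
  have h2 : ∀ᶠ y : Pl in nhds z, |y.2| < b :=
    (continuous_abs.comp continuous_snd).continuousAt.eventually_lt continuousAt_const
      (lt_of_le_of_lt hz.2 h)
  filter_upwards [h1, h2] with y hy1 hy2 using ⟨hy1.le, hy2.le⟩

theorem eventually_not_mem_sq {a b : ℝ} (h : a < b) {z : Pl} (hz : z ∉ sq b) :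
    ∀ᶠ y in nhds z, y ∉ sq a := by
  have h0 : a < |z.1| ∨ a < |z.2| := by
    by_contra hc
    push Not at hc
    exact hz ⟨hc.1.trans h.le, hc.2.trans h.le⟩
  rcases h0 with h0 | h0
  · have h1 : ∀ᶠ y : Pl in nhds z, a < |y.1| :=
      continuousAt_const.eventually_lt (continuous_abs.comp continuous_fst).continuousAt h0
    filter_upwards [h1] with y hy hy'
    exact absurd hy'.1 (not_le.2 hy)
  · have h1 : ∀ᶠ y : Pl in nhds z, a < |y.2| :=
      continuousAt_const.eventually_lt (continuous_abs.comp continuous_snd).continuousAt h0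
    filter_upwards [h1] with y hy hy'
    exact absurd hy'.2 (not_le.2 hy)

theorem isCompact_sq (a : ℝ) : IsCompact (sq a) := by
  have : sq a = Set.Icc (-a) a ×ˢ Set.Icc (-a) a := by
    ext z
    simp only [sq, abs_le, Set.mem_ofPred_eq, Set.mem_prod, Set.mem_Icc]
  rw [this]
  exact isCompact_Icc.prod isCompact_Icc

/-! ### finitely many words -/

theorem exists_bound_words {k : ℕ} {P : List Bool → ℝ → Prop}
    (hmono : ∀ w a b, a ≤ b → P w a → P w b) (h : ∀ w : List Bool, ∃ C, P w C) :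
    ∃ C : ℝ, 1 ≤ C ∧ ∀ w : List Bool, w.length ≤ k → P w C := by
  choose F hF using h
  have hfin : {w : List Bool | w.length ≤ k}.Finite := List.finite_length_le Bool k
  refine ⟨1 + ∑ w ∈ hfin.toFinset, |F w|, ?_, ?_⟩
  · have : 0 ≤ ∑ w ∈ hfin.toFinset, |F w| := Finset.sum_nonneg fun _ _ => abs_nonneg _
    linarith
  · intro w hw
    refine hmono w _ _ ?_ (hF w)
    have h1 : |F w| ≤ ∑ w ∈ hfin.toFinset, |F w| :=
      Finset.single_le_sum (f := fun w => |F w|) (fun _ _ => abs_nonneg _)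
        (by simpa using hw)
    linarith [le_abs_self (F w)]

/-! ### the cutoff -/

theorem exists_cut : ∃ χ : Pl → ℝ, Sm χ ∧ (∀ z ∈ sq (95/100), χ z = 1) ∧
    (∀ z, z ∉ sq (99/100) → χ z = 0) ∧
    ∃ C : ℝ, 1 ≤ C ∧ ∀ w : List Bool, w.length ≤ 4 → ∀ z, |Dw w χ z| ≤ C := by
  let θ : ContDiffBump (0 : ℝ) := ⟨95/100, 98/100, by norm_num, by norm_num⟩
  have hone : ∀ t : ℝ, |t| ≤ 95/100 → θ t = 1 := by
    intro t ht
    refine θ.one_of_mem_closedBall ?_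
    simpa [Metric.mem_closedBall, Real.dist_eq] using ht
  have hzero : ∀ t : ℝ, 98/100 ≤ |t| → θ t = 0 := by
    intro t ht
    refine θ.zero_of_le_dist ?_
    simpa [Real.dist_eq] using ht
  have hsm : Sm (fun z : Pl => θ z.1 * θ z.2) :=
    (Sm.comp' θ.contDiff Sm.fst).mul' (Sm.comp' θ.contDiff Sm.snd)
  have hout : ∀ z : Pl, z ∉ sq (99/100) → θ z.1 * θ z.2 = 0 := by
    intro z hz
    by_cases h1 : |z.1| ≤ 99/100
    · have h2 : ¬ |z.2| ≤ 99/100 := fun h2 => hz ⟨h1, h2⟩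
      rw [hzero z.2 (by linarith [not_le.1 h2]), mul_zero]
    · rw [hzero z.1 (by linarith [not_le.1 h1]), zero_mul]
  have hc : HasCompactSupport (fun z : Pl => θ z.1 * θ z.2) :=
    HasCompactSupport.intro (isCompact_sq (99/100)) hout
  refine ⟨fun z => θ z.1 * θ z.2, hsm, ?_, hout, ?_⟩
  · intro z hz
    simp only [hone z.1 hz.1, hone z.2 hz.2, mul_one]
  · exact exists_bound_words (P := fun w C => ∀ z, |Dw w (fun z : Pl => θ z.1 * θ z.2) z| ≤ C)
      (fun w a b hab h z => (h z).trans hab) (fun w => exists_bound_Dw hsm hc w)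

/-! ### extension of a perturbation -/

theorem ext_close {χ : Pl → ℝ} (hχ : Sm χ) (hχ0 : ∀ z, z ∉ sq (99/100) → χ z = 0) {C : ℝ}
    (hχC : ∀ w : List Bool, w.length ≤ 4 → ∀ z, |Dw w χ z| ≤ C) (hC : 1 ≤ C)
    {m : Pl → ℝ} (hm : Sm m) {e : ℝ} (he : 0 ≤ e)
    (hme : ∀ w : List Bool, w.length ≤ 4 → ∀ z ∈ sq 1, |Dw w m z| ≤ e)
    (w : List Bool) (hw : w.length ≤ 4) (z : Pl) :
    |Dw w (fun z => χ z * m z) z| ≤ 16 * C * e := by
  by_cases hz : z ∈ sq 1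
  · have h1 := Dw_mul_bound w χ m hχ hm z C e (fun u hu => hχC u (hu.trans hw) z)
      (fun u hu => hme u (hu.trans hw) z hz)
    refine h1.trans ?_
    have h2 : (2 : ℝ) ^ w.length ≤ 2 ^ 4 := pow_le_pow_right₀ (by norm_num) hw
    have h3 : 0 ≤ C * e := mul_nonneg (by linarith) he
    nlinarith
  · have h1 : ∀ᶠ y in nhds z, χ y * m y = 0 := by
      filter_upwards [eventually_not_mem_sq (a := 99/100) (by norm_num) hz] with y hy
      rw [hχ0 y hy, zero_mul]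
    rw [Dw_zero_of_eventually h1 w, abs_zero]
    have : 0 ≤ C * e := mul_nonneg (by linarith) he
    nlinarith

/-! ### base functions -/

theorem Dw_const_cases (w : List Bool) (c : ℝ) :
    (Dw w (fun _ : Pl => c) = fun _ => c) ∨ (Dw w (fun _ : Pl => c) = fun _ => 0) := by
  induction w with
  | nil => left; rfl
  | cons b w ih =>
    right
    cases b
    · rw [Dw_false]; rcases ih with h | h <;> rw [h, dy_const]
    · rw [Dw_true]; rcases ih with h | h <;> rw [h, dx_const]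

theorem Dw_fst_cases (w : List Bool) :
    (Dw w (fun z : Pl => z.1) = fun z => z.1) ∨ (Dw w (fun z : Pl => z.1) = fun _ => 1) ∨
      (Dw w (fun z : Pl => z.1) = fun _ => 0) := by
  induction w with
  | nil => left; rfl
  | cons b w ih =>
    right
    cases b
    · rw [Dw_false]
      rcases ih with h | h | h
      · right; rw [h, dy_fst]
      · right; rw [h, dy_const]
      · right; rw [h, dy_const]
    · rw [Dw_true]
      rcases ih with h | h | h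
      · left; rw [h, dx_fst]
      · right; rw [h, dx_const]
      · right; rw [h, dx_const]

theorem Dw_snd_cases (w : List Bool) :
    (Dw w (fun z : Pl => z.2) = fun z => z.2) ∨ (Dw w (fun z : Pl => z.2) = fun _ => 1) ∨
      (Dw w (fun z : Pl => z.2) = fun _ => 0) := by
  induction w with
  | nil => left; rfl
  | cons b w ih =>
    right
    cases b
    · rw [Dw_false]
      rcases ih with h | h | h
      · left; rw [h, dy_snd]
      · right; rw [h, dy_const]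
      · right; rw [h, dy_const]
    · rw [Dw_true]
      rcases ih with h | h | h
      · right; rw [h, dx_snd]
      · right; rw [h, dx_const]
      · right; rw [h, dx_const]

theorem Sm_half : Sm (fun z : Pl => z.1 ^ 2 / 2) := (Sm.fst.pow' 2).div_const 2

theorem dx_half : dx (fun z : Pl => z.1 ^ 2 / 2) = fun z => z.1 := by
  have e : (fun z : Pl => z.1 ^ 2 / 2) = fun z => (1 / 2) * (z.1 * z.1) := by funext z; ring
  rw [e, dx_const_mul _ (Sm.fst.mul' Sm.fst), dx_mul Sm.fst Sm.fst]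
  funext z
  simp only [dx_fst]
  ring

theorem dy_half : dy (fun z : Pl => z.1 ^ 2 / 2) = fun _ => 0 := by
  have e : (fun z : Pl => z.1 ^ 2 / 2) = fun z => (1 / 2) * (z.1 * z.1) := by funext z; ring
  rw [e, dy_const_mul _ (Sm.fst.mul' Sm.fst), dy_mul Sm.fst Sm.fst]
  funext z
  simp only [dy_fst]
  ring

theorem Dw_half_cases (w : List Bool) :
    (Dw w (fun z : Pl => z.1 ^ 2 / 2) = fun z => z.1 ^ 2 / 2) ∨
    (Dw w (fun z : Pl => z.1 ^ 2 / 2) = fun z => z.1) ∨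
    (Dw w (fun z : Pl => z.1 ^ 2 / 2) = fun _ => 1) ∨
      (Dw w (fun z : Pl => z.1 ^ 2 / 2) = fun _ => 0) := by
  induction w with
  | nil => left; rfl
  | cons b w ih =>
    right
    cases b
    · rw [Dw_false]
      rcases ih with h | h | h | h
      · right; right; rw [h, dy_half]
      · right; right; rw [h, dy_fst]
      · right; right; rw [h, dy_const]
      · right; right; rw [h, dy_const]
    · rw [Dw_true]
      rcases ih with h | h | h | h
      · left; rw [h, dx_half]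
      · right; left; rw [h, dx_fst]
      · right; right; rw [h, dx_const]
      · right; right; rw [h, dx_const]

theorem bnd_fst (w : List Bool) {z : Pl} (hz : z ∈ sq 1) : |Dw w (fun z : Pl => z.1) z| ≤ 1 := by
  rcases Dw_fst_cases w with h | h | h <;> rw [h]
  · exact hz.1
  · simp
  · simp

theorem bnd_snd (w : List Bool) {z : Pl} (hz : z ∈ sq 1) : |Dw w (fun z : Pl => z.2) z| ≤ 1 := by
  rcases Dw_snd_cases w with h | h | h <;> rw [h]
  · exact hz.2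
  · simp
  · simp

theorem bnd_half (w : List Bool) {z : Pl} (hz : z ∈ sq 1) :
    |Dw w (fun z : Pl => z.1 ^ 2 / 2) z| ≤ 1 := by
  rcases Dw_half_cases w with h | h | h | h <;> rw [h]
  · have h1 : |z.1| ≤ 1 := hz.1
    have h2 : z.1 ^ 2 ≤ 1 := by
      rw [← sq_abs]; nlinarith [abs_nonneg z.1]
    rw [abs_of_nonneg (by positivity)]
    linarith
  · exact hz.1
  · simp
  · simp

/-! ### `Nr` data for the 2-jets -/

theorem n1_le_four {X b : Pl → ℝ} {z : Pl} {e : ℝ} (hX : Sm X) (hb : Sm b)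
    (hb1 : ∀ w : List Bool, |Dw w b z| ≤ 1) {k : ℕ}
    (h : ∀ w : List Bool, w.length ≤ k → |Dw w (fun z => X z - b z) z| ≤ e) (he : e ≤ 1 / 3)
    (v : List Bool) (hv : v.length + 1 ≤ k) : n1 (Dw v X) z ≤ 4 := by
  have h1 : ∀ w : List Bool, w.length ≤ k → |Dw w X z| ≤ 4 / 3 := by
    intro w hw
    have h2 := h w hw
    rw [Dw_sub hX hb] at h2
    have h3 := hb1 w
    have h4 := abs_add_le (Dw w X z - Dw w b z) (Dw w b z)
    rw [sub_add_cancel] at h4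
    linarith
  have := n1_Dw_le h1 v hv
  linarith

theorem Nr_of {X X1 : Pl → ℝ} {z : Pl} {ε : ℝ} (hX : Sm X) (hX1 : Sm X1)
    (h4 : ∀ v : List Bool, v.length ≤ 2 → n1 (Dw v X) z ≤ 4)
    (h4' : ∀ v : List Bool, v.length ≤ 2 → n1 (Dw v X1) z ≤ 4)
    (hd : ∀ w : List Bool, w.length ≤ 3 → |Dw w X z - Dw w X1 z| ≤ ε)
    (v : List Bool) (hv : v.length ≤ 2) : Nr z 4 3 ε (Dw v X) (Dw v X1) := by
  refine ⟨(hX.Dw v).differentiableAt, (hX1.Dw v).differentiableAt, h4 v hv, h4' v hv, ?_⟩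
  have e : (fun z => Dw v X z - Dw v X1 z) = Dw v (fun z => X z - X1 z) := (Dw_sub hX hX1 v).symm
  rw [e]
  refine n1_Dw_le (k := 3) ?_ v (by omega)
  intro w hw
  rw [Dw_sub hX hX1]
  exact hd w hw

/-- Lipschitz estimate of the curvature expression -/
theorem kE_lip : ∃ C : ℝ, 0 < C ∧ ∀ (X Y u X1 Y1 u1 : Pl → ℝ) (z : Pl) (ε : ℝ), 0 ≤ ε →
    (∀ v : List Bool, v.length ≤ 2 → Nr z 4 3 ε (Dw v X) (Dw v X1)) →
    (∀ v : List Bool, v.length ≤ 2 → Nr z 4 3 ε (Dw v Y) (Dw v Y1)) →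
    (∀ v : List Bool, v.length ≤ 2 → Nr z 4 3 ε (Dw v u) (Dw v u1)) →
    1 / 2 ≤ br X Y z → 1 / 2 ≤ br X1 Y1 z →
    DifferentiableAt ℝ (kE X Y u) z ∧ DifferentiableAt ℝ (kE X1 Y1 u1) z ∧
    n1 (fun z => kE X Y u z - kE X1 Y1 u1 z) z ≤ C * ε := by
  have key : ∃ C : ℝ, ∀ (X Y u X1 Y1 u1 : Pl → ℝ) (z : Pl) (ε : ℝ), 0 ≤ ε →
    (∀ v : List Bool, v.length ≤ 2 → Nr z 4 3 ε (Dw v X) (Dw v X1)) →
    (∀ v : List Bool, v.length ≤ 2 → Nr z 4 3 ε (Dw v Y) (Dw v Y1)) →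
    (∀ v : List Bool, v.length ≤ 2 → Nr z 4 3 ε (Dw v u) (Dw v u1)) →
    1 / 2 ≤ br X Y z → 1 / 2 ≤ br X1 Y1 z →
    DifferentiableAt ℝ (kE X Y u) z ∧ DifferentiableAt ℝ (kE X1 Y1 u1) z ∧
    n1 (fun z => kE X Y u z - kE X1 Y1 u1 z) z ≤ C * ε := by
    apply Exists.intro
    intro X Y u X1 Y1 u1 z ε hε hX hY hu hJ hJ1
    have J : Nr z _ _ ε (br X Y) (br X1 Y1) :=
      ((hX [true] (by simp)).mul (hY [false] (by simp))).sub
        ((hX [false] (by simp)).mul (hY [true] (by simp)))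
    have a : Nr z _ _ ε (br u Y) (br u1 Y1) :=
      ((hu [true] (by simp)).mul (hY [false] (by simp))).sub
        ((hu [false] (by simp)).mul (hY [true] (by simp)))
    have b : Nr z _ _ ε (br X u) (br X1 u1) :=
      ((hX [true] (by simp)).mul (hu [false] (by simp))).sub
        ((hX [false] (by simp)).mul (hu [true] (by simp)))
    have l11 : Nr z _ _ ε (L11 X Y u) (L11 X1 Y1 u1) :=
      ((J.mul (hu [true, true] (by simp))).sub (a.mul (hX [true, true] (by simp)))).sub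
        (b.mul (hY [true, true] (by simp)))
    have l12 : Nr z _ _ ε (L12 X Y u) (L12 X1 Y1 u1) :=
      ((J.mul (hu [true, false] (by simp))).sub (a.mul (hX [true, false] (by simp)))).sub
        (b.mul (hY [true, false] (by simp)))
    have l22 : Nr z _ _ ε (L22 X Y u) (L22 X1 Y1 u1) :=
      ((J.mul (hu [false, false] (by simp))).sub (a.mul (hX [false, false] (by simp)))).sub
        (b.mul (hY [false, false] (by simp)))
    have Ji := J.inv hJ hJ1
    have K : Nr z _ _ ε (kE X Y u) (kE X1 Y1 u1) :=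
      ((l11.mul l22).sub (l12.mul l12)).mul ((Ji.mul Ji).mul (Ji.mul Ji))
    exact ⟨K.df, K.dg, K.bd⟩
  obtain ⟨C, hC⟩ := key
  refine ⟨|C| + 1, by positivity, ?_⟩
  intro X Y u X1 Y1 u1 z ε hε hX hY hu hJ hJ1
  obtain ⟨h1, h2, h3⟩ := hC X Y u X1 Y1 u1 z ε hε hX hY hu hJ hJ1
  refine ⟨h1, h2, h3.trans ?_⟩
  exact mul_le_mul_of_nonneg_right (by linarith [le_abs_self C]) hε

/-! ### the inverse fourth power of the Jacobian -/

noncomputable def Ji4 (X Y : Pl → ℝ) (z : Pl) : ℝ :=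
  ((br X Y z)⁻¹ * (br X Y z)⁻¹) * ((br X Y z)⁻¹ * (br X Y z)⁻¹)

theorem J_lip : ∃ M C : ℝ, 0 < M ∧ 0 < C ∧ ∀ (X Y X1 Y1 : Pl → ℝ) (z : Pl) (ε : ℝ), 0 ≤ ε →
    (∀ v : List Bool, v.length ≤ 2 → Nr z 4 3 ε (Dw v X) (Dw v X1)) →
    (∀ v : List Bool, v.length ≤ 2 → Nr z 4 3 ε (Dw v Y) (Dw v Y1)) →
    1 / 2 ≤ br X Y z → 1 / 2 ≤ br X1 Y1 z → Nr z M C ε (Ji4 X Y) (Ji4 X1 Y1) := by
  have key : ∃ M C : ℝ, ∀ (X Y X1 Y1 : Pl → ℝ) (z : Pl) (ε : ℝ), 0 ≤ ε →
    (∀ v : List Bool, v.length ≤ 2 → Nr z 4 3 ε (Dw v X) (Dw v X1)) →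
    (∀ v : List Bool, v.length ≤ 2 → Nr z 4 3 ε (Dw v Y) (Dw v Y1)) →
    1 / 2 ≤ br X Y z → 1 / 2 ≤ br X1 Y1 z → Nr z M C ε (Ji4 X Y) (Ji4 X1 Y1) := by
    apply Exists.intro
    apply Exists.intro
    intro X Y X1 Y1 z ε hε hX hY hJ hJ1
    have J : Nr z _ _ ε (br X Y) (br X1 Y1) :=
      ((hX [true] (by simp)).mul (hY [false] (by simp))).sub
        ((hX [false] (by simp)).mul (hY [true] (by simp)))
    have Ji := J.inv hJ hJ1
    exact (Ji.mul Ji).mul (Ji.mul Ji)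
  obtain ⟨M, C, hC⟩ := key
  refine ⟨|M| + 1, |C| + 1, by positivity, by positivity, ?_⟩
  intro X Y X1 Y1 z ε hε hX hY hJ hJ1
  obtain ⟨h1, h2, h3, h4, h5⟩ := hC X Y X1 Y1 z ε hε hX hY hJ hJ1
  refine ⟨h1, h2, h3.trans (by linarith [le_abs_self M]), h4.trans (by linarith [le_abs_self M]),
    h5.trans ?_⟩
  exact mul_le_mul_of_nonneg_right (by linarith [le_abs_self C]) hε

/-! ### boundedness calculus -/

structure Bd (z : Pl) (c : ℝ) (f : Pl → ℝ) : Prop where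
  df : DifferentiableAt ℝ f z
  bd : n1 f z ≤ c

section
variable {f g : Pl → ℝ} {z : Pl} {a b : ℝ}

theorem Bd.nonneg (h : Bd z a f) : 0 ≤ a := n1_nonneg.trans h.bd

theorem Bd.mono (h : Bd z a f) (hab : a ≤ b) : Bd z b f := ⟨h.df, h.bd.trans hab⟩

theorem Bd.mul (h : Bd z a f) (h' : Bd z b g) : Bd z (a * b) (fun z => f z * g z) :=
  ⟨h.df.mul h'.df, (n1_mul_le h.df h'.df).trans (mul_le_mul h.bd h'.bd n1_nonneg h.nonneg)⟩

theorem Bd.add (h : Bd z a f) (h' : Bd z b g) : Bd z (a + b) (fun z => f z + g z) :=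
  ⟨h.df.add h'.df, (n1_add_le h.df h'.df).trans (add_le_add h.bd h'.bd)⟩

theorem Bd.sub (h : Bd z a f) (h' : Bd z b g) : Bd z (a + b) (fun z => f z - g z) :=
  ⟨h.df.sub h'.df, (n1_sub_le h.df h'.df).trans (add_le_add h.bd h'.bd)⟩

theorem Bd.const_mul (c : ℝ) (h : Bd z a f) : Bd z (|c| * a) (fun z => c * f z) :=
  ⟨h.df.const_mul c, by rw [n1_const_mul c h.df]; exact mul_le_mul_of_nonneg_left h.bd (abs_nonneg c)⟩

theorem Bd.const (z : Pl) (c : ℝ) : Bd z |c| (fun _ => c) :=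
  ⟨differentiableAt_const c, by unfold n1; rw [dx_const, dy_const]; simp⟩

theorem Bd.one_add (h : Bd z a f) : Bd z (1 + a) (fun z => 1 + f z) := by
  have := (Bd.const z 1).add h
  rwa [abs_one] at this

theorem Bd.congr (h : Bd z a f) (e : g =ᶠ[nhds z] f) : Bd z a g :=
  ⟨h.df.congr_of_eventuallyEq e, by rw [n1_congr e]; exact h.bd⟩

end

/-! ### the model functions -/

theorem Sm_w0 : Sm w0 := by
  have e : w0 = fun z : Pl => -(z.1 ^ 4 + z.2 ^ 4) / 6 + (z.1 ^ 2 + z.2 ^ 2) / 8 := rfl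
  rw [e]
  exact ((((Sm.fst.pow' 4).add' (Sm.snd.pow' 4)).neg').div_const 6).add
    (((Sm.fst.pow' 2).add' (Sm.snd.pow' 2)).div_const 8)

theorem Sm_kap0 : Sm kap0 :=
  ((Sm.fst.pow' 2).add' (Sm.snd.pow' 2)).sub' (Sm.const _)

theorem dx_pow_fst (n : ℕ) :
    dx (fun z : Pl => z.1 ^ n) = fun z : Pl => (n : ℝ) * z.1 ^ (n - 1) := by
  funext z
  rw [dx_pow_at Sm.fst.differentiableAt, dx_fst]; ring

theorem dy_pow_fst (n : ℕ) : dy (fun z : Pl => z.1 ^ n) = fun _ => 0 := by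
  funext z
  rw [dy_pow_at Sm.fst.differentiableAt, dy_fst]; ring

theorem dx_pow_snd (n : ℕ) : dx (fun z : Pl => z.2 ^ n) = fun _ => 0 := by
  funext z
  rw [dx_pow_at Sm.snd.differentiableAt, dx_snd]; ring

theorem dy_pow_snd (n : ℕ) :
    dy (fun z : Pl => z.2 ^ n) = fun z : Pl => (n : ℝ) * z.2 ^ (n - 1) := by
  funext z
  rw [dy_pow_at Sm.snd.differentiableAt, dy_snd]; ring

theorem dx_w0 : dx w0 = fun z => -(2 / 3) * z.1 ^ 3 + (1 / 4) * z.1 := by
  have e : w0 = fun z : Pl => ((-(1 / 6)) * (z.1 ^ 4) + (-(1 / 6)) * (z.2 ^ 4)) +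
      ((1 / 8) * z.1 ^ 2 + (1 / 8) * z.2 ^ 2) := by
    funext z; unfold w0; ring
  have s1 : Sm fun z : Pl => z.1 ^ 4 := Sm.fst.pow' 4
  have s2 : Sm fun z : Pl => z.2 ^ 4 := Sm.snd.pow' 4
  have s3 : Sm fun z : Pl => z.1 ^ 2 := Sm.fst.pow' 2
  have s4 : Sm fun z : Pl => z.2 ^ 2 := Sm.snd.pow' 2
  have t1 := (Sm.const (-(1 / 6))).mul' s1
  have t2 := (Sm.const (-(1 / 6))).mul' s2
  have t3 := (Sm.const (1 / 8)).mul' s3
  have t4 := (Sm.const (1 / 8)).mul' s4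
  rw [e, dx_add (t1.add' t2) (t3.add' t4), dx_add t1 t2, dx_add t3 t4, dx_const_mul _ s1,
    dx_const_mul _ s2, dx_const_mul _ s3, dx_const_mul _ s4, dx_pow_fst, dx_pow_fst, dx_pow_snd,
    dx_pow_snd]
  funext z
  norm_num
  ring

theorem dy_w0 : dy w0 = fun z => -(2 / 3) * z.2 ^ 3 + (1 / 4) * z.2 := by
  have e : w0 = fun z : Pl => ((-(1 / 6)) * (z.1 ^ 4) + (-(1 / 6)) * (z.2 ^ 4)) +
      ((1 / 8) * z.1 ^ 2 + (1 / 8) * z.2 ^ 2) := by
    funext z; unfold w0; ring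
  have s1 : Sm fun z : Pl => z.1 ^ 4 := Sm.fst.pow' 4
  have s2 : Sm fun z : Pl => z.2 ^ 4 := Sm.snd.pow' 4
  have s3 : Sm fun z : Pl => z.1 ^ 2 := Sm.fst.pow' 2
  have s4 : Sm fun z : Pl => z.2 ^ 2 := Sm.snd.pow' 2
  have t1 := (Sm.const (-(1 / 6))).mul' s1
  have t2 := (Sm.const (-(1 / 6))).mul' s2
  have t3 := (Sm.const (1 / 8)).mul' s3
  have t4 := (Sm.const (1 / 8)).mul' s4
  rw [e, dy_add (t1.add' t2) (t3.add' t4), dy_add t1 t2, dy_add t3 t4, dy_const_mul _ s1,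
    dy_const_mul _ s2, dy_const_mul _ s3, dy_const_mul _ s4, dy_pow_fst, dy_pow_fst, dy_pow_snd,
    dy_pow_snd]
  funext z
  norm_num
  ring

theorem lap_w0 (z : Pl) : dy (dy w0) z + dx (dx w0) z = -2 * kap0 z := by
  rw [dx_w0, dy_w0, dy_add ((Sm.const _).mul' (Sm.snd.pow' 3)) ((Sm.const _).mul' Sm.snd),
    dx_add ((Sm.const _).mul' (Sm.fst.pow' 3)) ((Sm.const _).mul' Sm.fst),
    dx_const_mul _ (Sm.fst.pow' 3), dx_const_mul _ Sm.fst, dy_const_mul _ (Sm.snd.pow' 3),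
    dy_const_mul _ Sm.snd, dx_pow_fst, dy_pow_snd, dx_fst, dy_snd]
  unfold kap0
  norm_num
  ring

theorem dx_kap0 (z : Pl) : dx kap0 z = 2 * z.1 := by
  have e : kap0 = fun z : Pl => (z.1 ^ 2 + z.2 ^ 2) - 1 / 4 := rfl
  have s3 : Sm fun z : Pl => z.1 ^ 2 := Sm.fst.pow' 2
  have s4 : Sm fun z : Pl => z.2 ^ 2 := Sm.snd.pow' 2
  rw [e, dx_sub (s3.add' s4) (Sm.const _), dx_add s3 s4, dx_pow_fst, dx_pow_snd, dx_const]
  norm_num

theorem dy_kap0 (z : Pl) : dy kap0 z = 2 * z.2 := by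
  have e : kap0 = fun z : Pl => (z.1 ^ 2 + z.2 ^ 2) - 1 / 4 := rfl
  have s3 : Sm fun z : Pl => z.1 ^ 2 := Sm.fst.pow' 2
  have s4 : Sm fun z : Pl => z.2 ^ 2 := Sm.snd.pow' 2
  rw [e, dy_sub (s3.add' s4) (Sm.const _), dy_add s3 s4, dy_pow_fst, dy_pow_snd, dy_const]
  norm_num

theorem Bd_kap0 {z : Pl} (hz : z ∈ sq 1) : Bd z 7 kap0 := by
  refine ⟨Sm_kap0.differentiableAt, ?_⟩
  unfold n1
  rw [dx_kap0, dy_kap0]
  have h1 : |z.1| ≤ 1 := hz.1
  have h2 : |z.2| ≤ 1 := hz.2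
  have h3 : |kap0 z| ≤ 3 := by
    unfold kap0
    rw [abs_le]
    have := sq_abs z.1
    have := sq_abs z.2
    constructor <;> nlinarith [abs_nonneg z.1, abs_nonneg z.2]
  have h4 : |2 * z.1| ≤ 2 := by rw [abs_mul, abs_two]; linarith
  have h5 : |2 * z.2| ≤ 2 := by rw [abs_mul, abs_two]; linarith
  linarith

theorem exists_bound_w0 : ∃ C : ℝ, 1 ≤ C ∧ ∀ w : List Bool, w.length ≤ 3 → ∀ z ∈ sq 1,
    |Dw w w0 z| ≤ C := by
  refine exists_bound_words (P := fun w C => ∀ z ∈ sq 1, |Dw w w0 z| ≤ C)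
      (fun w a b hab h z hz => (h z hz).trans hab) (fun w => ?_)
  obtain ⟨C, hC⟩ := (isCompact_sq 1).exists_bound_of_continuousOn
    (Sm_w0.Dw w).continuous'.continuousOn
  exact ⟨C, fun z hz => by simpa using hC z hz⟩

/-! ### the Brioschi expression is close to `δ kap0` -/

theorem bri_close : ∃ C : ℝ, 0 < C ∧ ∀ δ : ℝ, 0 < δ → δ ≤ 1 → ∀ h1 h2 : Pl → ℝ, Sm h1 → Sm h2 →
    ∀ z ∈ sq 1, (∀ w : List Bool, w.length ≤ 3 → |Dw w (fun z => h1 z - δ * w0 z) z| ≤ δ ^ 2 ∧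
      |Dw w (fun z => h2 z - δ * w0 z) z| ≤ δ ^ 2) →
    Bd z (C * δ ^ 2) (fun z => Gauss.brioschi h1 h2 z - δ * kap0 z) := by
  obtain ⟨C0, hC0, hw0⟩ := exists_bound_w0
  set D : ℝ := 3 * (C0 + 1) with hD
  refine ⟨3 * (1 + D) ^ 2 + 7 * (2 * D + D ^ 2) + (1 + D) * D ^ 2, by positivity, ?_⟩
  intro δ hδ hδ1 h1 h2 s1 s2 z hz hw
  have sδ : Sm (fun z => δ * w0 z) := (Sm.const δ).mul' Sm_w0
  -- bounds of `h i`
  have hb : ∀ h : Pl → ℝ, Sm h → (∀ w : List Bool, w.length ≤ 3 →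
      |Dw w (fun z => h z - δ * w0 z) z| ≤ δ ^ 2) →
      ∀ v : List Bool, v.length ≤ 2 → Bd z (D * δ) (Dw v h) := by
    intro h sh hh v hv
    refine ⟨(sh.Dw v).differentiableAt, ?_⟩
    have h3 : ∀ w : List Bool, w.length ≤ 3 → |Dw w h z| ≤ (C0 + 1) * δ := by
      intro w hw
      have e1 := hh w hw
      rw [Dw_sub sh sδ, Dw_const_mul δ Sm_w0] at e1
      have e2 := hw0 w hw z hz
      have e3 := abs_add_le (Dw w h z - δ * Dw w w0 z) (δ * Dw w w0 z)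
      rw [sub_add_cancel, abs_mul, abs_of_pos hδ] at e3
      simp only at e1
      nlinarith
    have := n1_Dw_le h3 v (by omega)
    calc n1 (Dw v h) z ≤ 3 * ((C0 + 1) * δ) := this
      _ = D * δ := by rw [hD]; ring
  have B1 := hb h1 s1 (fun w h => (hw w h).1)
  have B2 := hb h2 s2 (fun w h => (hw w h).2)
  -- the error term
  have Be : Bd z (3 * δ ^ 2 + 3 * δ ^ 2) (fun z => dy (dy (fun z => h1 z - δ * w0 z)) z +
      dx (dx (fun z => h2 z - δ * w0 z)) z) := by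
    refine Bd.add ⟨(s1.sub' sδ).dy.dy.differentiableAt, ?_⟩ ⟨(s2.sub' sδ).dx.dx.differentiableAt, ?_⟩
    · exact n1_Dw_le (k := 3) (fun w h => (hw w h).1) [false, false] (by simp)
    · exact n1_Dw_le (k := 3) (fun w h => (hw w h).2) [true, true] (by simp)
  have hsum : ∀ z, dy (dy h1) z + dx (dx h2) z = -2 * δ * kap0 z +
      (dy (dy (fun z => h1 z - δ * w0 z)) z + dx (dx (fun z => h2 z - δ * w0 z)) z) := by
    intro z
    have e1 : dy (dy (fun z => h1 z - δ * w0 z)) z = dy (dy h1) z - δ * dy (dy w0) z := by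
      rw [dy_sub s1 sδ, dy_const_mul δ Sm_w0, dy_sub s1.dy ((Sm.const δ).mul' Sm_w0.dy),
        dy_const_mul δ Sm_w0.dy]
    have e2 : dx (dx (fun z => h2 z - δ * w0 z)) z = dx (dx h2) z - δ * dx (dx w0) z := by
      rw [dx_sub s2 sδ, dx_const_mul δ Sm_w0, dx_sub s2.dx ((Sm.const δ).mul' Sm_w0.dx),
        dx_const_mul δ Sm_w0.dx]
    rw [e1, e2]
    linear_combination δ * lap_w0 z
  have efun : (fun z => Gauss.brioschi h1 h2 z - δ * kap0 z) = fun z =>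
      (((-(1 / 2)) * (((1 + h1 z) * (1 + h2 z)) *
        (dy (dy (fun z => h1 z - δ * w0 z)) z + dx (dx (fun z => h2 z - δ * w0 z)) z)) +
      δ * (kap0 z * ((h1 z + h2 z) + h1 z * h2 z))) +
      (1 / 4) * ((1 + h1 z) * (dy h1 z * dy h2 z + dx h2 z * dx h2 z))) +
      (1 / 4) * ((1 + h2 z) * (dx h1 z * dx h2 z + dy h1 z * dy h1 z)) := by
    funext z
    unfold Gauss.brioschi
    rw [hsum z]
    ring
  rw [efun]
  have b0 : Bd z (D * δ) h1 := B1 [] (by simp)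
  have b1 : Bd z (D * δ) (dx h1) := B1 [true] (by simp)
  have b2 : Bd z (D * δ) (dy h1) := B1 [false] (by simp)
  have c0 : Bd z (D * δ) h2 := B2 [] (by simp)
  have c1 : Bd z (D * δ) (dx h2) := B2 [true] (by simp)
  have c2 : Bd z (D * δ) (dy h2) := B2 [false] (by simp)
  have t1 := ((b0.one_add.mul c0.one_add).mul Be).const_mul (-(1 / 2))
  have t2 := ((Bd_kap0 hz).mul ((b0.add c0).add (b0.mul c0))).const_mul δ
  have t3 := (b0.one_add.mul ((b2.mul c2).add (c1.mul c1))).const_mul (1 / 4)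
  have t4 := (c0.one_add.mul ((b1.mul c1).add (b2.mul b2))).const_mul (1 / 4)
  refine (((t1.add t2).add t3).add t4).mono ?_
  have hDpos : 0 < D := by rw [hD]; linarith
  have hD1 : D * δ ≤ D := by nlinarith
  have a1 : |(-(1 / 2) : ℝ)| = 1 / 2 := by norm_num
  have a2 : |(1 / 4 : ℝ)| = 1 / 4 := by norm_num
  rw [a1, a2, abs_of_pos hδ]
  have hδ2 : 0 ≤ δ ^ 2 := by positivity
  have q1 : (1 + D * δ) * (1 + D * δ) ≤ (1 + D) ^ 2 := by
    have : 0 ≤ D * δ := by positivity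
    nlinarith
  have p1 : 1 / 2 * ((1 + D * δ) * (1 + D * δ) * (3 * δ ^ 2 + 3 * δ ^ 2)) ≤
      3 * (1 + D) ^ 2 * δ ^ 2 := by
    calc _ = 3 * δ ^ 2 * ((1 + D * δ) * (1 + D * δ)) := by ring
      _ ≤ 3 * δ ^ 2 * (1 + D) ^ 2 := mul_le_mul_of_nonneg_left q1 (by positivity)
      _ = _ := by ring
  have p2 : δ * (7 * (D * δ + D * δ + D * δ * (D * δ))) ≤ 7 * (2 * D + D ^ 2) * δ ^ 2 := by
    have : D ^ 2 * δ ^ 3 ≤ D ^ 2 * δ ^ 2 := by
      apply mul_le_mul_of_nonneg_left _ (by positivity)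
      calc δ ^ 3 = δ ^ 2 * δ := by ring
        _ ≤ δ ^ 2 * 1 := mul_le_mul_of_nonneg_left hδ1 hδ2
        _ = δ ^ 2 := by ring
    calc _ = 7 * (2 * D * δ ^ 2 + D ^ 2 * δ ^ 3) := by ring
      _ ≤ 7 * (2 * D * δ ^ 2 + D ^ 2 * δ ^ 2) := by linarith
      _ = _ := by ring
  have p3 : 1 / 4 * ((1 + D * δ) * (D * δ * (D * δ) + D * δ * (D * δ))) ≤
      1 / 2 * ((1 + D) * D ^ 2) * δ ^ 2 := by
    calc _ = 1 / 2 * D ^ 2 * δ ^ 2 * (1 + D * δ) := by ring
      _ ≤ 1 / 2 * D ^ 2 * δ ^ 2 * (1 + D) :=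
          mul_le_mul_of_nonneg_left (by linarith) (by positivity)
      _ = _ := by ring
  nlinarith

end Crest.Agent.R220.AvgFrame

namespace Crest.Agent.R220

open AvgFrame

/-- `{X,Y} ≥ 1/2` for maps close to the identity -/
theorem AvgFrame.half_le_br {X Y : Pl → ℝ} {z : Pl} {e : ℝ} (he0 : 0 ≤ e) (he : e ≤ 1 / 4)
    (h1 : |dx X z - 1| ≤ e) (h2 : |dy X z| ≤ e) (h3 : |dx Y z| ≤ e) (h4 : |dy Y z - 1| ≤ e) :
    1 / 2 ≤ br X Y z := by
  have a1 := abs_le.1 h1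
  have a4 := abs_le.1 h4
  have a5 : |dy X z * dx Y z| ≤ 1 / 16 := by
    rw [abs_mul]
    calc |dy X z| * |dx Y z| ≤ e * e := mul_le_mul h2 h3 (abs_nonneg _) he0
      _ ≤ 1 / 16 := by nlinarith
  have a6 := (abs_le.1 a5).2
  have a7 : 9 / 16 ≤ dx X z * dy Y z := by nlinarith [a1.1, a4.1]
  unfold br
  linarith

theorem AvgFrame.half_le_br' {X Y : Pl → ℝ} {z : Pl} {e : ℝ} (hX : Sm X) (hY : Sm Y)
    (he0 : 0 ≤ e) (he : e ≤ 1 / 4)
    (h1 : ∀ w : List Bool, w.length ≤ 1 → |Dw w (fun z => X z - z.1) z| ≤ e)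
    (h2 : ∀ w : List Bool, w.length ≤ 1 → |Dw w (fun z => Y z - z.2) z| ≤ e) :
    1 / 2 ≤ br X Y z := by
  have a1 := h1 [true] (by simp)
  have a2 := h1 [false] (by simp)
  have a3 := h2 [true] (by simp)
  have a4 := h2 [false] (by simp)
  rw [Dw_sub hX Sm.fst] at a1 a2
  rw [Dw_sub hY Sm.snd] at a3 a4
  simp only [Dw_true, Dw_false, Dw_nil, dx_fst, dy_fst, dx_snd, dy_snd, sub_zero] at a1 a2 a3 a4
  exact AvgFrame.half_le_br he0 he a1 a2 a3 a4

set_option maxHeartbeats 4000000 in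
/-- **avg_frame** -/
theorem avg_frame (η : ℝ) (hη : 0 < η) : ∃ η1 δ1 : ℝ, 0 < η1 ∧ 0 < δ1 ∧
    ∀ δ A0 : ℝ, 0 < δ → δ ≤ δ1 → 0 < A0 → ∃ ε0 ε1 : ℝ, 0 < ε0 ∧ 0 < ε1 ∧
    ∀ A1 A2 : ℝ, A0 ≤ A1 → A1 ≤ 1 → A0 ≤ A2 → A2 ≤ 1 →
    ∀ h1 h2 X1 Y1 Z1 X2 Y2 Z2 : Pl → ℝ, Sm h1 → Sm h2 →
      NearCylLoc η1 A1 X1 Y1 Z1 → NearCylLoc η1 A2 X2 Y2 Z2 →
      IsoOn (sq 1) h1 h2 X1 Y1 Z1 →
      (∀ w : List Bool, w.length ≤ 3 → ∀ z ∈ sq (95/100),
        |Dw w (fun z => h1 z - δ * w0 z) z| ≤ ε1 ∧ |Dw w (fun z => h2 z - δ * w0 z) z| ≤ ε1) →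
      (∀ w : List Bool, w.length ≤ 3 → ∀ z ∈ sq 1, |Dw w X1 z - Dw w X2 z| ≤ ε0 ∧
        |Dw w Y1 z - Dw w Y2 z| ≤ ε0 ∧ |Dw w Z1 z - Dw w Z2 z| ≤ ε0) →
      ∃ X Y u : Pl → ℝ, NearCyl η X Y u ∧
        (∀ z ∈ sq (95/100), X z = (X1 z + X2 z) / 2 ∧ Y z = (Y1 z + Y2 z) / 2 ∧
          u z = (Z1 z + Z2 z) / (2 * A1)) ∧
        KapClose η (δ / A1 ^ 2) (kapf X Y u) := by
  obtain ⟨χ, hχ, hχ1, hχ0, Cχ, hCχ, hχC⟩ := exists_cut
  obtain ⟨CL, hCL, hL⟩ := kE_lip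
  obtain ⟨CB, hCB, hB⟩ := bri_close
  obtain ⟨MJ, CJ, hMJ, hCJ, hJlip⟩ := J_lip
  -- the parameters
  set K1 : ℝ := CB * MJ + 7 * CJ + 1 with hK1
  have hK1pos : 0 < K1 := by positivity
  set η1 : ℝ := min (min (η / (64 * Cχ)) (1 / (256 * Cχ))) (η / (4 * K1)) with hη1
  have hCχ0 : 0 < Cχ := by linarith
  have hη1pos : 0 < η1 := by
    rw [hη1]; refine lt_min (lt_min ?_ ?_) ?_ <;> positivity
  have hη1a : 64 * Cχ * η1 ≤ η := by
    have : η1 ≤ η / (64 * Cχ) := (min_le_left _ _).trans (min_le_left _ _)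
    rw [le_div_iff₀ (by positivity)] at this
    linarith
  have hη1b : 64 * Cχ * η1 ≤ 1 / 4 := by
    have : η1 ≤ 1 / (256 * Cχ) := (min_le_left _ _).trans (min_le_right _ _)
    rw [le_div_iff₀ (by positivity)] at this
    linarith
  have hη1c : K1 * η1 ≤ η / 4 := by
    have : η1 ≤ η / (4 * K1) := min_le_right _ _
    rw [le_div_iff₀ (by positivity)] at this
    linarith
  have hη1d : η1 ≤ 1 / 256 := by nlinarith
  set δ1 : ℝ := min 1 (η / (4 * K1)) with hδ1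
  have hδ1pos : 0 < δ1 := lt_min one_pos (by positivity)
  refine ⟨η1, δ1, hη1pos, hδ1pos, ?_⟩
  intro δ A0 hδ hδle hA0
  have hδ1' : δ ≤ 1 := hδle.trans (min_le_left _ _)
  have hδK : K1 * δ ≤ η / 4 := by
    have : δ ≤ η / (4 * K1) := hδle.trans (min_le_right _ _)
    rw [le_div_iff₀ (by positivity)] at this
    linarith
  set ε : ℝ := min η1 (η * δ / (4 * CL)) with hε
  have hεpos : 0 < ε := lt_min hη1pos (by positivity)
  have hεη : ε ≤ η1 := min_le_left _ _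
  have hεL : CL * ε ≤ η / 4 * δ := by
    have : ε ≤ η * δ / (4 * CL) := min_le_right _ _
    rw [le_div_iff₀ (by positivity)] at this
    linarith
  refine ⟨A0 * ε, δ ^ 2, by positivity, by positivity, ?_⟩
  intro A1 A2 hA1 hA1' hA2 hA2' h1 h2 X1 Y1 Z1 X2 Y2 Z2 sh1 sh2 N1 N2 hI hh hc
  have hA1pos : 0 < A1 := hA0.trans_le hA1
  have hA2pos : 0 < A2 := hA0.trans_le hA2
  have hA0' : A0 ≤ 1 := hA1.trans hA1'
  have hε0 : A0 * ε ≤ ε := by nlinarith
  -- closeness of the amplitudes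
  have hsmA : ∀ A : ℝ, Sm (fun z : Pl => A * z.1 ^ 2 / 2) := by
    intro A
    have e : (fun z : Pl => A * z.1 ^ 2 / 2) = fun z => A * (z.1 ^ 2 / 2) := by funext z; ring
    rw [e]; exact (Sm.const A).mul' Sm_half
  have hDwA : ∀ (A : ℝ) (w : List Bool), Dw w (fun z : Pl => A * z.1 ^ 2 / 2) =
      fun z => A * Dw w (fun z : Pl => z.1 ^ 2 / 2) z := by
    intro A w
    have e : (fun z : Pl => A * z.1 ^ 2 / 2) = fun z => A * (z.1 ^ 2 / 2) := by funext z; ring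
    rw [e, Dw_const_mul A Sm_half]
  have h0sq : ∀ {a : ℝ}, 0 ≤ a → (0 : Pl) ∈ sq a := by
    intro a ha; constructor <;> simpa using ha
  have hAA : |A1 - A2| ≤ 4 * η1 * A1 := by
    have e1 := N1.clZ [true, true] (by simp) 0 (h0sq zero_le_one)
    have e2 := N2.clZ [true, true] (by simp) 0 (h0sq zero_le_one)
    have e3 := (hc [true, true] (by simp) 0 (h0sq zero_le_one)).2.2
    rw [Dw_sub N1.smZ (hsmA A1), hDwA] at e1
    rw [Dw_sub N2.smZ (hsmA A2), hDwA] at e2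
    have e4 : Dw [true, true] (fun z : Pl => z.1 ^ 2 / 2) = fun _ => 1 := by
      show dx (dx (fun z : Pl => z.1 ^ 2 / 2)) = _
      rw [dx_half, dx_fst]
    rw [e4] at e1 e2
    simp only [mul_one] at e1 e2
    have f1 := abs_le.1 e1
    have f2 := abs_le.1 e2
    have f3 := abs_le.1 e3
    have g0 : A0 * ε ≤ A1 * η1 := mul_le_mul hA1 hεη hεpos.le hA1pos.le
    have g1 : A2 * (1 - η1) ≤ A1 * (1 + 2 * η1) := by nlinarith [f1.2, f2.1, f3.1]
    have g2 : A2 ≤ 2 * A1 := by nlinarith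
    have g3 : η1 * A2 ≤ η1 * (2 * A1) := mul_le_mul_of_nonneg_left g2 hη1pos.le
    rw [abs_le]
    constructor
    · linarith [f1.1, f1.2, f2.1, f2.2, f3.1, f3.2]
    · linarith [f1.1, f1.2, f2.1, f2.2, f3.1, f3.2]
  -- the perturbations
  set mX : Pl → ℝ := fun z => (1 / 2) * ((X1 z - z.1) + (X2 z - z.1)) with hmX
  set mY : Pl → ℝ := fun z => (1 / 2) * ((Y1 z - z.2) + (Y2 z - z.2)) with hmY
  set mU : Pl → ℝ := fun z => (1 / (2 * A1)) * ((Z1 z - A1 * z.1 ^ 2 / 2) +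
    (Z2 z - A2 * z.1 ^ 2 / 2)) + ((A2 - A1) / (2 * A1)) * (z.1 ^ 2 / 2) with hmU
  have sX1 := N1.smX.sub' Sm.fst
  have sX2 := N2.smX.sub' Sm.fst
  have sY1 := N1.smY.sub' Sm.snd
  have sY2 := N2.smY.sub' Sm.snd
  have sZ1 := N1.smZ.sub' (hsmA A1)
  have sZ2 := N2.smZ.sub' (hsmA A2)
  have smX : Sm mX := (Sm.const _).mul' (sX1.add' sX2)
  have smY : Sm mY := (Sm.const _).mul' (sY1.add' sY2)
  have smU : Sm mU := ((Sm.const _).mul' (sZ1.add' sZ2)).add' ((Sm.const _).mul' Sm_half)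
  have hbX : ∀ w : List Bool, w.length ≤ 4 → ∀ z ∈ sq 1, |Dw w mX z| ≤ 4 * η1 := by
    intro w hw z hz
    rw [hmX, Dw_const_mul _ (sX1.add' sX2), Dw_add sX1 sX2]
    have a1 := abs_le.1 (N1.clX w hw z hz)
    have a2 := abs_le.1 (N2.clX w hw z hz)
    rw [abs_le]; constructor <;> linarith [a1.1, a1.2, a2.1, a2.2]
  have hbY : ∀ w : List Bool, w.length ≤ 4 → ∀ z ∈ sq 1, |Dw w mY z| ≤ 4 * η1 := by
    intro w hw z hz
    rw [hmY, Dw_const_mul _ (sY1.add' sY2), Dw_add sY1 sY2]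
    have a1 := abs_le.1 (N1.clY w hw z hz)
    have a2 := abs_le.1 (N2.clY w hw z hz)
    rw [abs_le]; constructor <;> linarith [a1.1, a1.2, a2.1, a2.2]
  have hbU : ∀ w : List Bool, w.length ≤ 4 → ∀ z ∈ sq 1, |Dw w mU z| ≤ 4 * η1 := by
    intro w hw z hz
    rw [hmU, Dw_add ((Sm.const _).mul' (sZ1.add' sZ2)) ((Sm.const _).mul' Sm_half),
      Dw_const_mul _ (sZ1.add' sZ2), Dw_add sZ1 sZ2, Dw_const_mul _ Sm_half]
    have a1 := N1.clZ w hw z hz
    have a2 := N2.clZ w hw z hz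
    have a3 := bnd_half w hz
    simp only
    set p1 := Dw w (fun z => Z1 z - A1 * z.1 ^ 2 / 2) z
    set p2 := Dw w (fun z => Z2 z - A2 * z.1 ^ 2 / 2) z
    set p3 := Dw w (fun z : Pl => z.1 ^ 2 / 2) z
    have hA2le : A2 ≤ 2 * A1 := by
      have := abs_le.1 hAA
      nlinarith [this.1]
    have e : 1 / (2 * A1) * (p1 + p2) + (A2 - A1) / (2 * A1) * p3 =
        (p1 + p2 + (A2 - A1) * p3) / (2 * A1) := by
      field_simp
    rw [e, abs_div, abs_of_pos (by positivity : (0 : ℝ) < 2 * A1), div_le_iff₀ (by positivity)]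
    have b1 : |(A2 - A1) * p3| ≤ 4 * η1 * A1 := by
      rw [abs_mul, abs_sub_comm]
      calc |A1 - A2| * |p3| ≤ 4 * η1 * A1 * 1 :=
            mul_le_mul hAA a3 (abs_nonneg _) (by positivity)
        _ = _ := by ring
    calc |p1 + p2 + (A2 - A1) * p3| ≤ |p1 + p2| + |(A2 - A1) * p3| := abs_add_le _ _
      _ ≤ |p1| + |p2| + |(A2 - A1) * p3| := by linarith [abs_add_le p1 p2]
      _ ≤ η1 * A1 + η1 * A2 + 4 * η1 * A1 := by linarith
      _ ≤ 4 * η1 * (2 * A1) := by nlinarith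
  have h4η1 : 0 ≤ 4 * η1 := by positivity
  have hEX := ext_close hχ hχ0 hχC hCχ smX h4η1 hbX
  have hEY := ext_close hχ hχ0 hχC hCχ smY h4η1 hbY
  have hEU := ext_close hχ hχ0 hχC hCχ smU h4η1 hbU
  have hη2 : 16 * Cχ * (4 * η1) ≤ η := by linarith
  have hη2' : 16 * Cχ * (4 * η1) ≤ 1 / 4 := by linarith
  -- the global functions
  set X : Pl → ℝ := fun z => z.1 + χ z * mX z with hXdef
  set Y : Pl → ℝ := fun z => z.2 + χ z * mY z with hYdef
  set u : Pl → ℝ := fun z => z.1 ^ 2 / 2 + χ z * mU z with hudef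
  have sX : Sm X := Sm.fst.add' (hχ.mul' smX)
  have sY : Sm Y := Sm.snd.add' (hχ.mul' smY)
  have su : Sm u := Sm_half.add' (hχ.mul' smU)
  have eX : (fun z => X z - z.1) = fun z => χ z * mX z := by funext z; simp [hXdef]
  have eY : (fun z => Y z - z.2) = fun z => χ z * mY z := by funext z; simp [hYdef]
  have eu : (fun z => u z - z.1 ^ 2 / 2) = fun z => χ z * mU z := by funext z; simp [hudef]
  have inX : ∀ z ∈ sq (95/100), X z = (X1 z + X2 z) / 2 := by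
    intro z hz; simp only [hXdef, hχ1 z hz, hmX]; ring
  have inY : ∀ z ∈ sq (95/100), Y z = (Y1 z + Y2 z) / 2 := by
    intro z hz; simp only [hYdef, hχ1 z hz, hmY]; ring
  have inU : ∀ z ∈ sq (95/100), u z = (Z1 z + Z2 z) / (2 * A1) := by
    intro z hz; simp only [hudef, hχ1 z hz, hmU]; field_simp; ring
  -- derivatives inside
  have DX : ∀ z ∈ sq (9/10), ∀ w : List Bool, Dw w X z = (1 / 2) * (Dw w X1 z + Dw w X2 z) := by
    intro z hz w
    have e : X =ᶠ[nhds z] fun z => (1 / 2) * (X1 z + X2 z) := by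
      filter_upwards [eventually_mem_sq (b := 95/100) (by norm_num) hz] with y hy
      rw [inX y hy]; ring
    rw [Dw_congr e w, Dw_const_mul _ (N1.smX.add' N2.smX), Dw_add N1.smX N2.smX]
  have DY : ∀ z ∈ sq (9/10), ∀ w : List Bool, Dw w Y z = (1 / 2) * (Dw w Y1 z + Dw w Y2 z) := by
    intro z hz w
    have e : Y =ᶠ[nhds z] fun z => (1 / 2) * (Y1 z + Y2 z) := by
      filter_upwards [eventually_mem_sq (b := 95/100) (by norm_num) hz] with y hy
      rw [inY y hy]; ring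
    rw [Dw_congr e w, Dw_const_mul _ (N1.smY.add' N2.smY), Dw_add N1.smY N2.smY]
  have DU : ∀ z ∈ sq (9/10), ∀ w : List Bool,
      Dw w u z = (1 / (2 * A1)) * (Dw w Z1 z + Dw w Z2 z) := by
    intro z hz w
    have e : u =ᶠ[nhds z] fun z => (1 / (2 * A1)) * (Z1 z + Z2 z) := by
      filter_upwards [eventually_mem_sq (b := 95/100) (by norm_num) hz] with y hy
      rw [inU y hy]; ring
    rw [Dw_congr e w, Dw_const_mul _ (N1.smZ.add' N2.smZ), Dw_add N1.smZ N2.smZ]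
  have h09 : ∀ z ∈ sq (9/10), z ∈ sq 1 := fun z hz => sq_mono (by norm_num) hz
  refine ⟨X, Y, u, ?_, fun z hz => ⟨inX z hz, inY z hz, inU z hz⟩, ?_⟩
  · refine ⟨sX, sY, su, ?_, ?_, ?_, ?_, ?_, ?_, ?_, ?_, ?_, ?_⟩
    · intro z hz
      have : χ z = 0 := hχ0 z fun h => hz (sq_mono (by norm_num) h)
      simp [hXdef, this]
    · intro z hz
      have : χ z = 0 := hχ0 z fun h => hz (sq_mono (by norm_num) h)
      simp [hYdef, this]
    · intro z hz
      have : χ z = 0 := hχ0 z fun h => hz (sq_mono (by norm_num) h)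
      simp [hudef, this]
    · rw [inX 0 (h0sq (by norm_num)), N1.X0, N2.X0]; simp
    · rw [inY 0 (h0sq (by norm_num)), N1.Y0, N2.Y0]; simp
    · have := DU 0 (h0sq (by norm_num)) [true]
      simp only [Dw_true, Dw_nil, N1.Zx0, N2.Zx0] at this
      rw [this]; simp
    · have := DU 0 (h0sq (by norm_num)) [false]
      simp only [Dw_false, Dw_nil, N1.Zy0, N2.Zy0] at this
      rw [this]; simp
    · intro w hw z
      rw [eX]; exact (hEX w hw z).trans hη2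
    · intro w hw z
      rw [eY]; exact (hEY w hw z).trans hη2
    · intro w hw z
      rw [eu]; exact (hEU w hw z).trans hη2
  · -- closeness of the curvature
    intro z hz
    have hz1 : z ∈ sq 1 := h09 z hz
    set u1 : Pl → ℝ := fun z => Z1 z / A1 with hu1
    have hu1' : u1 = fun z => (1 / A1) * Z1 z := by funext z; rw [hu1]; ring
    have su1 : Sm u1 := by rw [hu1']; exact (Sm.const _).mul' N1.smZ
    -- closeness of `X1, Y1, u1` to the model
    have clX1 : ∀ w : List Bool, w.length ≤ 4 → |Dw w (fun z => X1 z - z.1) z| ≤ η1 :=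
      fun w hw => N1.clX w hw z hz1
    have clY1 : ∀ w : List Bool, w.length ≤ 4 → |Dw w (fun z => Y1 z - z.2) z| ≤ η1 :=
      fun w hw => N1.clY w hw z hz1
    have clU1 : ∀ w : List Bool, w.length ≤ 4 → |Dw w (fun z => u1 z - z.1 ^ 2 / 2) z| ≤ η1 := by
      intro w hw
      have e : (fun z => u1 z - z.1 ^ 2 / 2) = fun z => (1 / A1) * (Z1 z - A1 * z.1 ^ 2 / 2) := by
        funext z; rw [hu1]; field_simp
      rw [e, Dw_const_mul _ sZ1]
      have := N1.clZ w hw z hz1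
      rw [abs_mul, abs_of_pos (by positivity : (0 : ℝ) < 1 / A1)]
      calc 1 / A1 * |Dw w (fun z => Z1 z - A1 * z.1 ^ 2 / 2) z| ≤ 1 / A1 * (η1 * A1) :=
            mul_le_mul_of_nonneg_left this (by positivity)
        _ = η1 := by field_simp
    have clX : ∀ w : List Bool, w.length ≤ 4 → |Dw w (fun z => X z - z.1) z| ≤ 1 / 4 := by
      intro w hw; rw [eX]; exact (hEX w hw z).trans hη2'
    have clY : ∀ w : List Bool, w.length ≤ 4 → |Dw w (fun z => Y z - z.2) z| ≤ 1 / 4 := by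
      intro w hw; rw [eY]; exact (hEY w hw z).trans hη2'
    have clU : ∀ w : List Bool, w.length ≤ 4 → |Dw w (fun z => u z - z.1 ^ 2 / 2) z| ≤ 1 / 4 := by
      intro w hw; rw [eu]; exact (hEU w hw z).trans hη2'
    have fX : ∀ v : List Bool, v.length ≤ 2 → n1 (Dw v X) z ≤ 4 := fun v hv =>
      n1_le_four sX Sm.fst (fun w => bnd_fst w hz1) clX (by norm_num) v (by omega)
    have fY : ∀ v : List Bool, v.length ≤ 2 → n1 (Dw v Y) z ≤ 4 := fun v hv =>
      n1_le_four sY Sm.snd (fun w => bnd_snd w hz1) clY (by norm_num) v (by omega)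
    have fU : ∀ v : List Bool, v.length ≤ 2 → n1 (Dw v u) z ≤ 4 := fun v hv =>
      n1_le_four su Sm_half (fun w => bnd_half w hz1) clU (by norm_num) v (by omega)
    have fX1 : ∀ v : List Bool, v.length ≤ 2 → n1 (Dw v X1) z ≤ 4 := fun v hv =>
      n1_le_four N1.smX Sm.fst (fun w => bnd_fst w hz1) clX1 (by linarith) v (by omega)
    have fY1 : ∀ v : List Bool, v.length ≤ 2 → n1 (Dw v Y1) z ≤ 4 := fun v hv =>
      n1_le_four N1.smY Sm.snd (fun w => bnd_snd w hz1) clY1 (by linarith) v (by omega)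
    have fU1 : ∀ v : List Bool, v.length ≤ 2 → n1 (Dw v u1) z ≤ 4 := fun v hv =>
      n1_le_four su1 Sm_half (fun w => bnd_half w hz1) clU1 (by linarith) v (by omega)
    have f0 : ∀ (b : Pl → ℝ), Sm b → (∀ w : List Bool, |Dw w b z| ≤ 1) →
        ∀ v : List Bool, v.length ≤ 2 → n1 (Dw v b) z ≤ 4 := by
      intro b sb hb v hv
      have := n1_Dw_le (k := 3) (fun w _ => hb w) v (by omega)
      linarith
    -- differences
    have dX : ∀ w : List Bool, w.length ≤ 3 → |Dw w X z - Dw w X1 z| ≤ ε := by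
      intro w hw
      have a := abs_le.1 (hc w hw z hz1).1
      rw [DX z hz w, abs_le]
      constructor <;> linarith [a.1, a.2]
    have dY : ∀ w : List Bool, w.length ≤ 3 → |Dw w Y z - Dw w Y1 z| ≤ ε := by
      intro w hw
      have a := abs_le.1 (hc w hw z hz1).2.1
      rw [DY z hz w, abs_le]
      constructor <;> linarith [a.1, a.2]
    have dU : ∀ w : List Bool, w.length ≤ 3 → |Dw w u z - Dw w u1 z| ≤ ε := by
      intro w hw
      have a := (hc w hw z hz1).2.2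
      rw [DU z hz w, hu1', Dw_const_mul _ N1.smZ]
      have e : 1 / (2 * A1) * (Dw w Z1 z + Dw w Z2 z) - 1 / A1 * Dw w Z1 z =
          (Dw w Z2 z - Dw w Z1 z) / (2 * A1) := by field_simp; ring
      simp only
      rw [e, abs_div, abs_of_pos (by positivity : (0 : ℝ) < 2 * A1), div_le_iff₀ (by positivity),
        abs_sub_comm]
      calc |Dw w Z1 z - Dw w Z2 z| ≤ A0 * ε := a
        _ ≤ A1 * ε := mul_le_mul_of_nonneg_right hA1 hεpos.le
        _ ≤ ε * (2 * A1) := by nlinarith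
    have hJ : 1 / 2 ≤ br X Y z := half_le_br' sX sY (by norm_num) (le_refl _)
      (fun w hw => clX w (by omega)) (fun w hw => clY w (by omega))
    have hJ1 : 1 / 2 ≤ br X1 Y1 z := half_le_br' N1.smX N1.smY hη1pos.le (by linarith)
      (fun w hw => clX1 w (by omega)) (fun w hw => clY1 w (by omega))
    have hJ0 : 1 / 2 ≤ br (fun z : Pl => z.1) (fun z : Pl => z.2) z := by
      unfold br; rw [dx_fst, dy_fst, dx_snd, dy_snd]; norm_num
    obtain ⟨dk, dk1, hk⟩ := hL X Y u X1 Y1 u1 z ε hεpos.le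
      (Nr_of sX N1.smX fX fX1 dX) (Nr_of sY N1.smY fY fY1 dY) (Nr_of su su1 fU fU1 dU) hJ hJ1
    -- the Jacobian
    have hNJ : Nr z MJ CJ η1 (Ji4 X1 Y1) (Ji4 (fun z : Pl => z.1) (fun z : Pl => z.2)) := by
      refine hJlip X1 Y1 _ _ z η1 hη1pos.le
        (Nr_of N1.smX Sm.fst fX1 (f0 _ Sm.fst (fun w => bnd_fst w hz1)) ?_)
        (Nr_of N1.smY Sm.snd fY1 (f0 _ Sm.snd (fun w => bnd_snd w hz1)) ?_) hJ1 hJ0
      · intro w hw
        have := clX1 w (by omega)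
        rwa [Dw_sub N1.smX Sm.fst] at this
      · intro w hw
        have := clY1 w (by omega)
        rwa [Dw_sub N1.smY Sm.snd] at this
    have hJ01 : Ji4 (fun z : Pl => z.1) (fun z : Pl => z.2) = fun _ => 1 := by
      funext z; unfold Ji4 br; rw [dx_fst, dy_fst, dx_snd, dy_snd]; norm_num
    rw [hJ01] at hNJ
    have BJ : Bd z MJ (Ji4 X1 Y1) := ⟨hNJ.df, hNJ.bf⟩
    have BJ1 : Bd z (CJ * η1) (fun z => Ji4 X1 Y1 z - 1) :=
      ⟨hNJ.df.sub (differentiableAt_const _), hNJ.bd⟩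
    -- Brioschi
    have hBz := hB δ hδ hδ1' h1 h2 sh1 sh2 z hz1
      (fun w hw => hh w hw z (sq_mono (by norm_num) hz))
    have Bk := Bd_kap0 hz1
    have Bmain : Bd z (CB * δ ^ 2 * MJ + |δ| * (7 * (CJ * η1)))
        (fun z => (Gauss.brioschi h1 h2 z - δ * kap0 z) * Ji4 X1 Y1 z +
          δ * (kap0 z * (Ji4 X1 Y1 z - 1))) :=
      (hBz.mul BJ).add ((Bk.mul BJ1).const_mul δ)
    -- local formula for `kE X1 Y1 u1`
    have hU : IsOpen {z : Pl | |z.1| < 1 ∧ |z.2| < 1} :=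
      (isOpen_lt (continuous_abs.comp continuous_fst) continuous_const).inter
        (isOpen_lt (continuous_abs.comp continuous_snd) continuous_const)
    have hIU : IsoOn {z : Pl | |z.1| < 1 ∧ |z.2| < 1} h1 h2 X1 Y1 Z1 :=
      ⟨fun z hz => hI.g11 z ⟨hz.1.le, hz.2.le⟩, fun z hz => hI.g12 z ⟨hz.1.le, hz.2.le⟩,
        fun z hz => hI.g22 z ⟨hz.1.le, hz.2.le⟩⟩
    have hzU : z ∈ {z : Pl | |z.1| < 1 ∧ |z.2| < 1} :=
      ⟨lt_of_le_of_lt hz.1 (by norm_num), lt_of_le_of_lt hz.2 (by norm_num)⟩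
    have ek1 : kE X1 Y1 u1 =ᶠ[nhds z] fun z => (1 / A1 ^ 2) *
        (Gauss.brioschi h1 h2 z * Ji4 X1 Y1 z) := by
      have hne : ∀ᶠ y in nhds z, br X1 Y1 y ≠ 0 :=
        (N1.smX.br N1.smY).continuous'.continuousAt.eventually_ne (by linarith)
      filter_upwards [hne, hU.mem_nhds hzU] with y hy hyU
      rw [← kapf_eq N1.smX N1.smY su1 hy]
      have hg := gauss_eq_scaled hU N1.smX N1.smY N1.smZ hIU hyU hy A1
      have : kapf X1 Y1 u1 y = kapf X1 Y1 (fun w => Z1 w / A1) y := rfl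
      rw [this]
      have h3 : kapf X1 Y1 (fun w => Z1 w / A1) y =
          Gauss.brioschi h1 h2 y / A1 ^ 2 / br X1 Y1 y ^ 4 := by
        rw [← hg]; field_simp
      rw [h3]
      unfold Ji4
      field_simp
    -- final estimate
    set κd : Pl → ℝ := fun z => kapf X Y u z - δ / A1 ^ 2 * kap0 z with hκd
    have eκ : kapf X Y u =ᶠ[nhds z] kE X Y u := by
      have hne : ∀ᶠ y in nhds z, br X Y y ≠ 0 :=
        (sX.br sY).continuous'.continuousAt.eventually_ne (by linarith)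
      filter_upwards [hne] with y hy
      exact kapf_eq sX sY su hy
    have edec : κd =ᶠ[nhds z] fun z => (kE X Y u z - kE X1 Y1 u1 z) + (1 / A1 ^ 2) *
        ((Gauss.brioschi h1 h2 z - δ * kap0 z) * Ji4 X1 Y1 z +
          δ * (kap0 z * (Ji4 X1 Y1 z - 1))) := by
      filter_upwards [eκ, ek1] with y hy1 hy2
      simp only [hκd]
      rw [hy1, hy2]
      ring
    have Bfin : Bd z (CL * ε + |1 / A1 ^ 2| * (CB * δ ^ 2 * MJ + |δ| * (7 * (CJ * η1)))) κd := by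
      refine Bd.congr ?_ edec
      exact (Bd.add ⟨dk.sub dk1, hk⟩ (Bmain.const_mul _))
    have hnum : CL * ε + |1 / A1 ^ 2| * (CB * δ ^ 2 * MJ + |δ| * (7 * (CJ * η1))) ≤
        η * (δ / A1 ^ 2) := by
      rw [abs_of_pos hδ, abs_of_pos (by positivity : (0 : ℝ) < 1 / A1 ^ 2)]
      have hA12 : A1 ^ 2 ≤ 1 := by nlinarith
      have i1 : δ ≤ δ / A1 ^ 2 := by
        rw [le_div_iff₀ (by positivity)]; nlinarith
      have i2 : CB * δ ^ 2 * MJ + δ * (7 * (CJ * η1)) ≤ δ * (η / 2) := by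
        have j1 : CB * MJ * δ ≤ η / 4 := by
          have : CB * MJ * δ ≤ K1 * δ := by
            apply mul_le_mul_of_nonneg_right _ hδ.le
            rw [hK1]; nlinarith
          linarith
        have j2 : 7 * CJ * η1 ≤ η / 4 := by
          have : 7 * CJ * η1 ≤ K1 * η1 := by
            apply mul_le_mul_of_nonneg_right _ hη1pos.le
            rw [hK1]; nlinarith [mul_pos hCB hMJ]
          linarith
        calc CB * δ ^ 2 * MJ + δ * (7 * (CJ * η1)) = δ * (CB * MJ * δ + 7 * CJ * η1) := by ring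
          _ ≤ δ * (η / 2) := mul_le_mul_of_nonneg_left (by linarith) hδ.le
      have i3 : 1 / A1 ^ 2 * (CB * δ ^ 2 * MJ + δ * (7 * (CJ * η1))) ≤ 1 / A1 ^ 2 * (δ * (η / 2)) :=
        mul_le_mul_of_nonneg_left i2 (by positivity)
      have i4 : 1 / A1 ^ 2 * (δ * (η / 2)) = η / 2 * (δ / A1 ^ 2) := by ring
      have i5 : η / 4 * δ ≤ η / 4 * (δ / A1 ^ 2) := mul_le_mul_of_nonneg_left i1 (by positivity)
      have i6 : 0 < δ / A1 ^ 2 := by positivity
      nlinarith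
    have hfin := Bfin.bd.trans hnum
    have dκ : DifferentiableAt ℝ (kapf X Y u) z := dk.congr_of_eventuallyEq eκ
    have dkap : DifferentiableAt ℝ (fun z => δ / A1 ^ 2 * kap0 z) z :=
      Sm_kap0.differentiableAt.const_mul _
    refine ⟨?_, ?_, ?_⟩
    · have h3 : |κd z| ≤ η * (δ / A1 ^ 2) := abs_le_n1.trans hfin
      simpa only [hκd] using h3
    · have h3 : |dx κd z| ≤ η * (δ / A1 ^ 2) := abs_dx_le_n1.trans hfin
      rw [hκd, dx_sub_at dκ dkap, dx_const_mul_at _ Sm_kap0.differentiableAt, dx_kap0] at h3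
      exact h3
    · have h3 : |dy κd z| ≤ η * (δ / A1 ^ 2) := abs_dy_le_n1.trans hfin
      rw [hκd, dy_sub_at dκ dkap, dy_const_mul_at _ Sm_kap0.differentiableAt, dy_kap0] at h3
      exact h3

end Crest.Agent.R220
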