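import Crest.Agent.R220.Defs

/-!
# Row 220: basic calculus for `dx`, `dy`, `br`, `Dw` on smooth functions `ℝ × ℝ → ℝ`
-/

set_option autoImplicit false

open scoped ContDiff
open MeasureTheory

namespace Crest.Agent.R220

/-! ### Smoothness -/

protected theorem Sm.differentiable {f : Pl → ℝ} (hf : Sm f) : Differentiable ℝ f :=
  ContDiff.differentiable hf (by norm_num)

protected theorem Sm.differentiableAt {f : Pl → ℝ} (hf : Sm f) {z : Pl} : DifferentiableAt ℝ f z :=
  hf.differentiable z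

protected theorem Sm.continuous' {f : Pl → ℝ} (hf : Sm f) : Continuous f := ContDiff.continuous hf

protected theorem Sm.fderiv_apply {f : Pl → ℝ} (hf : Sm f) (v : Pl) : Sm (fun z => fderiv ℝ f z v) :=
  (ContDiff.fderiv_right (m := ∞) hf (by norm_num)).clm_apply contDiff_const

protected theorem Sm.dx {f : Pl → ℝ} (hf : Sm f) : Sm (dx f) := hf.fderiv_apply _

protected theorem Sm.dy {f : Pl → ℝ} (hf : Sm f) : Sm (dy f) := hf.fderiv_apply _

protected theorem Sm.add' {f g : Pl → ℝ} (hf : Sm f) (hg : Sm g) : Sm (fun z => f z + g z) :=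
  ContDiff.add hf hg

protected theorem Sm.sub' {f g : Pl → ℝ} (hf : Sm f) (hg : Sm g) : Sm (fun z => f z - g z) :=
  ContDiff.sub hf hg

protected theorem Sm.mul' {f g : Pl → ℝ} (hf : Sm f) (hg : Sm g) : Sm (fun z => f z * g z) :=
  ContDiff.mul hf hg

protected theorem Sm.neg' {f : Pl → ℝ} (hf : Sm f) : Sm (fun z => - f z) :=
  ContDiff.neg hf

protected theorem Sm.pow' {f : Pl → ℝ} (hf : Sm f) (n : ℕ) : Sm (fun z => f z ^ n) :=
  ContDiff.pow hf n

protected theorem Sm.inv' {f : Pl → ℝ} (hf : Sm f) (h : ∀ z, f z ≠ 0) : Sm (fun z => (f z)⁻¹) :=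
  ContDiff.inv hf h

protected theorem Sm.div' {f g : Pl → ℝ} (hf : Sm f) (hg : Sm g) (h : ∀ z, g z ≠ 0) :
    Sm (fun z => f z / g z) :=
  ContDiff.div hf hg h

protected theorem Sm.const (c : ℝ) : Sm (fun _ => c) := contDiff_const

protected theorem Sm.fst : Sm (fun z => z.1) := contDiff_fst

protected theorem Sm.snd : Sm (fun z => z.2) := contDiff_snd

protected theorem Sm.sum' {ι : Type*} {s : Finset ι} {f : ι → Pl → ℝ} (hf : ∀ i ∈ s, Sm (f i)) :
    Sm (fun z => ∑ i ∈ s, f i z) :=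
  ContDiff.sum hf

protected theorem Sm.comp' {φ : ℝ → ℝ} {f : Pl → ℝ} (hφ : ContDiff ℝ ∞ φ) (hf : Sm f) :
    Sm (fun z => φ (f z)) :=
  ContDiff.comp hφ hf

protected theorem Sm.br {f g : Pl → ℝ} (hf : Sm f) (hg : Sm g) : Sm (br f g) :=
  (hf.dx.mul' hg.dy).sub' (hf.dy.mul' hg.dx)

protected theorem Sm.Dw {f : Pl → ℝ} (hf : Sm f) : ∀ w : List Bool, Sm (Dw w f)
  | [] => hf
  | true :: w => (Sm.Dw hf w).dx
  | false :: w => (Sm.Dw hf w).dy

protected theorem Sm.pf {X Y u : Pl → ℝ} (hX : Sm X) (hY : Sm Y) (hu : Sm u) (hJ : ∀ z, br X Y z ≠ 0) :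
    Sm (pf X Y u) :=
  (hu.br hY).div' (hX.br hY) hJ

protected theorem Sm.qf {X Y u : Pl → ℝ} (hX : Sm X) (hY : Sm Y) (hu : Sm u) (hJ : ∀ z, br X Y z ≠ 0) :
    Sm (qf X Y u) :=
  (hX.br hu).div' (hX.br hY) hJ

protected theorem Sm.kapf {X Y u : Pl → ℝ} (hX : Sm X) (hY : Sm Y) (hu : Sm u)
    (hJ : ∀ z, br X Y z ≠ 0) : Sm (kapf X Y u) :=
  ((Sm.pf hX hY hu hJ).br (Sm.qf hX hY hu hJ)).div' (hX.br hY) hJ

protected theorem Sm.Pop {p Y f : Pl → ℝ} (hp : Sm p) (hY : Sm Y) (hf : Sm f) (hJ : ∀ z, br p Y z ≠ 0) :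
    Sm (Pop p Y f) :=
  (hf.br hY).div' (hp.br hY) hJ

protected theorem Sm.Top {p Y f : Pl → ℝ} (hp : Sm p) (hY : Sm Y) (hf : Sm f) (hJ : ∀ z, br p Y z ≠ 0) :
    Sm (Top p Y f) :=
  (hp.br hf).div' (hp.br hY) hJ

/-! ### Derivation rules -/

section rules

variable {f g : Pl → ℝ} {z : Pl}

theorem dx_congr (h : f =ᶠ[nhds z] g) : dx f z = dx g z := by
  unfold dx; rw [h.fderiv_eq]

theorem dy_congr (h : f =ᶠ[nhds z] g) : dy f z = dy g z := by
  unfold dy; rw [h.fderiv_eq]

theorem dx_const (c : ℝ) : dx (fun _ => c) = fun _ => 0 := by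
  funext z; simp [dx]

theorem dy_const (c : ℝ) : dy (fun _ => c) = fun _ => 0 := by
  funext z; simp [dy]

theorem dx_fst : dx (fun z => z.1) = fun _ => 1 := by
  funext z
  have : fderiv ℝ (fun z : Pl => z.1) z = ContinuousLinearMap.fst ℝ ℝ ℝ :=
    (ContinuousLinearMap.fst ℝ ℝ ℝ).fderiv
  simp [dx, this]

theorem dy_fst : dy (fun z => z.1) = fun _ => 0 := by
  funext z
  have : fderiv ℝ (fun z : Pl => z.1) z = ContinuousLinearMap.fst ℝ ℝ ℝ :=
    (ContinuousLinearMap.fst ℝ ℝ ℝ).fderiv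
  simp [dy, this]

theorem dx_snd : dx (fun z => z.2) = fun _ => 0 := by
  funext z
  have : fderiv ℝ (fun z : Pl => z.2) z = ContinuousLinearMap.snd ℝ ℝ ℝ :=
    (ContinuousLinearMap.snd ℝ ℝ ℝ).fderiv
  simp [dx, this]

theorem dy_snd : dy (fun z => z.2) = fun _ => 1 := by
  funext z
  have : fderiv ℝ (fun z : Pl => z.2) z = ContinuousLinearMap.snd ℝ ℝ ℝ :=
    (ContinuousLinearMap.snd ℝ ℝ ℝ).fderiv
  simp [dy, this]

theorem dx_add_at (hf : DifferentiableAt ℝ f z) (hg : DifferentiableAt ℝ g z) :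
    dx (fun z => f z + g z) z = dx f z + dx g z := by
  unfold dx; rw [fderiv_fun_add hf hg]; simp

theorem dy_add_at (hf : DifferentiableAt ℝ f z) (hg : DifferentiableAt ℝ g z) :
    dy (fun z => f z + g z) z = dy f z + dy g z := by
  unfold dy; rw [fderiv_fun_add hf hg]; simp

theorem dx_sub_at (hf : DifferentiableAt ℝ f z) (hg : DifferentiableAt ℝ g z) :
    dx (fun z => f z - g z) z = dx f z - dx g z := by
  unfold dx; rw [fderiv_fun_sub hf hg]; simp

theorem dy_sub_at (hf : DifferentiableAt ℝ f z) (hg : DifferentiableAt ℝ g z) :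
    dy (fun z => f z - g z) z = dy f z - dy g z := by
  unfold dy; rw [fderiv_fun_sub hf hg]; simp

theorem dx_neg_at : dx (fun z => - f z) z = - dx f z := by
  unfold dx; rw [fderiv_fun_neg]; simp

theorem dy_neg_at : dy (fun z => - f z) z = - dy f z := by
  unfold dy; rw [fderiv_fun_neg]; simp

theorem dx_mul_at (hf : DifferentiableAt ℝ f z) (hg : DifferentiableAt ℝ g z) :
    dx (fun z => f z * g z) z = f z * dx g z + g z * dx f z := by
  unfold dx; rw [fderiv_fun_mul hf hg]; simp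

theorem dy_mul_at (hf : DifferentiableAt ℝ f z) (hg : DifferentiableAt ℝ g z) :
    dy (fun z => f z * g z) z = f z * dy g z + g z * dy f z := by
  unfold dy; rw [fderiv_fun_mul hf hg]; simp

theorem dx_const_mul_at (c : ℝ) (hf : DifferentiableAt ℝ f z) :
    dx (fun z => c * f z) z = c * dx f z := by
  unfold dx; rw [fderiv_const_mul hf]; simp

theorem dy_const_mul_at (c : ℝ) (hf : DifferentiableAt ℝ f z) :
    dy (fun z => c * f z) z = c * dy f z := by
  unfold dy; rw [fderiv_const_mul hf]; simp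

theorem dx_inv_at (hf : DifferentiableAt ℝ f z) (h : f z ≠ 0) :
    dx (fun z => (f z)⁻¹) z = - dx f z / f z ^ 2 := by
  unfold dx
  have h1 : HasFDerivAt (fun z => (f z)⁻¹) (-(f z ^ 2)⁻¹ • fderiv ℝ f z) z :=
    (hasDerivAt_inv h).comp_hasFDerivAt z hf.hasFDerivAt
  rw [h1.fderiv]
  simp only [FunLike.coe_smul, Pi.smul_apply, smul_eq_mul]
  field_simp

theorem dy_inv_at (hf : DifferentiableAt ℝ f z) (h : f z ≠ 0) :
    dy (fun z => (f z)⁻¹) z = - dy f z / f z ^ 2 := by
  unfold dy
  have h1 : HasFDerivAt (fun z => (f z)⁻¹) (-(f z ^ 2)⁻¹ • fderiv ℝ f z) z :=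
    (hasDerivAt_inv h).comp_hasFDerivAt z hf.hasFDerivAt
  rw [h1.fderiv]
  simp only [FunLike.coe_smul, Pi.smul_apply, smul_eq_mul]
  field_simp

theorem dx_div_at (hf : DifferentiableAt ℝ f z) (hg : DifferentiableAt ℝ g z) (h : g z ≠ 0) :
    dx (fun z => f z / g z) z = (dx f z * g z - f z * dx g z) / g z ^ 2 := by
  have e : (fun z => f z / g z) = fun z => f z * (g z)⁻¹ := by funext z; rw [div_eq_mul_inv]
  have hi : DifferentiableAt ℝ (fun z => (g z)⁻¹) z := hg.inv h
  rw [e, dx_mul_at hf hi, dx_inv_at hg h]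
  field_simp
  ring

theorem dy_div_at (hf : DifferentiableAt ℝ f z) (hg : DifferentiableAt ℝ g z) (h : g z ≠ 0) :
    dy (fun z => f z / g z) z = (dy f z * g z - f z * dy g z) / g z ^ 2 := by
  have e : (fun z => f z / g z) = fun z => f z * (g z)⁻¹ := by funext z; rw [div_eq_mul_inv]
  have hi : DifferentiableAt ℝ (fun z => (g z)⁻¹) z := hg.inv h
  rw [e, dy_mul_at hf hi, dy_inv_at hg h]
  field_simp
  ring

theorem dx_pow_at (hf : DifferentiableAt ℝ f z) (n : ℕ) :
    dx (fun z => f z ^ n) z = n * f z ^ (n - 1) * dx f z := by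
  unfold dx; rw [fderiv_fun_pow n hf]; simp

theorem dy_pow_at (hf : DifferentiableAt ℝ f z) (n : ℕ) :
    dy (fun z => f z ^ n) z = n * f z ^ (n - 1) * dy f z := by
  unfold dy; rw [fderiv_fun_pow n hf]; simp

/-- chain rule for `φ ∘ f`, `φ : ℝ → ℝ` -/
theorem dx_comp_at {φ : ℝ → ℝ} (hφ : DifferentiableAt ℝ φ (f z)) (hf : DifferentiableAt ℝ f z) :
    dx (fun z => φ (f z)) z = deriv φ (f z) * dx f z := by
  unfold dx
  have h1 : HasFDerivAt (fun z => φ (f z)) (deriv φ (f z) • fderiv ℝ f z) z :=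
    hφ.hasDerivAt.comp_hasFDerivAt z hf.hasFDerivAt
  rw [h1.fderiv]; simp

theorem dy_comp_at {φ : ℝ → ℝ} (hφ : DifferentiableAt ℝ φ (f z)) (hf : DifferentiableAt ℝ f z) :
    dy (fun z => φ (f z)) z = deriv φ (f z) * dy f z := by
  unfold dy
  have h1 : HasFDerivAt (fun z => φ (f z)) (deriv φ (f z) • fderiv ℝ f z) z :=
    hφ.hasDerivAt.comp_hasFDerivAt z hf.hasFDerivAt
  rw [h1.fderiv]; simp

theorem dx_sum_at {ι : Type*} {s : Finset ι} {F : ι → Pl → ℝ}
    (hf : ∀ i ∈ s, DifferentiableAt ℝ (F i) z) :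
    dx (fun z => ∑ i ∈ s, F i z) z = ∑ i ∈ s, dx (F i) z := by
  unfold dx; rw [fderiv_fun_sum hf]; simp

theorem dy_sum_at {ι : Type*} {s : Finset ι} {F : ι → Pl → ℝ}
    (hf : ∀ i ∈ s, DifferentiableAt ℝ (F i) z) :
    dy (fun z => ∑ i ∈ s, F i z) z = ∑ i ∈ s, dy (F i) z := by
  unfold dy; rw [fderiv_fun_sum hf]; simp

end rules

/-! ### function versions of the rules, for smooth functions -/

section frules

variable {f g : Pl → ℝ}

theorem dx_add (hf : Sm f) (hg : Sm g) :
    dx (fun z => f z + g z) = fun z => dx f z + dx g z :=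
  funext fun _ => dx_add_at hf.differentiableAt hg.differentiableAt

theorem dy_add (hf : Sm f) (hg : Sm g) :
    dy (fun z => f z + g z) = fun z => dy f z + dy g z :=
  funext fun _ => dy_add_at hf.differentiableAt hg.differentiableAt

theorem dx_sub (hf : Sm f) (hg : Sm g) :
    dx (fun z => f z - g z) = fun z => dx f z - dx g z :=
  funext fun _ => dx_sub_at hf.differentiableAt hg.differentiableAt

theorem dy_sub (hf : Sm f) (hg : Sm g) :
    dy (fun z => f z - g z) = fun z => dy f z - dy g z :=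
  funext fun _ => dy_sub_at hf.differentiableAt hg.differentiableAt

theorem dx_neg : dx (fun z => - f z) = fun z => - dx f z :=
  funext fun _ => dx_neg_at

theorem dy_neg : dy (fun z => - f z) = fun z => - dy f z :=
  funext fun _ => dy_neg_at

theorem dx_mul (hf : Sm f) (hg : Sm g) :
    dx (fun z => f z * g z) = fun z => f z * dx g z + g z * dx f z :=
  funext fun _ => dx_mul_at hf.differentiableAt hg.differentiableAt

theorem dy_mul (hf : Sm f) (hg : Sm g) :
    dy (fun z => f z * g z) = fun z => f z * dy g z + g z * dy f z :=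
  funext fun _ => dy_mul_at hf.differentiableAt hg.differentiableAt

theorem dx_const_mul (c : ℝ) (hf : Sm f) : dx (fun z => c * f z) = fun z => c * dx f z :=
  funext fun _ => dx_const_mul_at c hf.differentiableAt

theorem dy_const_mul (c : ℝ) (hf : Sm f) : dy (fun z => c * f z) = fun z => c * dy f z :=
  funext fun _ => dy_const_mul_at c hf.differentiableAt

theorem dx_div (hf : Sm f) (hg : Sm g) (h : ∀ z, g z ≠ 0) :
    dx (fun z => f z / g z) = fun z => (dx f z * g z - f z * dx g z) / g z ^ 2 :=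
  funext fun z => dx_div_at hf.differentiableAt hg.differentiableAt (h z)

theorem dy_div (hf : Sm f) (hg : Sm g) (h : ∀ z, g z ≠ 0) :
    dy (fun z => f z / g z) = fun z => (dy f z * g z - f z * dy g z) / g z ^ 2 :=
  funext fun z => dy_div_at hf.differentiableAt hg.differentiableAt (h z)

theorem dx_sum {ι : Type*} {s : Finset ι} {F : ι → Pl → ℝ} (hf : ∀ i ∈ s, Sm (F i)) :
    dx (fun z => ∑ i ∈ s, F i z) = fun z => ∑ i ∈ s, dx (F i) z :=
  funext fun _ => dx_sum_at fun i hi => (hf i hi).differentiableAt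

theorem dy_sum {ι : Type*} {s : Finset ι} {F : ι → Pl → ℝ} (hf : ∀ i ∈ s, Sm (F i)) :
    dy (fun z => ∑ i ∈ s, F i z) = fun z => ∑ i ∈ s, dy (F i) z :=
  funext fun _ => dy_sum_at fun i hi => (hf i hi).differentiableAt

end frules

/-! ### symmetry of second derivatives -/

theorem fderiv_fderiv_apply {f : Pl → ℝ} (hf : Sm f) (v w : Pl) (z : Pl) :
    fderiv ℝ (fun z => fderiv ℝ f z v) z w = fderiv ℝ (fderiv ℝ f) z w v := by
  have h1 : Differentiable ℝ (fderiv ℝ f) :=
    (ContDiff.fderiv_right (m := ∞) hf (by norm_num)).differentiable (by norm_num)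
  have h2 : HasFDerivAt (fun z => fderiv ℝ f z v)
      ((ContinuousLinearMap.apply ℝ ℝ v).comp (fderiv ℝ (fderiv ℝ f) z)) z :=
    (ContinuousLinearMap.apply ℝ ℝ v).hasFDerivAt.comp z (h1 z).hasFDerivAt
  rw [h2.fderiv]; rfl

theorem fderiv_fderiv_symm {f : Pl → ℝ} (hf : Sm f) (v w : Pl) (z : Pl) :
    fderiv ℝ (fun z => fderiv ℝ f z v) z w = fderiv ℝ (fun z => fderiv ℝ f z w) z v := by
  rw [fderiv_fderiv_apply hf, fderiv_fderiv_apply hf]
  have h : IsSymmSndFDerivAt ℝ f z := by
    apply ContDiffAt.isSymmSndFDerivAt (n := ∞) hf.contDiffAt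
    rw [minSmoothness_of_isRCLikeNormedField]
    exact WithTop.coe_le_coe.2 le_top
  exact h w v

theorem dy_dx {f : Pl → ℝ} (hf : Sm f) : dy (dx f) = dx (dy f) := by
  funext z
  exact fderiv_fderiv_symm hf (1, 0) (0, 1) z

theorem dy_dx_at {f : Pl → ℝ} (hf : Sm f) (z : Pl) : dy (dx f) z = dx (dy f) z := by
  rw [dy_dx hf]

/-! ### iterated derivatives -/

theorem Dw_nil (f : Pl → ℝ) : Dw [] f = f := rfl
theorem Dw_true (w : List Bool) (f : Pl → ℝ) : Dw (true :: w) f = dx (Dw w f) := rfl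
theorem Dw_false (w : List Bool) (f : Pl → ℝ) : Dw (false :: w) f = dy (Dw w f) := rfl

theorem Dw_append (w v : List Bool) (f : Pl → ℝ) : Dw (w ++ v) f = Dw w (Dw v f) := by
  induction w with
  | nil => rfl
  | cons b w ih => cases b <;> simp [Dw, ih]

theorem Dw_dx (w : List Bool) (f : Pl → ℝ) : Dw w (dx f) = Dw (w ++ [true]) f := by
  rw [Dw_append]; rfl

theorem Dw_dy (w : List Bool) (f : Pl → ℝ) : Dw w (dy f) = Dw (w ++ [false]) f := by
  rw [Dw_append]; rfl

theorem dx_Dw {f : Pl → ℝ} (hf : Sm f) (w : List Bool) : dx (Dw w f) = Dw w (dx f) := by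
  induction w with
  | nil => rfl
  | cons b w ih =>
    cases b
    · rw [Dw_false, Dw_false, ← ih, dy_dx (hf.Dw w)]
    · rw [Dw_true, Dw_true, ih]

theorem dy_Dw {f : Pl → ℝ} (hf : Sm f) (w : List Bool) : dy (Dw w f) = Dw w (dy f) := by
  induction w with
  | nil => rfl
  | cons b w ih =>
    cases b
    · rw [Dw_false, Dw_false, ih]
    · rw [Dw_true, Dw_true, ← ih, dy_dx (hf.Dw w)]

theorem Dw_add {f g : Pl → ℝ} (hf : Sm f) (hg : Sm g) (w : List Bool) :
    Dw w (fun z => f z + g z) = fun z => Dw w f z + Dw w g z := by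
  induction w with
  | nil => rfl
  | cons b w ih =>
    cases b
    · rw [Dw_false, ih, dy_add (hf.Dw w) (hg.Dw w)]; rfl
    · rw [Dw_true, ih, dx_add (hf.Dw w) (hg.Dw w)]; rfl

theorem Dw_sub {f g : Pl → ℝ} (hf : Sm f) (hg : Sm g) (w : List Bool) :
    Dw w (fun z => f z - g z) = fun z => Dw w f z - Dw w g z := by
  induction w with
  | nil => rfl
  | cons b w ih =>
    cases b
    · rw [Dw_false, ih, dy_sub (hf.Dw w) (hg.Dw w)]; rfl
    · rw [Dw_true, ih, dx_sub (hf.Dw w) (hg.Dw w)]; rfl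

theorem Dw_const_mul {f : Pl → ℝ} (c : ℝ) (hf : Sm f) (w : List Bool) :
    Dw w (fun z => c * f z) = fun z => c * Dw w f z := by
  induction w with
  | nil => rfl
  | cons b w ih =>
    cases b
    · rw [Dw_false, ih, dy_const_mul c (hf.Dw w)]; rfl
    · rw [Dw_true, ih, dx_const_mul c (hf.Dw w)]; rfl

theorem Dw_sum {ι : Type*} {s : Finset ι} {F : ι → Pl → ℝ} (hf : ∀ i ∈ s, Sm (F i))
    (w : List Bool) : Dw w (fun z => ∑ i ∈ s, F i z) = fun z => ∑ i ∈ s, Dw w (F i) z := by
  induction w with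
  | nil => rfl
  | cons b w ih =>
    cases b
    · rw [Dw_false, ih, dy_sum fun i hi => (hf i hi).Dw w]; rfl
    · rw [Dw_true, ih, dx_sum fun i hi => (hf i hi).Dw w]; rfl

/-! ### supports -/

theorem support_dx_subset (f : Pl → ℝ) : Function.support (dx f) ⊆ tsupport f := by
  intro z hz
  apply support_fderiv_subset ℝ (f := f)
  intro h
  apply hz
  simp [dx, h]

theorem support_dy_subset (f : Pl → ℝ) : Function.support (dy f) ⊆ tsupport f := by
  intro z hz
  apply support_fderiv_subset ℝ (f := f)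
  intro h
  apply hz
  simp [dy, h]

theorem tsupport_dx_subset (f : Pl → ℝ) : tsupport (dx f) ⊆ tsupport f :=
  closure_minimal (support_dx_subset f) (isClosed_tsupport f)

theorem tsupport_dy_subset (f : Pl → ℝ) : tsupport (dy f) ⊆ tsupport f :=
  closure_minimal (support_dy_subset f) (isClosed_tsupport f)

theorem tsupport_Dw_subset (f : Pl → ℝ) (w : List Bool) : tsupport (Dw w f) ⊆ tsupport f := by
  induction w with
  | nil => exact subset_rfl
  | cons b w ih =>
    cases b
    · exact (tsupport_dy_subset _).trans ih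
    · exact (tsupport_dx_subset _).trans ih

protected theorem HasCompactSupport.dx {f : Pl → ℝ} (hf : HasCompactSupport f) : HasCompactSupport (dx f) :=
  hf.mono' (support_dx_subset f)

protected theorem HasCompactSupport.dy {f : Pl → ℝ} (hf : HasCompactSupport f) : HasCompactSupport (dy f) :=
  hf.mono' (support_dy_subset f)

/-- all derivatives of a smooth compactly supported function are bounded -/
theorem exists_bound_Dw {f : Pl → ℝ} (hf : Sm f) (hc : HasCompactSupport f) (w : List Bool) :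
    ∃ C : ℝ, ∀ z, |Dw w f z| ≤ C := by
  have hc' : HasCompactSupport (Dw w f) := by
    refine HasCompactSupport.of_support_subset_isCompact hc ?_
    exact (subset_tsupport _).trans (tsupport_Dw_subset f w)
  obtain ⟨C, hC⟩ := hc'.exists_bound_of_continuous (hf.Dw w).continuous'
  exact ⟨C, fun z => by simpa using hC z⟩

/-! ### integrals -/

protected theorem Sm.integrable {f : Pl → ℝ} (hf : Sm f) (hc : HasCompactSupport f) :
    Integrable f :=
  hf.continuous'.integrable_of_hasCompactSupport hc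

theorem integral_fderiv_eq_zero {f : Pl → ℝ} (hf : Sm f) (hc : HasCompactSupport f) (v : Pl) :
    ∫ z, fderiv ℝ f z v = 0 := by
  have hc' : HasCompactSupport (fun z => fderiv ℝ f z v) := by
    refine hc.mono' ?_
    intro z hz
    apply support_fderiv_subset ℝ (f := f)
    intro h
    apply hz
    simp [h]
  have hi : Integrable (fun z => fderiv ℝ f z v) :=
    (hf.fderiv_apply v).continuous'.integrable_of_hasCompactSupport hc'
  have := integral_mul_fderiv_eq_neg_fderiv_mul_of_integrable (μ := (volume : Measure Pl))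
    (f := fun _ => (1 : ℝ)) (g := f) (v := v) (by simp) (by simpa using hi)
    (by simpa using hf.integrable hc) (by intro x _; exact differentiableAt_const _)
    (by intro x _; exact hf.differentiableAt)
  simpa using this

theorem integral_dx {f : Pl → ℝ} (hf : Sm f) (hc : HasCompactSupport f) : ∫ z, dx f z = 0 :=
  integral_fderiv_eq_zero hf hc _

theorem integral_dy {f : Pl → ℝ} (hf : Sm f) (hc : HasCompactSupport f) : ∫ z, dy f z = 0 :=
  integral_fderiv_eq_zero hf hc _

/-- `{f,g} = (f g_y)_x - (f g_x)_y` -/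
theorem br_eq_div {f g : Pl → ℝ} (hf : Sm f) (hg : Sm g) (z : Pl) :
    br f g z = dx (fun z => f z * dy g z) z - dy (fun z => f z * dx g z) z := by
  rw [dx_mul hf hg.dy, dy_mul hf hg.dx]
  simp only [br, dy_dx_at hg]
  ring

theorem br_antisymm (f g : Pl → ℝ) (z : Pl) : br f g z = - br g f z := by
  unfold br; ring

theorem br_self (f : Pl → ℝ) (z : Pl) : br f f z = 0 := by
  unfold br; ring

protected theorem HasCompactSupport.br_left {f g : Pl → ℝ} (hf : HasCompactSupport f) :
    HasCompactSupport (br f g) := by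
  refine hf.mono' ?_
  intro z hz
  by_contra h
  apply hz
  have h1 : Crest.Agent.R220.dx f z = 0 := by
    by_contra h'
    exact h (support_dx_subset f h')
  have h2 : Crest.Agent.R220.dy f z = 0 := by
    by_contra h'
    exact h (support_dy_subset f h')
  simp [br, h1, h2]

theorem integral_br_left {f g : Pl → ℝ} (hf : Sm f) (hg : Sm g) (hc : HasCompactSupport f) :
    ∫ z, br f g z = 0 := by
  have h1 : HasCompactSupport (fun z => f z * dy g z) := hc.mul_right
  have h2 : HasCompactSupport (fun z => f z * dx g z) := hc.mul_right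
  simp_rw [br_eq_div hf hg]
  rw [integral_sub, integral_dx (hf.mul' hg.dy) h1, integral_dy (hf.mul' hg.dx) h2, sub_zero]
  · exact (hf.mul' hg.dy).dx.integrable (HasCompactSupport.dx h1)
  · exact (hf.mul' hg.dx).dy.integrable (HasCompactSupport.dy h2)

theorem integral_br_right {f g : Pl → ℝ} (hf : Sm f) (hg : Sm g) (hc : HasCompactSupport g) :
    ∫ z, br f g z = 0 := by
  simp_rw [br_antisymm f g]
  rw [integral_neg, integral_br_left hg hf hc, neg_zero]

end Crest.Agent.R220
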