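import Crest.Agent.R220.Basic

/-!
# Row 220: a small calculus of weighted `C^k` bounds

`Bd ξ k K f` : `f` is smooth and every word derivative of length `n ≤ k` is bounded by `K ξ^n`.
-/

set_option autoImplicit false

open scoped ContDiff Topology

namespace Crest.Agent.R220

/-- weighted `C^k` bound -/
def Bd (ξ : ℝ) (k : ℕ) (K : ℝ) (f : Pl → ℝ) : Prop :=
  Sm f ∧ ∀ w : List Bool, w.length ≤ k → ∀ z, |Dw w f z| ≤ K * ξ ^ w.length

namespace Bd

variable {ξ : ℝ} {k : ℕ} {K L : ℝ} {f g : Pl → ℝ}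

theorem sm (h : Bd ξ k K f) : Sm f := h.1

theorem abs_le (h : Bd ξ k K f) (z : Pl) : |f z| ≤ K := by
  simpa [Dw] using h.2 [] (Nat.zero_le _) z

theorem nonneg (h : Bd ξ k K f) : 0 ≤ K := (abs_nonneg _).trans (h.abs_le 0)

theorem mono (hξ : 1 ≤ ξ) {k' : ℕ} (hk : k' ≤ k) (hK : K ≤ L) (h : Bd ξ k K f) : Bd ξ k' L f :=
  ⟨h.1, fun w hw z => (h.2 w (hw.trans hk) z).trans
    (mul_le_mul_of_nonneg_right hK (pow_nonneg (by linarith) _))⟩

theorem congr (h : Bd ξ k K f) (e : f = g) : Bd ξ k K g := e ▸ h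

/-- unweighted bounds are weighted bounds for `ξ ≥ 1` -/
theorem of_one (hξ : 1 ≤ ξ) (hf : Sm f)
    (h : ∀ w : List Bool, w.length ≤ k → ∀ z, |Dw w f z| ≤ K) : Bd ξ k K f := by
  refine ⟨hf, fun w hw z => (h w hw z).trans ?_⟩
  have hK : 0 ≤ K := (abs_nonneg _).trans (h w hw z)
  exact le_mul_of_one_le_right hK (one_le_pow₀ hξ)

theorem add (hf : Bd ξ k K f) (hg : Bd ξ k L g) : Bd ξ k (K + L) (fun z => f z + g z) := by
  refine ⟨hf.1.add' hg.1, fun w hw z => ?_⟩
  rw [Dw_add hf.1 hg.1]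
  calc |Dw w f z + Dw w g z| ≤ |Dw w f z| + |Dw w g z| := abs_add_le _ _
    _ ≤ K * ξ ^ w.length + L * ξ ^ w.length := add_le_add (hf.2 w hw z) (hg.2 w hw z)
    _ = (K + L) * ξ ^ w.length := by ring

theorem sub (hf : Bd ξ k K f) (hg : Bd ξ k L g) : Bd ξ k (K + L) (fun z => f z - g z) := by
  refine ⟨hf.1.sub' hg.1, fun w hw z => ?_⟩
  rw [Dw_sub hf.1 hg.1]
  calc |Dw w f z - Dw w g z| ≤ |Dw w f z| + |Dw w g z| := abs_sub _ _
    _ ≤ K * ξ ^ w.length + L * ξ ^ w.length := add_le_add (hf.2 w hw z) (hg.2 w hw z)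
    _ = (K + L) * ξ ^ w.length := by ring

theorem const_mul (c : ℝ) (hf : Bd ξ k K f) : Bd ξ k (|c| * K) (fun z => c * f z) := by
  refine ⟨(Sm.const c).mul' hf.1, fun w hw z => ?_⟩
  rw [Dw_const_mul c hf.1, abs_mul, mul_assoc]
  exact mul_le_mul_of_nonneg_left (hf.2 w hw z) (abs_nonneg _)

theorem const (hξ : 1 ≤ ξ) (k : ℕ) (c : ℝ) : Bd ξ k |c| (fun _ => c) := by
  refine ⟨Sm.const c, fun w hw z => ?_⟩
  have h0 : ∀ w : List Bool, w ≠ [] → Dw w (fun _ : Pl => c) = fun _ => 0 := by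
    intro w
    induction w with
    | nil => intro h; exact absurd rfl h
    | cons b w ih =>
      intro _
      have : Dw w (fun _ : Pl => c) = (fun _ => 0) ∨ Dw w (fun _ : Pl => c) = fun _ => c := by
        by_cases hw : w = []
        · right; rw [hw]; rfl
        · left; exact ih hw
      cases b <;> rcases this with h | h <;>
        simp only [Dw, h, dx_const, dy_const]
  by_cases hw0 : w = []
  · subst hw0; simp [Dw]
  · rw [h0 w hw0]
    simp only [abs_zero]
    exact mul_nonneg (abs_nonneg _) (pow_nonneg (by linarith) _)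

theorem dx (hf : Bd ξ (k + 1) K f) : Bd ξ k (K * ξ) (dx f) := by
  refine ⟨hf.1.dx, fun w hw z => ?_⟩
  rw [Dw_dx]
  refine (hf.2 _ (by simpa using hw) z).trans (le_of_eq ?_)
  simp [pow_succ]; ring

theorem dy (hf : Bd ξ (k + 1) K f) : Bd ξ k (K * ξ) (dy f) := by
  refine ⟨hf.1.dy, fun w hw z => ?_⟩
  rw [Dw_dy]
  refine (hf.2 _ (by simpa using hw) z).trans (le_of_eq ?_)
  simp [pow_succ]; ring

/-- a function is `Bd (k+1)` if it is bounded and both first derivatives are `Bd k` -/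
theorem succ_of (hf : Sm f) (h0 : ∀ z, |f z| ≤ K) (hx : Bd ξ k (K * ξ) (R220.dx f))
    (hy : Bd ξ k (K * ξ) (R220.dy f)) : Bd ξ (k + 1) K f := by
  refine ⟨hf, fun w hw z => ?_⟩
  induction w using List.reverseRecOn with
  | nil => simpa [Dw] using h0 z
  | append_singleton w b _ =>
    have hw' : w.length ≤ k := by simpa using hw
    cases b
    · rw [← Dw_dy]
      refine (hy.2 w hw' z).trans (le_of_eq ?_)
      simp [pow_succ]; ring
    · rw [← Dw_dx]
      refine (hx.2 w hw' z).trans (le_of_eq ?_)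
      simp [pow_succ]; ring

theorem mul (hξ : 1 ≤ ξ) : ∀ {k : ℕ} {K L : ℝ} {f g : Pl → ℝ}, Bd ξ k K f → Bd ξ k L g →
    Bd ξ k (2 ^ k * (K * L)) (fun z => f z * g z) := by
  intro k
  induction k with
  | zero =>
    intro K L f g hf hg
    refine ⟨hf.1.mul' hg.1, fun w hw z => ?_⟩
    have : w = [] := List.length_eq_zero_iff.1 (Nat.le_zero.1 hw)
    subst this
    simp only [Dw, abs_mul, pow_zero, one_mul, List.length_nil, mul_one]
    exact mul_le_mul (hf.abs_le z) (hg.abs_le z) (abs_nonneg _) hf.nonneg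
  | succ k ih =>
    intro K L f g hf hg
    have hf' := hf.mono hξ (Nat.le_succ k) le_rfl
    have hg' := hg.mono hξ (Nat.le_succ k) le_rfl
    have hK := hf.nonneg
    have hL := hg.nonneg
    refine succ_of (hf.1.mul' hg.1) ?_ ?_ ?_
    · intro z
      rw [abs_mul]
      calc |f z| * |g z| ≤ K * L := mul_le_mul (hf.abs_le z) (hg.abs_le z) (abs_nonneg _) hK
        _ ≤ 2 ^ (k + 1) * (K * L) := by
          have : (1 : ℝ) ≤ 2 ^ (k + 1) := one_le_pow₀ (by norm_num)
          nlinarith [mul_nonneg hK hL]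
    · rw [dx_mul hf.1 hg.1]
      refine ((ih hf' hg.dx).add (ih hg' hf.dx)).mono hξ le_rfl (le_of_eq ?_)
      ring
    · rw [dy_mul hf.1 hg.1]
      refine ((ih hf' hg.dy).add (ih hg' hf.dy)).mono hξ le_rfl (le_of_eq ?_)
      ring

/-- constant for the inverse -/
noncomputable def invC : ℕ → ℝ → ℝ
  | 0, _ => 2
  | k + 1, K => 2 + invC k K + 2 ^ k * (K * (2 ^ k * (invC k K * invC k K)))

theorem invC_nonneg (k : ℕ) {K : ℝ} (hK : 0 ≤ K) : 2 ≤ invC k K := by
  induction k with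
  | zero => simp [invC]
  | succ k ih =>
    simp only [invC]
    have : 0 ≤ 2 ^ k * (K * (2 ^ k * (invC k K * invC k K))) := by positivity
    linarith

theorem inv (hξ : 1 ≤ ξ) : ∀ {k : ℕ}, Bd ξ k K f → (∀ z, 1 / 2 ≤ f z) →
    Bd ξ k (invC k K) (fun z => (f z)⁻¹) := by
  intro k
  have hne : (∀ z, 1 / 2 ≤ f z) → ∀ z, f z ≠ 0 := fun h z => by have := h z; intro h0; linarith
  have hb : (∀ z, 1 / 2 ≤ f z) → ∀ z, |(f z)⁻¹| ≤ 2 := fun h z => by
    have h1 := h z
    rw [abs_of_pos (inv_pos.2 (by linarith))]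
    calc (f z)⁻¹ ≤ (1 / 2)⁻¹ := inv_anti₀ (by norm_num) h1
      _ = 2 := by norm_num
  induction k with
  | zero =>
    intro hf h
    refine ⟨hf.1.inv' (hne h), fun w hw z => ?_⟩
    have : w = [] := List.length_eq_zero_iff.1 (Nat.le_zero.1 hw)
    subst this
    simpa [Dw, invC] using hb h z
  | succ k ih =>
    intro hf h
    have hf' := hf.mono hξ (Nat.le_succ k) le_rfl
    have hK := hf.nonneg
    have hi := ih hf' h
    have h2 := invC_nonneg k hK
    have hsm := hf.1.inv' (hne h)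
    have key : ∀ D : Pl → ℝ, Bd ξ k (K * ξ) D →
        Bd ξ k (invC (k + 1) K * ξ) (fun z => - (D z * ((f z)⁻¹ * (f z)⁻¹))) := by
      intro D hD
      have h3 := (hD.mul hξ (hi.mul hξ hi)).const_mul (-1)
      refine (h3.congr (by funext z; ring)).mono hξ le_rfl ?_
      simp only [invC, abs_neg, abs_one, one_mul]
      have e : 2 ^ k * (K * ξ * (2 ^ k * (invC k K * invC k K)))
          = 2 ^ k * (K * (2 ^ k * (invC k K * invC k K))) * ξ := by ring
      rw [e]
      apply mul_le_mul_of_nonneg_right _ (by linarith)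
      linarith
    refine succ_of hsm ?_ ?_ ?_
    · intro z
      refine (hb h z).trans ?_
      exact invC_nonneg _ hK
    · refine (key _ hf.dx).congr ?_
      funext z
      rw [dx_inv_at hf.1.differentiableAt (hne h z)]
      field_simp
    · refine (key _ hf.dy).congr ?_
      funext z
      rw [dy_inv_at hf.1.differentiableAt (hne h z)]
      field_simp

end Bd

end Crest.Agent.R220
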