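import Crest.Agent.R220.Basic

/-!
# Row 220: pointwise `C¹` seminorm calculus, used in `AvgFrame`
-/

set_option autoImplicit false

open scoped ContDiff

namespace Crest.Agent.R220.AvgFrame

/-- pointwise `C¹` seminorm -/
noncomputable def n1 (f : Pl → ℝ) (z : Pl) : ℝ := |f z| + |dx f z| + |dy f z|

section
variable {f g f' g' : Pl → ℝ} {z : Pl}

theorem n1_nonneg : 0 ≤ n1 f z := by unfold n1; positivity

theorem abs_le_n1 : |f z| ≤ n1 f z := by
  unfold n1; linarith [abs_nonneg (dx f z), abs_nonneg (dy f z)]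

theorem abs_dx_le_n1 : |dx f z| ≤ n1 f z := by
  unfold n1; linarith [abs_nonneg (f z), abs_nonneg (dy f z)]

theorem abs_dy_le_n1 : |dy f z| ≤ n1 f z := by
  unfold n1; linarith [abs_nonneg (dx f z), abs_nonneg (f z)]

theorem n1_congr (h : f =ᶠ[nhds z] g) : n1 f z = n1 g z := by
  unfold n1; rw [h.eq_of_nhds, dx_congr h, dy_congr h]

theorem n1_add_le (hf : DifferentiableAt ℝ f z) (hg : DifferentiableAt ℝ g z) :
    n1 (fun z => f z + g z) z ≤ n1 f z + n1 g z := by
  unfold n1
  rw [dx_add_at hf hg, dy_add_at hf hg]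
  linarith [abs_add_le (f z) (g z), abs_add_le (dx f z) (dx g z), abs_add_le (dy f z) (dy g z)]

theorem n1_sub_le (hf : DifferentiableAt ℝ f z) (hg : DifferentiableAt ℝ g z) :
    n1 (fun z => f z - g z) z ≤ n1 f z + n1 g z := by
  unfold n1
  rw [dx_sub_at hf hg, dy_sub_at hf hg]
  linarith [abs_sub (f z) (g z), abs_sub (dx f z) (dx g z), abs_sub (dy f z) (dy g z)]

theorem n1_mul_le (hf : DifferentiableAt ℝ f z) (hg : DifferentiableAt ℝ g z) :
    n1 (fun z => f z * g z) z ≤ n1 f z * n1 g z := by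
  unfold n1
  rw [dx_mul_at hf hg, dy_mul_at hf hg]
  have h1 := abs_add_le (f z * dx g z) (g z * dx f z)
  have h2 := abs_add_le (f z * dy g z) (g z * dy f z)
  simp only [abs_mul] at *
  nlinarith [mul_nonneg (abs_nonneg (dx f z)) (abs_nonneg (dx g z)),
    mul_nonneg (abs_nonneg (dx f z)) (abs_nonneg (dy g z)),
    mul_nonneg (abs_nonneg (dy f z)) (abs_nonneg (dx g z)),
    mul_nonneg (abs_nonneg (dy f z)) (abs_nonneg (dy g z))]

theorem n1_const_mul (c : ℝ) (hf : DifferentiableAt ℝ f z) :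
    n1 (fun z => c * f z) z = |c| * n1 f z := by
  unfold n1
  rw [dx_const_mul_at c hf, dy_const_mul_at c hf]
  simp only [abs_mul]
  ring

theorem n1_inv_le (hf : DifferentiableAt ℝ f z) (h : f z ≠ 0) :
    n1 (fun z => (f z)⁻¹) z ≤ n1 f z / f z ^ 2 := by
  unfold n1
  rw [dx_inv_at hf h, dy_inv_at hf h]
  rw [abs_div, abs_div, abs_neg, abs_neg, abs_inv, abs_pow, sq_abs]
  apply le_of_eq
  have : |f z| ^ 2 = f z ^ 2 := sq_abs _
  have h0 : |f z| ≠ 0 := abs_ne_zero.2 h
  have e : |f z|⁻¹ = |f z| / f z ^ 2 := by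
    rw [← this]; field_simp
  rw [e]
  ring

/-- closeness with bounds -/
structure Nr (z : Pl) (M c ε : ℝ) (f g : Pl → ℝ) : Prop where
  df : DifferentiableAt ℝ f z
  dg : DifferentiableAt ℝ g z
  bf : n1 f z ≤ M
  bg : n1 g z ≤ M
  bd : n1 (fun z => f z - g z) z ≤ c * ε

variable {M N c d ε : ℝ}

theorem Nr.mul (h : Nr z M c ε f g) (h' : Nr z N d ε f' g') :
    Nr z (M * N) (c * N + M * d) ε (fun z => f z * f' z) (fun z => g z * g' z) := by
  have hM : 0 ≤ M := n1_nonneg.trans h.bf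
  have hN : 0 ≤ N := n1_nonneg.trans h'.bf
  refine ⟨h.df.mul h'.df, h.dg.mul h'.dg, ?_, ?_, ?_⟩
  · exact (n1_mul_le h.df h'.df).trans (mul_le_mul h.bf h'.bf n1_nonneg hM)
  · exact (n1_mul_le h.dg h'.dg).trans (mul_le_mul h.bg h'.bg n1_nonneg hM)
  · have e : (fun z => f z * f' z - g z * g' z) =
        fun z => (f z - g z) * f' z + g z * (f' z - g' z) := by
      funext z; ring
    rw [e]
    have h1 : DifferentiableAt ℝ (fun z => f z - g z) z := h.df.sub h.dg
    have h2 : DifferentiableAt ℝ (fun z => f' z - g' z) z := h'.df.sub h'.dg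
    calc _ ≤ n1 (fun z => (f z - g z) * f' z) z + n1 (fun z => g z * (f' z - g' z)) z :=
          n1_add_le (h1.mul h'.df) (h.dg.mul h2)
      _ ≤ n1 (fun z => f z - g z) z * n1 f' z + n1 g z * n1 (fun z => f' z - g' z) z :=
          add_le_add (n1_mul_le h1 h'.df) (n1_mul_le h.dg h2)
      _ ≤ (c * ε) * N + M * (d * ε) := by
          apply add_le_add
          · exact mul_le_mul h.bd h'.bf n1_nonneg (n1_nonneg.trans h.bd)
          · exact mul_le_mul h.bg h'.bd n1_nonneg hM
      _ = _ := by ring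

theorem Nr.add (h : Nr z M c ε f g) (h' : Nr z N d ε f' g') :
    Nr z (M + N) (c + d) ε (fun z => f z + f' z) (fun z => g z + g' z) := by
  refine ⟨h.df.add h'.df, h.dg.add h'.dg, ?_, ?_, ?_⟩
  · exact (n1_add_le h.df h'.df).trans (add_le_add h.bf h'.bf)
  · exact (n1_add_le h.dg h'.dg).trans (add_le_add h.bg h'.bg)
  · have e : (fun z => f z + f' z - (g z + g' z)) =
        fun z => (f z - g z) + (f' z - g' z) := by
      funext z; ring
    rw [e]
    have h1 : DifferentiableAt ℝ (fun z => f z - g z) z := h.df.sub h.dg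
    have h2 : DifferentiableAt ℝ (fun z => f' z - g' z) z := h'.df.sub h'.dg
    calc _ ≤ n1 (fun z => f z - g z) z + n1 (fun z => f' z - g' z) z := n1_add_le h1 h2
      _ ≤ c * ε + d * ε := add_le_add h.bd h'.bd
      _ = _ := by ring

theorem Nr.sub (h : Nr z M c ε f g) (h' : Nr z N d ε f' g') :
    Nr z (M + N) (c + d) ε (fun z => f z - f' z) (fun z => g z - g' z) := by
  refine ⟨h.df.sub h'.df, h.dg.sub h'.dg, ?_, ?_, ?_⟩
  · exact (n1_sub_le h.df h'.df).trans (add_le_add h.bf h'.bf)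
  · exact (n1_sub_le h.dg h'.dg).trans (add_le_add h.bg h'.bg)
  · have e : (fun z => f z - f' z - (g z - g' z)) =
        fun z => (f z - g z) - (f' z - g' z) := by
      funext z; ring
    rw [e]
    have h1 : DifferentiableAt ℝ (fun z => f z - g z) z := h.df.sub h.dg
    have h2 : DifferentiableAt ℝ (fun z => f' z - g' z) z := h'.df.sub h'.dg
    calc _ ≤ n1 (fun z => f z - g z) z + n1 (fun z => f' z - g' z) z := n1_sub_le h1 h2
      _ ≤ c * ε + d * ε := add_le_add h.bd h'.bd
      _ = _ := by ring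

theorem n1_inv_le_of {f : Pl → ℝ} (hf : DifferentiableAt ℝ f z) (h : 1 / 2 ≤ f z) (hb : n1 f z ≤ M) :
    n1 (fun z => (f z)⁻¹) z ≤ 4 * M := by
  have h0 : f z ≠ 0 := by linarith
  refine (n1_inv_le hf h0).trans ?_
  rw [div_le_iff₀ (by positivity)]
  have hM : 0 ≤ M := n1_nonneg.trans hb
  have h4 : 1 / 4 ≤ f z ^ 2 := by nlinarith
  nlinarith

theorem Nr.inv (h : Nr z M c ε f g) (hf : 1 / 2 ≤ f z) (hg : 1 / 2 ≤ g z) :
    Nr z (4 * M) (c * (4 * M) * (4 * M)) ε (fun z => (f z)⁻¹) (fun z => (g z)⁻¹) := by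
  have hf0 : f z ≠ 0 := by linarith
  have hg0 : g z ≠ 0 := by linarith
  have dfi : DifferentiableAt ℝ (fun z => (f z)⁻¹) z := h.df.inv hf0
  have dgi : DifferentiableAt ℝ (fun z => (g z)⁻¹) z := h.dg.inv hg0
  have hbf := n1_inv_le_of h.df hf h.bf
  have hbg := n1_inv_le_of h.dg hg h.bg
  have hM : 0 ≤ M := n1_nonneg.trans h.bf
  refine ⟨dfi, dgi, hbf, hbg, ?_⟩
  have hd : DifferentiableAt ℝ (fun z => g z - f z) z := h.dg.sub h.df
  have hd' : n1 (fun z => g z - f z) z = n1 (fun z => f z - g z) z := by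
    have : (fun z => g z - f z) = fun z => (-1 : ℝ) * (f z - g z) := by funext z; ring
    rw [this, n1_const_mul (f := fun z => f z - g z) (-1) (h.df.sub h.dg)]
    simp
  have e : (fun z => (f z)⁻¹ - (g z)⁻¹) =ᶠ[nhds z]
      fun z => ((g z - f z) * (f z)⁻¹) * (g z)⁻¹ := by
    have h1 : ∀ᶠ y in nhds z, f y ≠ 0 := h.df.continuousAt.eventually_ne hf0
    have h2 : ∀ᶠ y in nhds z, g y ≠ 0 := h.dg.continuousAt.eventually_ne hg0
    filter_upwards [h1, h2] with y hy1 hy2
    field_simp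
  rw [n1_congr e]
  calc _ ≤ n1 (fun z => (g z - f z) * (f z)⁻¹) z * n1 (fun z => (g z)⁻¹) z :=
        n1_mul_le (hd.mul dfi) dgi
    _ ≤ (n1 (fun z => g z - f z) z * n1 (fun z => (f z)⁻¹) z) * n1 (fun z => (g z)⁻¹) z :=
        mul_le_mul_of_nonneg_right (n1_mul_le hd dfi) n1_nonneg
    _ ≤ ((c * ε) * (4 * M)) * (4 * M) := by
        rw [hd']
        have h3 : n1 (fun z => f z - g z) z * n1 (fun z => (f z)⁻¹) z ≤ (c * ε) * (4 * M) :=
          mul_le_mul h.bd hbf n1_nonneg (n1_nonneg.trans h.bd)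
        exact mul_le_mul h3 hbg n1_nonneg ((mul_nonneg n1_nonneg n1_nonneg).trans h3)
    _ = _ := by ring

end

/-! ### local equality and iterated derivatives -/

theorem Dw_eventuallyEq {f g : Pl → ℝ} {z : Pl} (h : f =ᶠ[nhds z] g) (w : List Bool) :
    Dw w f =ᶠ[nhds z] Dw w g := by
  induction w with
  | nil => exact h
  | cons b w ih =>
    have h2 := ih.fderiv (𝕜 := ℝ)
    cases b
    · filter_upwards [h2] with y hy
      show fderiv ℝ (Dw w f) y (0, 1) = fderiv ℝ (Dw w g) y (0, 1)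
      rw [hy]
    · filter_upwards [h2] with y hy
      show fderiv ℝ (Dw w f) y (1, 0) = fderiv ℝ (Dw w g) y (1, 0)
      rw [hy]

theorem Dw_congr {f g : Pl → ℝ} {z : Pl} (h : f =ᶠ[nhds z] g) (w : List Bool) :
    Dw w f z = Dw w g z := (Dw_eventuallyEq h w).eq_of_nhds

theorem Dw_zero_of_eventually {f : Pl → ℝ} {z : Pl} (h : ∀ᶠ y in nhds z, f y = 0) (w : List Bool) :
    Dw w f z = 0 := by
  have h1 : f =ᶠ[nhds z] fun _ => 0 := h
  rw [Dw_congr h1 w]
  have : ∀ w : List Bool, Dw w (fun _ : Pl => (0 : ℝ)) = fun _ => 0 := by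
    intro w
    induction w with
    | nil => rfl
    | cons b w ih =>
      cases b
      · rw [Dw_false, ih, dy_const]
      · rw [Dw_true, ih, dx_const]
  rw [this]

/-- product bound for iterated derivatives -/
theorem Dw_mul_bound (w : List Bool) : ∀ (f g : Pl → ℝ), Sm f → Sm g → ∀ (z : Pl) (a b : ℝ),
    (∀ u : List Bool, u.length ≤ w.length → |Dw u f z| ≤ a) →
    (∀ u : List Bool, u.length ≤ w.length → |Dw u g z| ≤ b) →
    |Dw w (fun z => f z * g z) z| ≤ 2 ^ w.length * (a * b) := by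
  induction w using List.reverseRecOn with
  | nil =>
    intro f g _ _ z a b ha hb
    have h1 := ha [] le_rfl
    have h2 := hb [] le_rfl
    simp only [Dw_nil] at *
    rw [abs_mul]
    simpa using mul_le_mul h1 h2 (abs_nonneg _) ((abs_nonneg _).trans h1)
  | append_singleton w c ih =>
    intro f g hf hg z a b ha hb
    have hl : (w ++ [c]).length = w.length + 1 := by simp
    rw [Dw_append]
    have key : ∀ (f' g' : Pl → ℝ), Sm f' → Sm g' →
        (∀ u : List Bool, u.length ≤ w.length → |Dw u f' z| ≤ a) →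
        (∀ u : List Bool, u.length ≤ w.length → |Dw u g' z| ≤ b) →
        |Dw w (fun z => f z * g' z + g z * f' z) z| ≤ 2 ^ (w ++ [c]).length * (a * b) := by
      intro f' g' hf' hg' ha' hb'
      rw [Dw_add (hf.mul' hg') (hg.mul' hf')]
      have h1 := ih f g' hf hg' z a b (fun u hu => ha u (by rw [hl]; omega)) hb'
      have h2 := ih g f' hg hf' z b a (fun u hu => hb u (by rw [hl]; omega)) ha'
      calc |Dw w (fun z => f z * g' z) z + Dw w (fun z => g z * f' z) z|
          ≤ 2 ^ w.length * (a * b) + 2 ^ w.length * (b * a) :=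
            (abs_add_le _ _).trans (add_le_add h1 h2)
        _ = 2 ^ (w ++ [c]).length * (a * b) := by rw [hl, pow_succ]; ring
    cases c
    · have e : Dw [false] (fun z => f z * g z) = fun z => f z * dy g z + g z * dy f z := by
        show dy (fun z => f z * g z) = _
        exact dy_mul hf hg
      rw [e]
      refine key (dy f) (dy g) hf.dy hg.dy ?_ ?_
      · intro u hu
        rw [Dw_dy]
        exact ha _ (by rw [hl]; simpa using hu)
      · intro u hu
        rw [Dw_dy]
        exact hb _ (by rw [hl]; simpa using hu)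
    · have e : Dw [true] (fun z => f z * g z) = fun z => f z * dx g z + g z * dx f z := by
        show dx (fun z => f z * g z) = _
        exact dx_mul hf hg
      rw [e]
      refine key (dx f) (dx g) hf.dx hg.dx ?_ ?_
      · intro u hu
        rw [Dw_dx]
        exact ha _ (by rw [hl]; simpa using hu)
      · intro u hu
        rw [Dw_dx]
        exact hb _ (by rw [hl]; simpa using hu)

/-- `n1` of a derivative from bounds of words -/
theorem n1_Dw_le {f : Pl → ℝ} {z : Pl} {e : ℝ} {k : ℕ}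
    (h : ∀ w : List Bool, w.length ≤ k → |Dw w f z| ≤ e) (v : List Bool) (hv : v.length + 1 ≤ k) :
    n1 (Dw v f) z ≤ 3 * e := by
  have h1 := h v (by omega)
  have h2 := h (true :: v) (by simpa using hv)
  have h3 := h (false :: v) (by simpa using hv)
  unfold n1
  rw [Dw_true] at h2
  rw [Dw_false] at h3
  linarith

/-! ### the formula for `kapf` -/

theorem dx_br {f g : Pl → ℝ} (hf : Sm f) (hg : Sm g) (z : Pl) :
    dx (br f g) z = dx (dx f) z * dy g z + dx f z * dx (dy g) z
      - dx (dy f) z * dx g z - dy f z * dx (dx g) z := by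
  have e : br f g = fun z => dx f z * dy g z - dy f z * dx g z := rfl
  rw [e, dx_sub (hf.dx.mul' hg.dy) (hf.dy.mul' hg.dx), dx_mul hf.dx hg.dy, dx_mul hf.dy hg.dx]
  ring

theorem dy_br {f g : Pl → ℝ} (hf : Sm f) (hg : Sm g) (z : Pl) :
    dy (br f g) z = dx (dy f) z * dy g z + dx f z * dy (dy g) z
      - dy (dy f) z * dx g z - dy f z * dx (dy g) z := by
  have e : br f g = fun z => dx f z * dy g z - dy f z * dx g z := rfl
  rw [e, dy_sub (hf.dx.mul' hg.dy) (hf.dy.mul' hg.dx), dy_mul hf.dx hg.dy, dy_mul hf.dy hg.dx]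
  simp only [dy_dx_at hf, dy_dx_at hg]
  ring

noncomputable def L11 (X Y u : Pl → ℝ) (z : Pl) : ℝ :=
  br X Y z * dx (dx u) z - br u Y z * dx (dx X) z - br X u z * dx (dx Y) z
noncomputable def L12 (X Y u : Pl → ℝ) (z : Pl) : ℝ :=
  br X Y z * dx (dy u) z - br u Y z * dx (dy X) z - br X u z * dx (dy Y) z
noncomputable def L22 (X Y u : Pl → ℝ) (z : Pl) : ℝ :=
  br X Y z * dy (dy u) z - br u Y z * dy (dy X) z - br X u z * dy (dy Y) z

/-- rational expression for `kapf` -/
noncomputable def kE (X Y u : Pl → ℝ) (z : Pl) : ℝ :=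
  (L11 X Y u z * L22 X Y u z - L12 X Y u z * L12 X Y u z) *
    (((br X Y z)⁻¹ * (br X Y z)⁻¹) * ((br X Y z)⁻¹ * (br X Y z)⁻¹))

theorem kapf_eq {X Y u : Pl → ℝ} (hX : Sm X) (hY : Sm Y) (hu : Sm u) {z : Pl}
    (hJ : br X Y z ≠ 0) : kapf X Y u z = kE X Y u z := by
  have d1 : DifferentiableAt ℝ (br u Y) z := (hu.br hY).differentiableAt
  have d2 : DifferentiableAt ℝ (br X u) z := (hX.br hu).differentiableAt
  have d3 : DifferentiableAt ℝ (br X Y) z := (hX.br hY).differentiableAt
  have ep : pf X Y u = fun z => br u Y z / br X Y z := rfl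
  have eq : qf X Y u = fun z => br X u z / br X Y z := rfl
  have e1 : dx (pf X Y u) z = (dx (br u Y) z * br X Y z - br u Y z * dx (br X Y) z) /
      br X Y z ^ 2 := by rw [ep]; exact dx_div_at d1 d3 hJ
  have e2 : dy (pf X Y u) z = (dy (br u Y) z * br X Y z - br u Y z * dy (br X Y) z) /
      br X Y z ^ 2 := by rw [ep]; exact dy_div_at d1 d3 hJ
  have e3 : dx (qf X Y u) z = (dx (br X u) z * br X Y z - br X u z * dx (br X Y) z) /
      br X Y z ^ 2 := by rw [eq]; exact dx_div_at d2 d3 hJ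
  have e4 : dy (qf X Y u) z = (dy (br X u) z * br X Y z - br X u z * dy (br X Y) z) /
      br X Y z ^ 2 := by rw [eq]; exact dy_div_at d2 d3 hJ
  have e0 : kapf X Y u z = (dx (pf X Y u) z * dy (qf X Y u) z - dy (pf X Y u) z * dx (qf X Y u) z)
      / br X Y z := rfl
  rw [e0, e1, e2, e3, e4, dx_br hX hY, dy_br hX hY, dx_br hu hY, dy_br hu hY, dx_br hX hu,
    dy_br hX hu]
  unfold kE L11 L12 L22
  have hJ' : dx X z * dy Y z - dy X z * dx Y z ≠ 0 := hJ
  simp only [br]
  generalize dx X z = x1 at *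
  generalize dy X z = x2 at *
  generalize dx Y z = y1 at *
  generalize dy Y z = y2 at *
  generalize dx u z = u1 at *
  generalize dy u z = u2 at *
  generalize dx (dx X) z = x11 at *
  generalize dx (dy X) z = x12 at *
  generalize dy (dy X) z = x22 at *
  generalize dx (dx Y) z = y11 at *
  generalize dx (dy Y) z = y12 at *
  generalize dy (dy Y) z = y22 at *
  generalize dx (dx u) z = u11 at *
  generalize dx (dy u) z = u12 at *
  generalize dy (dy u) z = u22 at *
  generalize hJg : x1 * y2 - x2 * y1 = J at *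
  field_simp
  rw [← hJg]
  ring

end Crest.Agent.R220.AvgFrame
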