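import Crest.Agent.R220.Defs

/-!
# Row 220, step 5(i): finitely many `C^3`-closeness classes

A family of smooth (tuples of) functions on the square `sq R` with all partial derivatives of
order `≤ 4` bounded by `M` splits into at most `N0 = N0 (n, M, ε, R)` classes of pairwise
`ε`-close (in `C^3 (sq R)`) members.
-/

set_option autoImplicit false

open scoped ContDiff
open Set

namespace Crest.Agent.R220.ClassPigeon

lemma sm_dx {f : Pl → ℝ} (hf : Sm f) : Sm (dx f) := by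
  have h : ContDiff ℝ ∞ (fderiv ℝ f) := hf.fderiv_right (by simp)
  exact h.clm_apply contDiff_const

lemma sm_dy {f : Pl → ℝ} (hf : Sm f) : Sm (dy f) := by
  have h : ContDiff ℝ ∞ (fderiv ℝ f) := hf.fderiv_right (by simp)
  exact h.clm_apply contDiff_const

lemma sm_Dw {f : Pl → ℝ} (hf : Sm f) : ∀ w : List Bool, Sm (Dw w f)
  | [] => hf
  | true :: w => sm_dx (sm_Dw hf w)
  | false :: w => sm_dy (sm_Dw hf w)

lemma sq_eq_prod (s : ℝ) : sq s = Icc (-s) s ×ˢ Icc (-s) s := by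
  ext z
  simp only [sq, mem_ofPred_eq, abs_le, mem_prod, mem_Icc]

lemma convex_sq (s : ℝ) : Convex ℝ (sq s) := by
  rw [sq_eq_prod]
  exact (convex_Icc _ _).prod (convex_Icc _ _)

lemma isCompact_sq (s : ℝ) : IsCompact (sq s) := by
  rw [sq_eq_prod]
  exact isCompact_Icc.prod isCompact_Icc

lemma fderiv_apply_eq (g : Pl → ℝ) (z v : Pl) :
    fderiv ℝ g z v = v.1 * dx g z + v.2 * dy g z := by
  have hv : v = v.1 • ((1 : ℝ), (0 : ℝ)) + v.2 • ((0 : ℝ), (1 : ℝ)) := by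
    ext <;> simp
  conv_lhs => rw [hv]
  rw [map_add, map_smul, map_smul]
  rfl

lemma norm_fderiv_le {g : Pl → ℝ} {z : Pl} {M : ℝ} (hx : |dx g z| ≤ M)
    (hy : |dy g z| ≤ M) : ‖fderiv ℝ g z‖ ≤ 2 * M := by
  have hM : 0 ≤ M := le_trans (abs_nonneg _) hx
  refine ContinuousLinearMap.opNorm_le_bound _ (by positivity) (fun v => ?_)
  rw [fderiv_apply_eq, Real.norm_eq_abs]
  have h1 : |v.1| ≤ ‖v‖ := norm_fst_le v
  have h2 : |v.2| ≤ ‖v‖ := norm_snd_le v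
  calc |v.1 * dx g z + v.2 * dy g z| ≤ |v.1 * dx g z| + |v.2 * dy g z| := abs_add_le _ _
    _ = |v.1| * |dx g z| + |v.2| * |dy g z| := by rw [abs_mul, abs_mul]
    _ ≤ ‖v‖ * M + ‖v‖ * M := by
        gcongr
    _ = 2 * M * ‖v‖ := by ring

/-- Lipschitz bound on a square from bounds of the two partial derivatives. -/
lemma abs_sub_le_of_partials {g : Pl → ℝ} (hg : Sm g) {R M : ℝ}
    (hx : ∀ z ∈ sq R, |dx g z| ≤ M) (hy : ∀ z ∈ sq R, |dy g z| ≤ M)
    {z z' : Pl} (hz : z ∈ sq R) (hz' : z' ∈ sq R) : |g z - g z'| ≤ 2 * M * dist z z' := by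
  have h := (convex_sq R).norm_image_sub_le_of_norm_fderiv_le (𝕜 := ℝ) (f := g) (C := 2 * M)
    (fun x _ => (hg.differentiable (by simp)).differentiableAt)
    (fun x hx' => norm_fderiv_le (hx x hx') (hy x hx')) hz' hz
  rw [Real.norm_eq_abs] at h
  rwa [dist_eq_norm]

/-- pigeonhole with multiplicities -/
lemma exists_fiber {ι β : Type*} [DecidableEq β] (S : Finset ι) (f : ι → β) (T : Finset β)
    (hT : T.Nonempty) (hf : ∀ i ∈ S, f i ∈ T) :
    ∃ b ∈ T, S.card ≤ T.card * (S.filter (fun i => f i = b)).card := by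
  have hb : T.card • ((S.card : ℚ) / T.card) ≤ S.card := by
    have : (T.card : ℚ) ≠ 0 := by
      exact_mod_cast (Finset.card_pos.2 hT).ne'
    rw [nsmul_eq_mul]
    field_simp
    exact le_rfl
  obtain ⟨y, hy, h⟩ := Finset.exists_le_card_fiber_of_nsmul_le_card_of_maps_to hf hT hb
  refine ⟨y, hy, ?_⟩
  have hpos : (0 : ℚ) < T.card := by exact_mod_cast Finset.card_pos.2 hT
  rw [div_le_iff₀ hpos] at h
  have : (S.card : ℚ) ≤ T.card * (S.filter (fun i => f i = y)).card := by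
    rw [mul_comm]; exact h
  exact_mod_cast this

/-- **Finitely many classes.** -/
theorem exists_class (n : ℕ) (M ε R : ℝ) (hM : 0 < M) (hε : 0 < ε) :
    ∃ N0 : ℕ, 0 < N0 ∧ ∀ {ι : Type} (S : Finset ι) (F : ι → Fin n → Pl → ℝ),
      (∀ i ∈ S, ∀ k, Sm (F i k)) →
      (∀ i ∈ S, ∀ k, ∀ w : List Bool, w.length ≤ 4 → ∀ z ∈ sq R, |Dw w (F i k) z| ≤ M) →
      ∃ S' ⊆ S, S.card ≤ N0 * S'.card ∧ ∀ i ∈ S', ∀ j ∈ S', ∀ k, ∀ w : List Bool,
        w.length ≤ 3 → ∀ z ∈ sq R, |Dw w (F i k) z - Dw w (F j k) z| ≤ ε := by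
  classical
  -- the net
  have hθ : 0 < ε / (8 * M) := by positivity
  obtain ⟨G, hGs, hGf, hGc⟩ := (isCompact_sq R).finite_cover_balls hθ
  -- the words
  obtain ⟨W, hWm⟩ : ∃ W : Finset (List Bool), ∀ w, w ∈ W ↔ w.length ≤ 3 :=
    ⟨(List.finite_length_le Bool 3).toFinset, fun w => by simp⟩
  obtain ⟨G', hGm⟩ : ∃ G' : Finset Pl, ∀ g, g ∈ G' ↔ g ∈ G :=
    ⟨hGf.toFinset, fun g => by simp⟩
  set N : ℤ := ⌈M / (ε / 2)⌉ + 1 with hN
  let T : Finset (Fin n × W × G' → ℤ) := Fintype.piFinset (fun _ => Finset.Icc (-N) N)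
  have hMpos : 0 < M / (ε / 2) := by positivity
  have hN0 : 0 ≤ N := by
    have : 0 ≤ ⌈M / (ε / 2)⌉ := Int.ceil_nonneg hMpos.le
    omega
  have hTne : T.Nonempty := by
    refine ⟨fun _ => 0, ?_⟩
    rw [Fintype.mem_piFinset]
    intro _
    simp [hN0]
  refine ⟨T.card, Finset.card_pos.2 hTne, ?_⟩
  intro ι S F hsm hbd
  let code : ι → (Fin n × W × G' → ℤ) := fun i p => ⌊Dw p.2.1.1 (F i p.1) p.2.2.1 / (ε / 2)⌋
  have hcode : ∀ i ∈ S, code i ∈ T := by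
    intro i hi
    rw [Fintype.mem_piFinset]
    intro p
    have hw : p.2.1.1.length ≤ 3 := (hWm _).1 p.2.1.2
    have hg : p.2.2.1 ∈ sq R := hGs ((hGm _).1 p.2.2.2)
    have hb := hbd i hi p.1 p.2.1.1 (by omega) _ hg
    have hε2 : 0 < ε / 2 := by positivity
    rw [abs_le] at hb
    have h1 : Dw p.2.1.1 (F i p.1) p.2.2.1 / (ε / 2) ≤ M / (ε / 2) :=
      div_le_div_of_nonneg_right hb.2 hε2.le
    have h2 : -(M / (ε / 2)) ≤ Dw p.2.1.1 (F i p.1) p.2.2.1 / (ε / 2) := by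
      rw [← neg_div]
      exact div_le_div_of_nonneg_right hb.1 hε2.le
    rw [Finset.mem_Icc]
    constructor
    · apply Int.le_floor.2
      have : M / (ε / 2) ≤ ⌈M / (ε / 2)⌉ := Int.le_ceil _
      push_cast [hN]
      linarith
    · have h3 : ⌊Dw p.2.1.1 (F i p.1) p.2.2.1 / (ε / 2)⌋ ≤ ⌊M / (ε / 2)⌋ := Int.floor_le_floor h1
      have h4 : ⌊M / (ε / 2)⌋ ≤ ⌈M / (ε / 2)⌉ := Int.floor_le_ceil _
      show ⌊Dw p.2.1.1 (F i p.1) p.2.2.1 / (ε / 2)⌋ ≤ N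
      omega
  obtain ⟨b, _, hcard⟩ := exists_fiber S code T hTne hcode
  refine ⟨S.filter (fun i => code i = b), Finset.filter_subset _ _, hcard, ?_⟩
  intro i hi j hj k w hw z hz
  rw [Finset.mem_filter] at hi hj
  obtain ⟨g, hgG, hgz⟩ : ∃ g ∈ G, z ∈ Metric.ball g (ε / (8 * M)) := by
    have := hGc hz
    simpa using this
  have hgR : g ∈ sq R := hGs hgG
  have hwW : w ∈ W := (hWm w).2 hw
  have hgG' : g ∈ G' := (hGm g).2 hgG
  have hfl : ⌊Dw w (F i k) g / (ε / 2)⌋ = ⌊Dw w (F j k) g / (ε / 2)⌋ := by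
    have e1 := congrFun hi.2 (k, ⟨w, hwW⟩, ⟨g, hgG'⟩)
    have e2 := congrFun hj.2 (k, ⟨w, hwW⟩, ⟨g, hgG'⟩)
    exact e1.trans e2.symm
  have hε2 : 0 < ε / 2 := by positivity
  have h1 : |Dw w (F i k) g - Dw w (F j k) g| ≤ ε / 2 := by
    have h := Int.abs_sub_lt_one_of_floor_eq_floor hfl
    rw [← sub_div, abs_div, abs_of_pos hε2, div_lt_one hε2] at h
    exact h.le
  have hlip : ∀ i' ∈ S, |Dw w (F i' k) z - Dw w (F i' k) g| ≤ ε / 4 := by
    intro i' hi'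
    have h := abs_sub_le_of_partials (sm_Dw (hsm i' hi' k) w) (R := R) (M := M)
      (fun z' hz' => hbd i' hi' k (true :: w) (by simp; omega) z' hz')
      (fun z' hz' => hbd i' hi' k (false :: w) (by simp; omega) z' hz') hz hgR
    rw [Metric.mem_ball] at hgz
    calc |Dw w (F i' k) z - Dw w (F i' k) g| ≤ 2 * M * dist z g := h
      _ ≤ 2 * M * (ε / (8 * M)) := by gcongr
      _ = ε / 4 := by field_simp; ring
  have h2 := hlip i hi.1
  have h3 := hlip j hj.1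
  have : Dw w (F i k) z - Dw w (F j k) z = (Dw w (F i k) z - Dw w (F i k) g)
      + (Dw w (F i k) g - Dw w (F j k) g) - (Dw w (F j k) z - Dw w (F j k) g) := by ring
  rw [this]
  calc _ ≤ |(Dw w (F i k) z - Dw w (F i k) g) + (Dw w (F i k) g - Dw w (F j k) g)|
        + |Dw w (F j k) z - Dw w (F j k) g| := abs_sub _ _
    _ ≤ |Dw w (F i k) z - Dw w (F i k) g| + |Dw w (F i k) g - Dw w (F j k) g|
        + |Dw w (F j k) z - Dw w (F j k) g| := by gcongr; exact abs_add_le _ _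
    _ ≤ ε / 4 + ε / 2 + ε / 4 := by gcongr
    _ = ε := by ring

end Crest.Agent.R220.ClassPigeon

namespace Crest.Agent.R220

/-- **class_pigeon**: `C^4`-bounded families split into finitely many `C^3`-small classes. -/
theorem class_pigeon (B ε0 : ℝ) (hε : 0 < ε0) : ∃ N0 : ℕ, 0 < N0 ∧
    ∀ (ι : Type) [Fintype ι] (f : ι → Fin 3 → Pl → ℝ), (∀ i k, Sm (f i k)) →
      (∀ i k, ∀ w : List Bool, w.length ≤ 4 → ∀ z ∈ sq 1, |Dw w (f i k) z| ≤ B) →
      ∃ S : Finset ι, Fintype.card ι ≤ N0 * S.card ∧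
        ∀ i ∈ S, ∀ j ∈ S, ∀ k, ∀ w : List Bool, w.length ≤ 3 → ∀ z ∈ sq 1,
          |Dw w (f i k) z - Dw w (f j k) z| ≤ ε0 := by
  have hM : (0 : ℝ) < max B 1 := lt_max_of_lt_right one_pos
  obtain ⟨N0, hN0, h⟩ := ClassPigeon.exists_class 3 (max B 1) ε0 1 hM hε
  refine ⟨N0, hN0, ?_⟩
  intro ι _ f hsm hbd
  obtain ⟨S, _, hcard, hS⟩ := h (Finset.univ) f (fun i _ k => hsm i k)
    (fun i _ k w hw z hz => (hbd i k w hw z hz).trans (le_max_left _ _))
  exact ⟨S, by simpa using hcard, hS⟩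

end Crest.Agent.R220
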