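import Crest.Agent.R220.Defs

/-!
# Row 220 (S0341): words of partial derivatives versus iterated Fréchet derivatives
-/

set_option autoImplicit false

open scoped ContDiff

namespace Crest.Agent.R220.Conv

/-- the basis vector attached to a letter -/
def eb : Bool → Pl
  | true => (1, 0)
  | false => (0, 1)

/-- coordinate attached to a letter -/
def cb : Bool → Pl → ℝ
  | true => fun z => z.1
  | false => fun z => z.2

lemma sum_cb_eb (m : Pl) : ∑ b : Bool, cb b m • eb b = m := by
  simp [cb, eb]

lemma abs_cb_le (b : Bool) (m : Pl) : |cb b m| ≤ ‖m‖ := by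
  cases b
  · simpa [cb] using norm_snd_le m
  · simpa [cb] using norm_fst_le m

lemma norm_eb (b : Bool) : ‖eb b‖ = 1 := by
  cases b <;> simp [eb, Prod.norm_def]

lemma Dw_cons (b : Bool) (w : List Bool) (f : Pl → ℝ) (z : Pl) :
    Dw (b :: w) f z = fderiv ℝ (Dw w f) z (eb b) := by
  cases b <;> rfl

lemma sm_dir {f : Pl → ℝ} (hf : Sm f) (v : Pl) : Sm (fun z => fderiv ℝ f z v) := by
  have h1 : ContDiff ℝ ∞ (fderiv ℝ f) := by
    apply ContDiff.fderiv_right (m := ∞) hf
    simp
  exact h1.clm_apply contDiff_const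

lemma sm_Dw {f : Pl → ℝ} (hf : Sm f) (w : List Bool) : Sm (Dw w f) := by
  induction w with
  | nil => exact hf
  | cons b w ih =>
    have : R220.Dw (b :: w) f = fun z => fderiv ℝ (R220.Dw w f) z (eb b) := by
      funext z; exact Dw_cons b w f z
    rw [this]
    exact sm_dir ih _

/-- a word of partial derivatives is the iterated derivative evaluated on basis vectors -/
lemma Dw_eq_iteratedFDeriv {f : Pl → ℝ} (hf : Sm f) (w : List Bool) (z : Pl) :
    Dw w f z = iteratedFDeriv ℝ w.length f z (fun i => eb (w.get i)) := by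
  induction w generalizing z with
  | nil => simp [Dw]
  | cons b w ih =>
    rw [Dw_cons]
    have hfun : Dw w f = fun z => iteratedFDeriv ℝ w.length f z (fun i => eb (w.get i)) := by
      funext z; exact ih z
    rw [hfun]
    have hd : DifferentiableAt ℝ (iteratedFDeriv ℝ w.length f) z := by
      have := (ContDiff.differentiable_iteratedFDeriv (𝕜 := ℝ) (m := w.length) (n := ∞)
        (by exact_mod_cast WithTop.coe_lt_coe.2 (ENat.natCast_lt_top _)) hf)
      exact this z
    have h1 : HasFDerivAt (fun z => iteratedFDeriv ℝ w.length f z (fun i => eb (w.get i)))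
        ((ContinuousMultilinearMap.apply ℝ (fun _ : Fin w.length => Pl) ℝ
          (fun i => eb (w.get i))).comp (fderiv ℝ (iteratedFDeriv ℝ w.length f) z)) z := by
      exact (ContinuousMultilinearMap.apply ℝ (fun _ : Fin w.length => Pl) ℝ
          (fun i => eb (w.get i))).hasFDerivAt.comp z hd.hasFDerivAt
    rw [h1.fderiv]
    have h2 : iteratedFDeriv ℝ (w.length + 1) f z (fun i => eb ((b :: w).get i)) =
      (fderiv ℝ (iteratedFDeriv ℝ w.length f) z) (eb b) (fun i => eb (w.get i)) := by
      rw [iteratedFDeriv_succ_apply_left]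
      rfl
    exact h2.symm

lemma abs_Dw_le_norm_iteratedFDeriv {f : Pl → ℝ} (hf : Sm f) (w : List Bool) (z : Pl) :
    |Dw w f z| ≤ ‖iteratedFDeriv ℝ w.length f z‖ := by
  rw [Dw_eq_iteratedFDeriv hf, ← Real.norm_eq_abs]
  refine (ContinuousMultilinearMap.le_opNorm _ _).trans ?_
  simp [norm_eb]

lemma norm_iteratedFDeriv_le_of_Dw {f : Pl → ℝ} (hf : Sm f) (n : ℕ) (z : Pl) (K : ℝ)
    (hK : ∀ w : List Bool, w.length = n → |Dw w f z| ≤ K) :
    ‖iteratedFDeriv ℝ n f z‖ ≤ 2 ^ n * K := by
  have hK0 : 0 ≤ K := (abs_nonneg _).trans (hK (List.replicate n true) (by simp))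
  refine ContinuousMultilinearMap.opNorm_le_bound (by positivity) ?_
  intro m
  have hm : m = fun i => ∑ b : Bool, cb b (m i) • eb b := by
    funext i; exact (sum_cb_eb (m i)).symm
  have key : ∀ r : Fin n → Bool, |iteratedFDeriv ℝ n f z (fun i => eb (r i))| ≤ K := by
    intro r
    have h := hK (List.ofFn r) (by simp)
    rw [Dw_eq_iteratedFDeriv hf] at h
    have hl : (List.ofFn r).length = n := by simp
    have : ∀ (k : ℕ) (w : List Bool) (hw : w.length = k) (r : Fin k → Bool)
        (hr : ∀ i : Fin k, w.get (i.cast hw.symm) = r i),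
        iteratedFDeriv ℝ w.length f z (fun i => eb (w.get i)) =
        iteratedFDeriv ℝ k f z (fun i => eb (r i)) := by
      intro k w hw r hr
      subst hw
      congr 1
      funext i
      rw [← hr i]
      rfl
    rwa [this n (List.ofFn r) hl r (by intro i; simp)] at h
  conv_lhs => rw [hm]
  rw [ContinuousMultilinearMap.map_sum]
  calc ‖∑ r : Fin n → Bool, iteratedFDeriv ℝ n f z (fun i => cb (r i) (m i) • eb (r i))‖
      ≤ ∑ r : Fin n → Bool, ‖iteratedFDeriv ℝ n f z (fun i => cb (r i) (m i) • eb (r i))‖ :=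
        norm_sum_le _ _
    _ ≤ ∑ r : Fin n → Bool, K * ∏ i, ‖m i‖ := by
        apply Finset.sum_le_sum
        intro r _
        rw [ContinuousMultilinearMap.map_smul_univ, norm_smul, mul_comm]
        apply mul_le_mul (by simpa using key r)
        · rw [norm_prod]
          apply Finset.prod_le_prod
          · intro i _; positivity
          · intro i _; simpa using abs_cb_le (r i) (m i)
        · positivity
        · exact hK0
    _ = 2 ^ n * K * ∏ i, ‖m i‖ := by
        simp [Finset.sum_const]
        ring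

end Crest.Agent.R220.Conv
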