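import Crest.Agent.R220.Defs

/-!
# Row 220 (S0341): the metric family (cutoff of `w0`, the bump patterns, and their bounds)
-/

set_option autoImplicit false

open scoped ContDiff
open MeasureTheory

namespace Crest.Agent.R220

namespace MetCut

lemma bdd_iteratedFDeriv {f : Pl → ℝ} (hf : ContDiff ℝ ∞ f) (hc : HasCompactSupport f) (k : ℕ) :
    ∃ C : ℝ, ∀ z, ‖iteratedFDeriv ℝ k f z‖ ≤ C := by
  refine Continuous.bounded_above_of_compact_support ?_ (hc.iteratedFDeriv k)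
  exact hf.continuous_iteratedFDeriv (by exact_mod_cast le_top)

lemma bdd_iteratedFDeriv_le {f : Pl → ℝ} (hf : ContDiff ℝ ∞ f) (hc : HasCompactSupport f)
    (N : ℕ) : ∃ C : ℝ, 0 < C ∧ ∀ k ≤ N, ∀ z, ‖iteratedFDeriv ℝ k f z‖ ≤ C := by
  choose C hC using bdd_iteratedFDeriv hf hc
  refine ⟨(∑ k ∈ Finset.range (N + 1), |C k|) + 1, ?_, fun k hk z => ?_⟩
  · have : 0 ≤ ∑ k ∈ Finset.range (N + 1), |C k| := Finset.sum_nonneg fun _ _ => abs_nonneg _
    linarith
  · have h1 : |C k| ≤ ∑ k ∈ Finset.range (N + 1), |C k| :=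
      Finset.single_le_sum (f := fun k => |C k|) (fun _ _ => abs_nonneg _)
        (Finset.mem_range.2 (Nat.lt_succ_of_le hk))
    have h2 := hC k z
    have h3 := le_abs_self (C k)
    linarith

/-- one dimensional cutoff: `1` on `[-39/40, 39/40]`, supported in `[-79/80, 79/80]`. -/
noncomputable def cut : ContDiffBump (0 : ℝ) := ⟨39/40, 79/80, by norm_num, by norm_num⟩

lemma cut_one {t : ℝ} (ht : |t| ≤ 97/100) : cut t = 1 := by
  refine cut.one_of_mem_closedBall ?_
  rw [Metric.mem_closedBall, dist_zero_right, Real.norm_eq_abs]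
  change |t| ≤ 39/40
  linarith

lemma cut_zero {t : ℝ} (ht : 99/100 < |t|) : cut t = 0 := by
  refine cut.zero_of_le_dist ?_
  rw [dist_zero_right, Real.norm_eq_abs]
  change 79/80 ≤ |t|
  linarith

/-- product of two functions of one variable with compact supports. -/
lemma hasCompactSupport_prod {f g : ℝ → ℝ} {h : Pl → ℝ} (a b : ℝ)
    (hf : ∀ t, a < |t| → f t = 0) (hg : ∀ t, b < |t| → g t = 0) :
    HasCompactSupport fun z : Pl => f z.1 * g z.2 * h z := by
  refine HasCompactSupport.intro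
    (K := (Set.Icc (-a) a) ×ˢ (Set.Icc (-b) b)) (isCompact_Icc.prod isCompact_Icc) ?_
  intro z hz
  rw [Set.mem_prod, not_and_or] at hz
  rcases hz with hz | hz
  · have : a < |z.1| := by
      by_contra hcon
      rw [not_lt, abs_le] at hcon
      exact hz hcon
    rw [hf _ this]; ring
  · have : b < |z.2| := by
      by_contra hcon
      rw [not_lt, abs_le] at hcon
      exact hz hcon
    rw [hg _ this]; ring

lemma contDiff_w0 : ContDiff ℝ ∞ w0 := by
  unfold w0
  fun_prop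

lemma psi_zero {t : ℝ} (ht : 1/4 ≤ |t|) : psi t = 0 := by
  refine psiBump.zero_of_le_dist ?_
  rw [dist_zero_right, Real.norm_eq_abs]
  exact ht

lemma contDiff_psi : ContDiff ℝ ∞ psi := psiBump.contDiff

/-- The basic profile `(x,y) ↦ psi x * psi y`. -/
noncomputable def Phi (z : Pl) : ℝ := psi z.1 * psi z.2

lemma contDiff_Phi : ContDiff ℝ ∞ Phi := by
  unfold Phi
  exact (contDiff_psi.comp contDiff_fst).mul (contDiff_psi.comp contDiff_snd)

lemma hasCompactSupport_Phi : HasCompactSupport Phi := by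
  have h := hasCompactSupport_prod (f := psi) (g := psi) (h := fun _ => 1) (1/4) (1/4)
    (fun t ht => psi_zero ht.le) (fun t ht => psi_zero ht.le)
  have e : (fun z : Pl => psi z.1 * psi z.2 * 1) = Phi := by
    funext z; simp [Phi]
  rwa [e] at h

lemma bumpf_eq (ξ : ℝ) (j : ℕ) : bumpf ξ j = fun z : Pl => Phi (ξ • z - ((j : ℝ), (0 : ℝ))) := by
  funext z
  simp [bumpf, Phi]

lemma contDiff_bumpf (ξ : ℝ) (j : ℕ) : ContDiff ℝ ∞ (bumpf ξ j) := by
  rw [bumpf_eq]
  exact contDiff_Phi.comp ((contDiff_const_smul ξ).sub contDiff_const)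

lemma norm_iteratedFDeriv_bumpf (ξ : ℝ) (hξ : 0 ≤ ξ) (j k : ℕ) (C : ℝ)
    (hC : ∀ z, ‖iteratedFDeriv ℝ k Phi z‖ ≤ C) (z : Pl) :
    ‖iteratedFDeriv ℝ k (bumpf ξ j) z‖ ≤ C * ξ ^ k := by
  have h1 : bumpf ξ j = fun z : Pl => (fun y : Pl => Phi (y - ((j : ℝ), (0 : ℝ)))) (ξ • z) :=
    bumpf_eq ξ j
  have h2 : ContDiff ℝ (k : ℕ∞) (fun y : Pl => Phi (y - ((j : ℝ), (0 : ℝ)))) :=
    (contDiff_Phi.of_le (by exact_mod_cast le_top)).comp (contDiff_id.sub contDiff_const)
  have h3 : iteratedFDeriv ℝ k (bumpf ξ j) z =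
      ξ ^ k • iteratedFDeriv ℝ k (fun y : Pl => Phi (y - ((j : ℝ), (0 : ℝ)))) (ξ • z) := by
    rw [h1]
    exact congrFun (iteratedFDeriv_comp_const_smul (𝕜 := ℝ) (i := k)
      (f := fun y : Pl => Phi (y - ((j : ℝ), (0 : ℝ)))) ξ (by exact_mod_cast h2)) z
  rw [h3, norm_smul, iteratedFDeriv_comp_sub, norm_pow, Real.norm_of_nonneg hξ, mul_comm]
  exact mul_le_mul_of_nonneg_right (hC _) (by positivity)

end MetCut

open MetCut in
/-- **metric_family** (module `R220/Metric.lean`): the cutoff of `w0`, with all smallness. -/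
theorem metric_cut : ∃ W : Pl → ℝ, Sm W ∧ (∀ z ∈ sq (97/100), W z = w0 z) ∧
    (∀ z, z ∉ sq (99/100) → W z = 0) ∧
    (∀ N : ℕ, ∃ C : ℝ, 0 < C ∧ ∀ k ≤ N, ∀ z, ‖iteratedFDeriv ℝ k W z‖ ≤ C) := by
  have hsm : ContDiff ℝ ∞ fun z : Pl => cut z.1 * cut z.2 * w0 z :=
    ((cut.contDiff.comp contDiff_fst).mul (cut.contDiff.comp contDiff_snd)).mul contDiff_w0
  have hcs : HasCompactSupport fun z : Pl => cut z.1 * cut z.2 * w0 z :=
    hasCompactSupport_prod (99/100) (99/100) (fun t ht => cut_zero ht) (fun t ht => cut_zero ht)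
  refine ⟨fun z => cut z.1 * cut z.2 * w0 z, hsm, ?_, ?_, bdd_iteratedFDeriv_le hsm hcs⟩
  · intro z hz
    simp only [cut_one hz.1, cut_one hz.2, one_mul]
  · intro z hz
    have : ¬ (|z.1| ≤ 99/100 ∧ |z.2| ≤ 99/100) := hz
    rw [not_and_or, not_le, not_le] at this
    rcases this with h | h
    · simp only [cut_zero h, zero_mul]
    · simp only [cut_zero h, mul_zero, zero_mul]

open MetCut in
theorem pat_bound : ∀ N : ℕ, ∃ C : ℝ, 0 < C ∧ ∀ (ξ : ℝ) (J : ℕ) (σ : ℕ → ℝ), 1 ≤ ξ →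
    (J : ℝ) ≤ ξ → (∀ j, |σ j| ≤ 1) → ∀ k ≤ N, ∀ z,
      ‖iteratedFDeriv ℝ k (pat ξ J σ) z‖ ≤ C * ξ ^ (k + 1) := by
  intro N
  obtain ⟨C, hC0, hC⟩ := bdd_iteratedFDeriv_le contDiff_Phi hasCompactSupport_Phi N
  refine ⟨C, hC0, fun ξ J σ hξ hJ hσ k hk z => ?_⟩
  have hξ0 : 0 ≤ ξ := by linarith
  have hsm : ∀ j, ContDiff ℝ k (bumpf ξ j) := fun j =>
    (contDiff_bumpf ξ j).of_le (by exact_mod_cast le_top)
  have h1 : iteratedFDeriv ℝ k (pat ξ J σ) z =
      ∑ j ∈ Finset.range J, iteratedFDeriv ℝ k (fun z => σ j * bumpf ξ j z) z := by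
    have : pat ξ J σ = fun z => ∑ j ∈ Finset.range J, (fun z => σ j * bumpf ξ j z) z := rfl
    rw [this]
    exact iteratedFDeriv_fun_sum_apply (fun j _ => (contDiff_const.mul (hsm j)).contDiffAt)
  rw [h1]
  calc ‖∑ j ∈ Finset.range J, iteratedFDeriv ℝ k (fun z => σ j * bumpf ξ j z) z‖
      ≤ ∑ j ∈ Finset.range J, ‖iteratedFDeriv ℝ k (fun z => σ j * bumpf ξ j z) z‖ :=
        norm_sum_le _ _
    _ ≤ ∑ j ∈ Finset.range J, C * ξ ^ k := by
        refine Finset.sum_le_sum fun j _ => ?_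
        have h2 : iteratedFDeriv ℝ k (fun z => σ j * bumpf ξ j z) z =
            σ j • iteratedFDeriv ℝ k (bumpf ξ j) z :=
          iteratedFDeriv_const_smul_apply' (a := σ j) (f := bumpf ξ j) (hsm j).contDiffAt
        rw [h2, norm_smul, Real.norm_eq_abs]
        have h3 := norm_iteratedFDeriv_bumpf ξ hξ0 j k C (hC k hk) z
        have h4 := norm_nonneg (iteratedFDeriv ℝ k (bumpf ξ j) z)
        calc |σ j| * ‖iteratedFDeriv ℝ k (bumpf ξ j) z‖
            ≤ 1 * ‖iteratedFDeriv ℝ k (bumpf ξ j) z‖ :=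
              mul_le_mul_of_nonneg_right (hσ j) h4
          _ ≤ C * ξ ^ k := by rw [one_mul]; exact h3
    _ = (J : ℝ) * (C * ξ ^ k) := by simp
    _ ≤ ξ * (C * ξ ^ k) := mul_le_mul_of_nonneg_right hJ (by positivity)
    _ = C * ξ ^ (k + 1) := by ring

open MetCut in
theorem pat_smooth (ξ : ℝ) (J : ℕ) (σ : ℕ → ℝ) : Sm (pat ξ J σ) := by
  have : pat ξ J σ = fun z => ∑ j ∈ Finset.range J, (fun z => σ j * bumpf ξ j z) z := rfl
  rw [this]
  exact ContDiff.sum fun j _ => contDiff_const.mul (contDiff_bumpf ξ j)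

open MetCut in
/-- the pattern vanishes outside `[-1/ξ, (J+1)/ξ] × [-1/(4ξ), 1/(4ξ)]` -/
theorem pat_supp (ξ : ℝ) (hξ : 1 ≤ ξ) (J : ℕ) (σ : ℕ → ℝ) (z : Pl)
    (hz : pat ξ J σ z ≠ 0) : |z.1| ≤ (J + 1) / ξ ∧ |z.2| ≤ 1 / (4 * ξ) := by
  have hξ0 : 0 < ξ := by linarith
  obtain ⟨j, hj, hne⟩ := Finset.exists_ne_zero_of_sum_ne_zero hz
  have hj' : (j : ℝ) ≤ J := by exact_mod_cast (Finset.mem_range.1 hj).le
  have hb : psi (ξ * z.1 - j) * psi (ξ * z.2) ≠ 0 := right_ne_zero_of_mul hne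
  have h1 : |ξ * z.1 - j| < 1/4 := by
    by_contra hcon
    exact hb (by rw [psi_zero (not_lt.1 hcon), zero_mul])
  have h2 : |ξ * z.2| < 1/4 := by
    by_contra hcon
    exact hb (by rw [psi_zero (not_lt.1 hcon), mul_zero])
  constructor
  · rw [le_div_iff₀ hξ0]
    have h3 : |z.1| * ξ = |ξ * z.1| := by rw [abs_mul, abs_of_pos hξ0, mul_comm]
    rw [h3]
    have h4 : |ξ * z.1| ≤ |ξ * z.1 - j| + |(j : ℝ)| := by
      calc |ξ * z.1| = |(ξ * z.1 - j) + j| := by ring_nf
        _ ≤ _ := abs_add_le _ _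
    have h5 : |(j : ℝ)| = j := abs_of_nonneg (by positivity)
    linarith
  · rw [le_div_iff₀ (by positivity)]
    rw [abs_mul, abs_of_pos hξ0] at h2
    linarith

/-- word derivatives are bounded by Fréchet derivatives -/
theorem Dw_le_iteratedFDeriv (f : Pl → ℝ) (hf : Sm f) (w : List Bool) (z : Pl) :
    |Dw w f z| ≤ ‖iteratedFDeriv ℝ w.length f z‖ := by
  have key : ∃ m : Fin w.length → Pl, (∀ i, ‖m i‖ ≤ 1) ∧
      Dw w f = fun z => iteratedFDeriv ℝ w.length f z m := by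
    induction w with
    | nil =>
      refine ⟨fun i => 0, fun i => by simp, ?_⟩
      funext z
      simp [Dw]
    | cons b w ih =>
      obtain ⟨m, hm, hw⟩ := ih
      have hd : ∀ e : Pl, ∀ z, fderiv ℝ (Dw w f) z e =
          iteratedFDeriv ℝ (w.length + 1) f z (Fin.cons e m) := by
        intro e z
        rw [hw, iteratedFDeriv_succ_apply_left]
        have hdiff : DifferentiableAt ℝ (iteratedFDeriv ℝ w.length f) z := by
          refine (ContDiff.differentiable_iteratedFDeriv (m := w.length) (n := ∞)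
            ?_ hf).differentiableAt
          exact_mod_cast ENat.natCast_lt_top w.length
        have h1 : HasFDerivAt (fun z => iteratedFDeriv ℝ w.length f z m)
            ((ContinuousMultilinearMap.apply ℝ (fun _ : Fin w.length => Pl) ℝ m).comp
              (fderiv ℝ (iteratedFDeriv ℝ w.length f) z)) z :=
          (ContinuousMultilinearMap.apply ℝ (fun _ : Fin w.length => Pl) ℝ m).hasFDerivAt.comp z
            hdiff.hasFDerivAt
        rw [h1.fderiv]
        simp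
      cases b with
      | true =>
        refine ⟨Fin.cons (1, 0) m, fun i => ?_, ?_⟩
        · refine Fin.cases ?_ (fun i => ?_) i
          · simp
          · simpa using hm i
        · funext z
          exact hd (1, 0) z
      | false =>
        refine ⟨Fin.cons (0, 1) m, fun i => ?_, ?_⟩
        · refine Fin.cases ?_ (fun i => ?_) i
          · simp
          · simpa using hm i
        · funext z
          exact hd (0, 1) z
  obtain ⟨m, hm, hw⟩ := key
  rw [hw]
  have h1 := (iteratedFDeriv ℝ w.length f z).le_opNorm m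
  rw [Real.norm_eq_abs] at h1
  refine h1.trans ?_
  have h2 : ∏ i, ‖m i‖ ≤ 1 := Finset.prod_le_one (fun i _ => norm_nonneg _) fun i _ => hm i
  exact mul_le_of_le_one_right (norm_nonneg _) h2

end Crest.Agent.R220
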