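import Crest.Agent.R220.Conv
import Crest.Agent.R220.Basic

/-!
# Row 220 (S0341): closeness calculus and `frame_close`

`nk k f z = ∑_{i ≤ k} ‖D^i f z‖ / i!` is a submultiplicative pointwise seminorm.
-/

set_option autoImplicit false

open scoped ContDiff Topology
open Finset

namespace Crest.Agent.R220

namespace FC

/-- pointwise `C^k` seminorm, submultiplicative -/
noncomputable def nk (k : ℕ) (f : Pl → ℝ) (z : Pl) : ℝ :=
  ∑ i ∈ range (k + 1), ‖iteratedFDeriv ℝ i f z‖ / (i.factorial : ℝ)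

lemma nk_nonneg (k : ℕ) (f : Pl → ℝ) (z : Pl) : 0 ≤ nk k f z :=
  sum_nonneg fun _ _ => by positivity

lemma sm_nat {f : Pl → ℝ} (hf : Sm f) (i : ℕ) : ContDiff ℝ i f :=
  hf.of_le (by exact_mod_cast le_top)

lemma nk_congr {f g : Pl → ℝ} {z : Pl} (k : ℕ) (h : f =ᶠ[𝓝 z] g) : nk k f z = nk k g z := by
  unfold nk
  refine sum_congr rfl fun i _ => ?_
  rw [(h.iteratedFDeriv (𝕜 := ℝ) i).eq_of_nhds]

lemma nk_add {f g : Pl → ℝ} (hf : Sm f) (hg : Sm g) (k : ℕ) (z : Pl) :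
    nk k (fun z => f z + g z) z ≤ nk k f z + nk k g z := by
  unfold nk
  rw [← sum_add_distrib]
  refine sum_le_sum fun i _ => ?_
  rw [← add_div]
  refine div_le_div_of_nonneg_right ?_ (by positivity)
  have : iteratedFDeriv ℝ i (fun z => f z + g z) z
      = iteratedFDeriv ℝ i f z + iteratedFDeriv ℝ i g z :=
    iteratedFDeriv_add_apply (sm_nat hf i).contDiffAt (sm_nat hg i).contDiffAt
  rw [this]
  exact norm_add_le _ _

lemma nk_neg {f : Pl → ℝ} (k : ℕ) (z : Pl) : nk k (fun z => - f z) z = nk k f z := by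
  unfold nk
  refine sum_congr rfl fun i _ => ?_
  have : iteratedFDeriv ℝ i (fun z => - f z) z = - iteratedFDeriv ℝ i f z :=
    iteratedFDeriv_neg_apply
  rw [this, norm_neg]

lemma nk_sub {f g : Pl → ℝ} (hf : Sm f) (hg : Sm g) (k : ℕ) (z : Pl) :
    nk k (fun z => f z - g z) z ≤ nk k f z + nk k g z := by
  have h1 : (fun z => f z - g z) = fun z => f z + (- g z) := by funext w; ring
  rw [h1]
  refine (nk_add hf hg.neg' k z).trans ?_
  rw [nk_neg]

lemma nk_zero_fun (k : ℕ) (z : Pl) : nk k (fun _ => (0 : ℝ)) z = 0 := by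
  unfold nk
  refine sum_eq_zero fun i _ => ?_
  have : iteratedFDeriv ℝ i (fun _ : Pl => (0 : ℝ)) z = 0 := by
    have := iteratedFDeriv_fun_zero (𝕜 := ℝ) (E := Pl) (F := ℝ) (n := i)
    exact congrFun this z
  rw [this]; simp

lemma nk_const (k : ℕ) (c : ℝ) (z : Pl) : nk k (fun _ => c) z = |c| := by
  unfold nk
  rw [sum_range_succ']
  have h0 : ∑ i ∈ range k, ‖iteratedFDeriv ℝ (i + 1) (fun _ : Pl => c) z‖
      / ((i + 1).factorial : ℝ) = 0 := by
    refine sum_eq_zero fun i _ => ?_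
    rw [iteratedFDeriv_succ_const]
    simp
  rw [h0]
  simp

lemma nk_mono {k k' : ℕ} (h : k ≤ k') (f : Pl → ℝ) (z : Pl) : nk k f z ≤ nk k' f z := by
  unfold nk
  refine sum_le_sum_of_subset_of_nonneg ?_ fun _ _ _ => by positivity
  exact range_mono (by omega)

lemma abs_le_nk (k : ℕ) (f : Pl → ℝ) (z : Pl) : |f z| ≤ nk k f z := by
  refine le_trans ?_ (nk_mono (Nat.zero_le k) f z)
  unfold nk
  simp

lemma nk_mul {f g : Pl → ℝ} (hf : Sm f) (hg : Sm g) (k : ℕ) (z : Pl) :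
    nk k (fun z => f z * g z) z ≤ nk k f z * nk k g z := by
  have h1 : nk k (fun z => f z * g z) z ≤ ∑ n ∈ range (k + 1), ∑ i ∈ range (n + 1),
      (‖iteratedFDeriv ℝ i f z‖ / (i.factorial : ℝ)) *
        (‖iteratedFDeriv ℝ (n - i) g z‖ / ((n - i).factorial : ℝ)) := by
    unfold nk
    refine sum_le_sum fun n _ => ?_
    rw [div_le_iff₀ (by positivity), sum_mul]
    refine (norm_iteratedFDeriv_mul_le (sm_nat hf n) (sm_nat hg n) z le_rfl).trans ?_
    refine sum_le_sum fun i hi => ?_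
    have hin : i ≤ n := by simpa [Nat.lt_succ_iff] using hi
    have hc : (n.choose i : ℝ) * (i.factorial : ℝ) * ((n - i).factorial : ℝ) = n.factorial := by
      exact_mod_cast Nat.choose_mul_factorial_mul_factorial hin
    have e : ‖iteratedFDeriv ℝ i f z‖ / (i.factorial : ℝ) *
        (‖iteratedFDeriv ℝ (n - i) g z‖ / ((n - i).factorial : ℝ)) * (n.factorial : ℝ)
        = (n.choose i : ℝ) * ‖iteratedFDeriv ℝ i f z‖ * ‖iteratedFDeriv ℝ (n - i) g z‖ := by
      rw [← hc]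
      field_simp
    rw [e]
  refine h1.trans ?_
  unfold nk
  rw [sum_mul_sum]
  set a : ℕ → ℝ := fun i => ‖iteratedFDeriv ℝ i f z‖ / (i.factorial : ℝ) with ha
  set b : ℕ → ℝ := fun i => ‖iteratedFDeriv ℝ i g z‖ / (i.factorial : ℝ) with hb
  have ha0 : ∀ i, 0 ≤ a i := fun i => by rw [ha]; positivity
  have hb0 : ∀ i, 0 ≤ b i := fun i => by rw [hb]; positivity
  have h2 : ∑ n ∈ range (k + 1), ∑ i ∈ range (n + 1), a i * b (n - i)
      = ∑ i ∈ range (k + 1), ∑ j ∈ range (k + 1 - i), a i * b j := by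
    have := Finset.range_add_eq_union
    rw [sum_sigma', sum_sigma']
    refine sum_bij' (fun p _ => ⟨p.2, p.1 - p.2⟩) (fun p _ => ⟨p.1 + p.2, p.1⟩) ?_ ?_ ?_ ?_ ?_
    · rintro ⟨n, i⟩ h
      simp only [mem_sigma, mem_range] at h ⊢
      omega
    · rintro ⟨n, i⟩ h
      simp only [mem_sigma, mem_range] at h ⊢
      omega
    · rintro ⟨n, i⟩ h
      simp only [mem_sigma, mem_range] at h
      simp only [Sigma.mk.injEq, heq_eq_eq, and_true]
      omega
    · rintro ⟨n, i⟩ h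
      simp
    · rintro ⟨n, i⟩ h
      rfl
  rw [h2]
  refine sum_le_sum fun i _ => ?_
  refine sum_le_sum_of_subset_of_nonneg ?_ fun j _ _ => mul_nonneg (ha0 i) (hb0 j)
  exact range_mono (by omega)

lemma nk_fderiv_apply {f : Pl → ℝ} (hf : Sm f) (v : Pl) (hv : ‖v‖ ≤ 1) (k : ℕ) (z : Pl) :
    nk k (fun z => fderiv ℝ f z v) z ≤ (k + 1) * nk (k + 1) f z := by
  have hfd : ContDiff ℝ ∞ (fderiv ℝ f) := hf.fderiv_right (by simp)
  have h1 : nk k (fun z => fderiv ℝ f z v) z ≤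
      ∑ i ∈ range (k + 1), ((k : ℝ) + 1) * (‖iteratedFDeriv ℝ (i + 1) f z‖
        / ((i + 1).factorial : ℝ)) := by
    unfold nk
    refine sum_le_sum fun i hi => ?_
    have hik : (i : ℝ) + 1 ≤ k + 1 := by
      have : i < k + 1 := mem_range.mp hi
      exact_mod_cast this
    have h2 : ‖iteratedFDeriv ℝ i (fun z => fderiv ℝ f z v) z‖
        ≤ ‖iteratedFDeriv ℝ (i + 1) f z‖ := by
      refine (norm_iteratedFDeriv_clm_apply_const (N := ∞) hfd.contDiffAt
        (by exact_mod_cast le_top)).trans ?_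
      rw [norm_iteratedFDeriv_fderiv]
      exact mul_le_of_le_one_left (norm_nonneg _) hv
    rw [Nat.factorial_succ]
    push_cast
    rw [div_le_iff₀ (by positivity)]
    have e : ((k : ℝ) + 1) * (‖iteratedFDeriv ℝ (i + 1) f z‖ / (((i : ℝ) + 1) * (i.factorial : ℝ)))
        * (i.factorial : ℝ) = (((k : ℝ) + 1) / ((i : ℝ) + 1)) * ‖iteratedFDeriv ℝ (i + 1) f z‖ := by
      field_simp
    rw [e]
    refine h2.trans ?_
    refine le_mul_of_one_le_left (norm_nonneg _) ?_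
    rw [le_div_iff₀ (by positivity)]
    linarith
  refine h1.trans ?_
  rw [← mul_sum]
  refine mul_le_mul_of_nonneg_left ?_ (by positivity)
  have : nk (k + 1) f z = ∑ i ∈ range (k + 1), (‖iteratedFDeriv ℝ (i + 1) f z‖
        / ((i + 1).factorial : ℝ)) + ‖iteratedFDeriv ℝ 0 f z‖ / (Nat.factorial 0 : ℝ) := by
    unfold nk
    rw [sum_range_succ']
  rw [this]
  have : 0 ≤ ‖iteratedFDeriv ℝ 0 f z‖ / (Nat.factorial 0 : ℝ) := by positivity
  linarith

lemma nk_dx {f : Pl → ℝ} (hf : Sm f) (k : ℕ) (z : Pl) :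
    nk k (dx f) z ≤ (k + 1) * nk (k + 1) f z :=
  nk_fderiv_apply hf (1, 0) (by simp [Prod.norm_def]) k z

lemma nk_dy {f : Pl → ℝ} (hf : Sm f) (k : ℕ) (z : Pl) :
    nk k (dy f) z ≤ (k + 1) * nk (k + 1) f z :=
  nk_fderiv_apply hf (0, 1) (by simp [Prod.norm_def]) k z

lemma abs_Dw_le {f : Pl → ℝ} (hf : Sm f) {k : ℕ} (w : List Bool) (hw : w.length ≤ k) (z : Pl) :
    |Dw w f z| ≤ (k.factorial : ℝ) * nk k f z := by
  refine (Conv.abs_Dw_le_norm_iteratedFDeriv hf w z).trans ?_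
  have h1 : ‖iteratedFDeriv ℝ w.length f z‖ / (w.length.factorial : ℝ) ≤ nk k f z := by
    unfold nk
    exact single_le_sum (f := fun i => ‖iteratedFDeriv ℝ i f z‖ / (i.factorial : ℝ))
      (fun i _ => by positivity) (mem_range.mpr (by omega))
  rw [div_le_iff₀ (by positivity)] at h1
  refine h1.trans ?_
  rw [mul_comm]
  refine mul_le_mul_of_nonneg_right ?_ (nk_nonneg _ _ _)
  exact_mod_cast Nat.factorial_le hw

/-- from bounds on words of derivatives (order `≤ 4`) to `nk 4` -/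
lemma nk4_le {f : Pl → ℝ} (hf : Sm f) (z : Pl) (η : ℝ)
    (h : ∀ w : List Bool, w.length ≤ 4 → |Dw w f z| ≤ η) : nk 4 f z ≤ 7 * η := by
  have hη : 0 ≤ η := (abs_nonneg _).trans (h [] (by simp))
  have hi : ∀ i ≤ 4, ‖iteratedFDeriv ℝ i f z‖ ≤ 2 ^ i * η := fun i hi =>
    Conv.norm_iteratedFDeriv_le_of_Dw hf i z η (fun w hw => h w (by omega))
  unfold nk
  simp only [sum_range_succ, sum_range_zero, Nat.factorial]
  have h0 := hi 0 (by norm_num)
  have h1 := hi 1 (by norm_num)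
  have h2 := hi 2 (by norm_num)
  have h3 := hi 3 (by norm_num)
  have h4 := hi 4 (by norm_num)
  norm_num at h0 h1 h2 h3 h4 ⊢
  linarith

/-- inverse: closeness to `1` -/
lemma nk_inv {f : Pl → ℝ} (hf : Sm f) (h0 : ∀ z, f z ≠ 0) (k : ℕ) (z : Pl) {ε : ℝ}
    (hε : ε ≤ 1 / 2) (h : nk k (fun z => f z - 1) z ≤ ε) :
    nk k (fun z => (f z)⁻¹) z ≤ 2 ∧ nk k (fun z => (f z)⁻¹ - 1) z ≤ 2 * ε := by
  have hinv : Sm (fun z => (f z)⁻¹) := hf.inv' h0
  have hf1 : Sm (fun z => f z - 1) := hf.sub' (Sm.const 1)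
  have e : (fun z => (f z)⁻¹) = fun z => 1 - (f z - 1) * (f z)⁻¹ := by
    funext w
    have := h0 w
    field_simp
    ring
  have e' : (fun z => (f z)⁻¹ - 1) = fun z => -((f z - 1) * (f z)⁻¹) := by
    funext w
    have := h0 w
    field_simp
    ring
  have hm : nk k (fun z => (f z - 1) * (f z)⁻¹) z ≤ ε * nk k (fun z => (f z)⁻¹) z :=
    (nk_mul hf1 hinv k z).trans (mul_le_mul_of_nonneg_right h (nk_nonneg _ _ _))
  have h1 : nk k (fun z => (f z)⁻¹) z ≤ 1 + ε * nk k (fun z => (f z)⁻¹) z := by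
    have h2 : nk k (fun z => 1 - (f z - 1) * (f z)⁻¹) z
        ≤ nk k (fun _ => (1 : ℝ)) z + nk k (fun z => (f z - 1) * (f z)⁻¹) z :=
      nk_sub (Sm.const 1) (hf1.mul' hinv) k z
    rw [nk_const, abs_one] at h2
    rw [← e] at h2
    linarith
  have hn := nk_nonneg k (fun z => (f z)⁻¹) z
  have h3 : nk k (fun z => (f z)⁻¹) z ≤ 2 := by nlinarith
  refine ⟨h3, ?_⟩
  rw [e', nk_neg]
  have hε0 : 0 ≤ ε := (nk_nonneg _ _ _).trans h
  nlinarith

/-- product closeness -/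
lemma nk_mul_sub {f g f0 g0 : Pl → ℝ} (hf : Sm f) (hg : Sm g) (hf0 : Sm f0) (hg0 : Sm g0)
    (k : ℕ) (z : Pl) {a b A B : ℝ} (ha : nk k (fun z => f z - f0 z) z ≤ a)
    (hb : nk k (fun z => g z - g0 z) z ≤ b) (hA : nk k f0 z ≤ A) (hB : nk k g0 z ≤ B) :
    nk k (fun z => f z * g z - f0 z * g0 z) z ≤ a * b + A * b + a * B := by
  have e : (fun z => f z * g z - f0 z * g0 z) =
      fun z => ((f z - f0 z) * (g z - g0 z) + f0 z * (g z - g0 z)) + (f z - f0 z) * g0 z := by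
    funext w; ring
  have sf := hf.sub' hf0
  have sg := hg.sub' hg0
  rw [e]
  have a0 : 0 ≤ a := (nk_nonneg _ _ _).trans ha
  have b0 : 0 ≤ b := (nk_nonneg _ _ _).trans hb
  have A0 : 0 ≤ A := (nk_nonneg _ _ _).trans hA
  have h1 := nk_add ((sf.mul' sg).add' (hf0.mul' sg)) (sf.mul' hg0) k z
  have h2 := nk_add (sf.mul' sg) (hf0.mul' sg) k z
  have h3 : nk k (fun z => (f z - f0 z) * (g z - g0 z)) z ≤ a * b :=
    (nk_mul sf sg k z).trans (mul_le_mul ha hb (nk_nonneg _ _ _) a0)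
  have h4 : nk k (fun z => f0 z * (g z - g0 z)) z ≤ A * b :=
    (nk_mul hf0 sg k z).trans (mul_le_mul hA hb (nk_nonneg _ _ _) A0)
  have h5 : nk k (fun z => (f z - f0 z) * g0 z) z ≤ a * B :=
    (nk_mul sf hg0 k z).trans (mul_le_mul ha hB (nk_nonneg _ _ _) a0)
  linarith

/-- the first coordinate -/
lemma nk_fst (k : ℕ) (z : Pl) : nk k (fun z => z.1) z ≤ |z.1| + 1 := by
  have hfd : fderiv ℝ (fun z : Pl => z.1) = fun _ => ContinuousLinearMap.fst ℝ ℝ ℝ := by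
    funext w
    exact (ContinuousLinearMap.fst ℝ ℝ ℝ).hasFDerivAt.fderiv
  unfold nk
  rw [sum_range_succ']
  have h0 : ‖iteratedFDeriv ℝ 0 (fun z : Pl => z.1) z‖ / (Nat.factorial 0 : ℝ) = |z.1| := by
    simp
  rw [h0]
  have h1 : ∑ i ∈ range k, ‖iteratedFDeriv ℝ (i + 1) (fun z : Pl => z.1) z‖
      / ((i + 1).factorial : ℝ) ≤ 1 := by
    cases k with
    | zero => simp
    | succ k =>
      rw [sum_range_succ']
      have h2 : ∑ i ∈ range k, ‖iteratedFDeriv ℝ (i + 1 + 1) (fun z : Pl => z.1) z‖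
          / ((i + 1 + 1).factorial : ℝ) = 0 := by
        refine sum_eq_zero fun i _ => ?_
        rw [← norm_iteratedFDeriv_fderiv, hfd, iteratedFDeriv_succ_const]
        simp
      rw [h2]
      have h3 : ‖iteratedFDeriv ℝ (0 + 1) (fun z : Pl => z.1) z‖ ≤ 1 := by
        rw [← norm_iteratedFDeriv_fderiv, hfd, norm_iteratedFDeriv_zero]
        exact ContinuousLinearMap.norm_fst_le ℝ ℝ ℝ
      simpa using h3
  linarith

section

variable {X Y u : Pl → ℝ} {z : Pl} {e : ℝ}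

lemma j_close (hX : Sm X) (hY : Sm Y) (k : ℕ) (he : 0 ≤ e) (he1 : e ≤ 1)
    (h1 : nk k (fun z => dx X z - 1) z ≤ e) (h2 : nk k (dy X) z ≤ e)
    (h3 : nk k (dx Y) z ≤ e) (h4 : nk k (fun z => dy Y z - 1) z ≤ e) :
    nk k (fun z => br X Y z - 1) z ≤ 4 * e := by
  have hc : ∀ c : ℝ, Sm (fun _ : Pl => c) := Sm.const
  have e1 : (fun z => br X Y z - 1) =
      fun z => (dx X z * dy Y z - (1 : ℝ) * 1) - dy X z * dx Y z := by
    funext w; unfold br; ring
  rw [e1]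
  have s1 : Sm (fun z => dx X z * dy Y z - (1 : ℝ) * 1) :=
    (hX.dx.mul' hY.dy).sub' (Sm.const _)
  have s2 : Sm (fun z => dy X z * dx Y z) := hX.dy.mul' hY.dx
  have b1 := nk_mul_sub (f0 := fun _ => (1 : ℝ)) (g0 := fun _ => (1 : ℝ)) hX.dx hY.dy (hc 1) (hc 1)
    k z h1 h4 (A := 1) (B := 1) (by rw [nk_const]; simp) (by rw [nk_const]; simp)
  have b2 : nk k (fun z => dy X z * dx Y z) z ≤ e * e :=
    (nk_mul hX.dy hY.dx k z).trans (mul_le_mul h2 h3 (nk_nonneg _ _ _) he)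
  have b3 := nk_sub s1 s2 k z
  have hee : e * e ≤ e := by nlinarith
  linarith

lemma p_close (hX : Sm X) (hY : Sm Y) (hu : Sm u) (hj : ∀ z, br X Y z ≠ 0)
    {B : ℝ} (hB : 1 ≤ B) (he : 0 ≤ e) (hsmall : 8 * e ≤ 1) (hx : nk 3 (fun z => z.1) z ≤ B)
    (h1 : nk 3 (fun z => dx X z - 1) z ≤ e) (h2 : nk 3 (dy X) z ≤ e)
    (h3 : nk 3 (dx Y) z ≤ e) (h4 : nk 3 (fun z => dy Y z - 1) z ≤ e)
    (h5 : nk 3 (fun z => dx u z - z.1) z ≤ e) (h6 : nk 3 (dy u) z ≤ e) :
    nk 3 (fun z => pf X Y u z - z.1) z ≤ (10 * B + 6) * e := by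
  have he1 : e ≤ 1 := by linarith
  have hc : ∀ c : ℝ, Sm (fun _ : Pl => c) := Sm.const
  have hj1 := j_close hX hY 3 he he1 h1 h2 h3 h4
  have hji := nk_inv (hX.br hY) hj 3 z (ε := 4 * e) (by linarith) hj1
  have hee : e * e ≤ e := by nlinarith
  -- `v = br u Y`
  have e1 : (fun z => br u Y z - z.1) =
      fun z => (dx u z * dy Y z - z.1 * 1) - dy u z * dx Y z := by
    funext w; unfold br; ring
  have s1 : Sm (fun z : Pl => dx u z * dy Y z - z.1 * 1) :=
    (hu.dx.mul' hY.dy).sub' (Sm.fst.mul' (Sm.const 1))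
  have s2 : Sm (fun z => dy u z * dx Y z) := hu.dy.mul' hY.dx
  have b1 := nk_mul_sub (f0 := fun z => z.1) (g0 := fun _ => (1 : ℝ)) hu.dx hY.dy Sm.fst (hc 1)
    3 z h5 h4 (A := B) (B := 1) hx (by rw [nk_const]; simp)
  have b2 : nk 3 (fun z => dy u z * dx Y z) z ≤ e * e :=
    (nk_mul hu.dy hY.dx 3 z).trans (mul_le_mul h6 h3 (nk_nonneg _ _ _) he)
  have b3 := nk_sub s1 s2 3 z
  rw [← e1] at b3
  have hv : nk 3 (fun z => br u Y z - z.1) z ≤ (B + 3) * e := by nlinarith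
  -- `p = v / j`
  have sji : Sm (fun z => (br X Y z)⁻¹) := (hX.br hY).inv' hj
  have e2 : (fun z => pf X Y u z - z.1) = fun z => br u Y z * (br X Y z)⁻¹ - z.1 * 1 := by
    funext w; unfold pf; rw [div_eq_mul_inv, mul_one]
  rw [e2]
  have b4 := nk_mul_sub (f0 := fun z => z.1) (g0 := fun _ => (1 : ℝ)) (hu.br hY) sji Sm.fst (hc 1)
    3 z hv hji.2 (A := B) (B := 1) hx (by rw [nk_const]; simp)
  refine b4.trans ?_
  have h8 : (B + 3) * e * (8 * e) ≤ (B + 3) * e * 1 :=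
    mul_le_mul_of_nonneg_left hsmall (by positivity)
  linarith

/-- everything at order two -/
lemma frame2 {p : Pl → ℝ} (hX : Sm X) (hY : Sm Y) (hp : Sm p) (hJ : ∀ z, br p Y z ≠ 0)
    (he : 0 ≤ e) (hsmall : 8 * e ≤ 1)
    (h1 : nk 2 (fun z => dx X z - 1) z ≤ e) (h2 : nk 2 (dy X) z ≤ e)
    (h3 : nk 2 (dx Y) z ≤ e) (h4 : nk 2 (fun z => dy Y z - 1) z ≤ e)
    (h5 : nk 2 (fun z => dx p z - 1) z ≤ e) (h6 : nk 2 (dy p) z ≤ e) :
    nk 2 (fun z => Pop p Y (fun z => z.1) z - 1) z ≤ 16 * e ∧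
    nk 2 (fun z => Pop p Y (fun z => z.2) z) z ≤ 16 * e ∧
    nk 2 (fun z => Top p Y (fun z => z.1) z) z ≤ 16 * e ∧
    nk 2 (fun z => Top p Y (fun z => z.2) z - 1) z ≤ 16 * e ∧
    nk 2 (fun z => Pop p Y X z - 1) z ≤ 16 * e ∧
    nk 2 (fun z => Top p Y X z) z ≤ 16 * e := by
  have he1 : e ≤ 1 := by linarith
  have hc : ∀ c : ℝ, Sm (fun _ : Pl => c) := Sm.const
  have hee : e * e ≤ e := by nlinarith
  have hee8 : e * (8 * e) ≤ e := by nlinarith
  have hJ1 := j_close hp hY 2 he he1 h5 h6 h3 h4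
  have hji := nk_inv (hp.br hY) hJ 2 z (ε := 4 * e) (by linarith) hJ1
  have hj1 := j_close hX hY 2 he he1 h1 h2 h3 h4
  have sJi : Sm (fun z => (br p Y z)⁻¹) := (hp.br hY).inv' hJ
  have one_le : nk 2 (fun _ => (1 : ℝ)) z ≤ 1 := by rw [nk_const]; simp
  refine ⟨?_, ?_, ?_, ?_, ?_, ?_⟩
  · have e1 : (fun z => Pop p Y (fun z => z.1) z - 1) = fun z => dy Y z * (br p Y z)⁻¹ - 1 * 1 := by
      funext w; unfold Pop
      rw [show br (fun z : Pl => z.1) Y w = dy Y w by unfold br; rw [dx_fst, dy_fst]; ring,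
        div_eq_mul_inv, mul_one]
    rw [e1]
    have := nk_mul_sub (f0 := fun _ => (1 : ℝ)) (g0 := fun _ => (1 : ℝ)) hY.dy sJi (hc 1) (hc 1)
      2 z h4 hji.2 one_le one_le
    refine this.trans ?_
    nlinarith
  · have e1 : (fun z => Pop p Y (fun z => z.2) z) = fun z => - (dx Y z * (br p Y z)⁻¹) := by
      funext w; unfold Pop
      rw [show br (fun z : Pl => z.2) Y w = - dx Y w by unfold br; rw [dx_snd, dy_snd]; ring,
        div_eq_mul_inv]
      ring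
    rw [e1, nk_neg]
    have := (nk_mul hY.dx sJi 2 z).trans (mul_le_mul h3 hji.1 (nk_nonneg _ _ _) he)
    linarith
  · have e1 : (fun z => Top p Y (fun z => z.1) z) = fun z => - (dy p z * (br p Y z)⁻¹) := by
      funext w; unfold Top
      rw [show br p (fun z : Pl => z.1) w = - dy p w by unfold br; rw [dx_fst, dy_fst]; ring,
        div_eq_mul_inv]
      ring
    rw [e1, nk_neg]
    have := (nk_mul hp.dy sJi 2 z).trans (mul_le_mul h6 hji.1 (nk_nonneg _ _ _) he)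
    linarith
  · have e1 : (fun z => Top p Y (fun z => z.2) z - 1) = fun z => dx p z * (br p Y z)⁻¹ - 1 * 1 := by
      funext w; unfold Top
      rw [show br p (fun z : Pl => z.2) w = dx p w by unfold br; rw [dx_snd, dy_snd]; ring,
        div_eq_mul_inv, mul_one]
    rw [e1]
    have := nk_mul_sub (f0 := fun _ => (1 : ℝ)) (g0 := fun _ => (1 : ℝ)) hp.dx sJi (hc 1) (hc 1)
      2 z h5 hji.2 one_le one_le
    refine this.trans ?_
    nlinarith
  · have e1 : (fun z => Pop p Y X z - 1) = fun z => br X Y z * (br p Y z)⁻¹ - 1 * 1 := by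
      funext w; unfold Pop
      rw [div_eq_mul_inv, mul_one]
    rw [e1]
    have := nk_mul_sub (f0 := fun _ => (1 : ℝ)) (g0 := fun _ => (1 : ℝ)) (hX.br hY) sJi (hc 1) (hc 1)
      2 z hj1 hji.2 one_le one_le
    refine this.trans ?_
    nlinarith
  · have e1 : (fun z => Top p Y X z) = fun z => br p X z * (br p Y z)⁻¹ := by
      funext w; unfold Top
      rw [div_eq_mul_inv]
    rw [e1]
    have e2 : (fun z => br p X z) = fun z => ((dx p z - 1) * dy X z + dy X z)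
        - ((dx X z - 1) * dy p z + dy p z) := by
      funext w; unfold br; ring
    have s1 : Sm (fun z => dx p z - 1) := hp.dx.sub' (hc 1)
    have s2 : Sm (fun z => dx X z - 1) := hX.dx.sub' (hc 1)
    have t1 : nk 2 (fun z => (dx p z - 1) * dy X z) z ≤ e * e :=
      (nk_mul s1 hX.dy 2 z).trans (mul_le_mul h5 h2 (nk_nonneg _ _ _) he)
    have t2 : nk 2 (fun z => (dx X z - 1) * dy p z) z ≤ e * e :=
      (nk_mul s2 hp.dy 2 z).trans (mul_le_mul h1 h6 (nk_nonneg _ _ _) he)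
    have t3 := nk_add (s1.mul' hX.dy) hX.dy 2 z
    have t4 := nk_add (s2.mul' hp.dy) hp.dy 2 z
    have t5 := nk_sub ((s1.mul' hX.dy).add' hX.dy) ((s2.mul' hp.dy).add' hp.dy) 2 z
    rw [← e2] at t5
    have t6 : nk 2 (fun z => br p X z) z ≤ 4 * e := by linarith
    have := (nk_mul (hp.br hX) sJi 2 z).trans (mul_le_mul t6 hji.1 (nk_nonneg _ _ _) (by linarith))
    linarith

end

lemma isClosed_sq (s : ℝ) : IsClosed (sq s) := by
  have h1 : IsClosed {z : Pl | |z.1| ≤ s} := isClosed_le (by fun_prop) (by fun_prop)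
  have h2 : IsClosed {z : Pl | |z.2| ≤ s} := isClosed_le (by fun_prop) (by fun_prop)
  exact h1.inter h2

lemma Sm_half_sq : Sm (fun z : Pl => z.1 ^ 2 / 2) := by
  have h : (fun z : Pl => z.1 ^ 2 / 2) = fun z : Pl => z.1 ^ 2 * (1 / 2) := by funext w; ring
  rw [h]
  exact (Sm.fst.pow' 2).mul' (Sm.const _)

lemma dx_half_sq : dx (fun z : Pl => z.1 ^ 2 / 2) = fun z => z.1 := by
  have h : (fun z : Pl => z.1 ^ 2 / 2) = fun z : Pl => (1 / 2) * (z.1 * z.1) := by funext w; ring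
  rw [h, dx_const_mul _ (Sm.fst.mul' Sm.fst), dx_mul Sm.fst Sm.fst, dx_fst]
  funext w; ring

lemma dy_half_sq : dy (fun z : Pl => z.1 ^ 2 / 2) = fun _ => 0 := by
  have h : (fun z : Pl => z.1 ^ 2 / 2) = fun z : Pl => (1 / 2) * (z.1 * z.1) := by funext w; ring
  rw [h, dy_const_mul _ (Sm.fst.mul' Sm.fst), dy_mul Sm.fst Sm.fst, dy_fst]
  funext w; ring

/-- the basic closeness data at every point -/
lemma base {η : ℝ} {X Y u : Pl → ℝ} (h : NearCyl η X Y u) (z : Pl) :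
    ∃ B e : ℝ, 1 ≤ B ∧ 0 ≤ e ∧ e ≤ 28 * η ∧ (10 * B + 6) * e ≤ 728 * η ∧
      nk 3 (fun z => z.1) z ≤ B ∧
      nk 3 (fun z => dx X z - 1) z ≤ e ∧ nk 3 (dy X) z ≤ e ∧
      nk 3 (dx Y) z ≤ e ∧ nk 3 (fun z => dy Y z - 1) z ≤ e ∧
      nk 3 (fun z => dx u z - z.1) z ≤ e ∧ nk 3 (dy u) z ≤ e := by
  have hη : 0 ≤ η := (abs_nonneg _).trans (h.clX [] (by simp) 0)
  have sX : Sm (fun z => X z - z.1) := h.smX.sub' Sm.fst
  have sY : Sm (fun z => Y z - z.2) := h.smY.sub' Sm.snd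
  have su : Sm (fun z => u z - z.1 ^ 2 / 2) := h.smu.sub' Sm_half_sq
  have eX1 : dx (fun z => X z - z.1) = fun z => dx X z - 1 := by
    rw [dx_sub h.smX Sm.fst, dx_fst]
  have eX2 : dy (fun z => X z - z.1) = dy X := by
    rw [dy_sub h.smX Sm.fst, dy_fst]; funext w; ring
  have eY1 : dx (fun z => Y z - z.2) = dx Y := by
    rw [dx_sub h.smY Sm.snd, dx_snd]; funext w; ring
  have eY2 : dy (fun z => Y z - z.2) = fun z => dy Y z - 1 := by
    rw [dy_sub h.smY Sm.snd, dy_snd]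
  have eu1 : dx (fun z => u z - z.1 ^ 2 / 2) = fun z => dx u z - z.1 := by
    rw [dx_sub h.smu Sm_half_sq, dx_half_sq]
  have eu2 : dy (fun z => u z - z.1 ^ 2 / 2) = dy u := by
    rw [dy_sub h.smu Sm_half_sq, dy_half_sq]; funext w; ring
  by_cases hz : z ∈ sq 1
  · refine ⟨2, 28 * η, by norm_num, by linarith, le_rfl, by linarith, ?_, ?_⟩
    · refine (nk_fst 3 z).trans ?_
      have := hz.1
      linarith
    · have nX := nk4_le sX z η (fun w hw => h.clX w hw z)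
      have nY := nk4_le sY z η (fun w hw => h.clY w hw z)
      have nu := nk4_le su z η (fun w hw => h.clu w hw z)
      have aX := nk_dx sX 3 z
      have bX := nk_dy sX 3 z
      have aY := nk_dx sY 3 z
      have bY := nk_dy sY 3 z
      have au := nk_dx su 3 z
      have bu := nk_dy su 3 z
      rw [eX1] at aX; rw [eX2] at bX; rw [eY1] at aY; rw [eY2] at bY
      rw [eu1] at au; rw [eu2] at bu
      norm_num at aX bX aY bY au bu
      refine ⟨?_, ?_, ?_, ?_, ?_, ?_⟩ <;> linarith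
  · have hopen : ∀ᶠ w in 𝓝 z, w ∉ sq 1 := (isClosed_sq 1).isOpen_compl.mem_nhds hz
    have gX : (fun z => X z - z.1) =ᶠ[𝓝 z] fun _ => 0 := by
      filter_upwards [hopen] with w hw
      rw [h.outX w hw]; ring
    have gY : (fun z => Y z - z.2) =ᶠ[𝓝 z] fun _ => 0 := by
      filter_upwards [hopen] with w hw
      rw [h.outY w hw]; ring
    have gu : (fun z => u z - z.1 ^ 2 / 2) =ᶠ[𝓝 z] fun _ => 0 := by
      filter_upwards [hopen] with w hw
      rw [h.outu w hw]; ring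
    have zero_of : ∀ {f : Pl → ℝ}, f =ᶠ[𝓝 z] (fun _ => 0) →
        nk 3 (dx f) z ≤ 0 ∧ nk 3 (dy f) z ≤ 0 := by
      intro f hf
      have hx : dx f =ᶠ[𝓝 z] fun _ => 0 := by
        filter_upwards [hf.eventually_nhds] with w hw
        rw [dx_congr hw, dx_const]
      have hy : dy f =ᶠ[𝓝 z] fun _ => 0 := by
        filter_upwards [hf.eventually_nhds] with w hw
        rw [dy_congr hw, dy_const]
      rw [nk_congr 3 hx, nk_congr 3 hy, nk_zero_fun]
      exact ⟨le_rfl, le_rfl⟩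
    refine ⟨|z.1| + 1, 0, by linarith [abs_nonneg z.1], le_rfl, by linarith, by linarith,
      nk_fst 3 z, ?_⟩
    have aX := zero_of gX
    have aY := zero_of gY
    have au := zero_of gu
    rw [eX1, eX2] at aX; rw [eY1, eY2] at aY; rw [eu1, eu2] at au
    exact ⟨aX.1, aX.2, aY.1, aY.2, au.1, au.2⟩

end FC

open FC in
/-- **frame_close**. -/
theorem frame_close : ∃ η0 C : ℝ, 0 < η0 ∧ 0 < C ∧ ∀ (η : ℝ) (X Y u : Pl → ℝ), η ≤ η0 →
    NearCyl η X Y u →
    (∀ z, 1 / 2 ≤ br X Y z) ∧ Sm (pf X Y u) ∧ Sm (qf X Y u) ∧ Sm (kapf X Y u) ∧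
    pf X Y u 0 = 0 ∧ (∀ z, 1 / 2 ≤ br (pf X Y u) Y z) ∧ (∀ z, br (pf X Y u) Y z ≤ 2) ∧
    (∀ w : List Bool, w.length ≤ 3 → ∀ z, |Dw w (fun z => pf X Y u z - z.1) z| ≤ C * η) ∧
    (∀ w : List Bool, w.length ≤ 2 → ∀ z,
      |Dw w (fun z => Pop (pf X Y u) Y (fun z => z.1) z - 1) z| ≤ C * η ∧
      |Dw w (fun z => Pop (pf X Y u) Y (fun z => z.2) z) z| ≤ C * η ∧
      |Dw w (fun z => Top (pf X Y u) Y (fun z => z.1) z) z| ≤ C * η ∧
      |Dw w (fun z => Top (pf X Y u) Y (fun z => z.2) z - 1) z| ≤ C * η ∧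
      |Dw w (fun z => Pop (pf X Y u) Y X z - 1) z| ≤ C * η ∧
      |Dw w (fun z => Top (pf X Y u) Y X z) z| ≤ C * η) := by
  refine ⟨1 / 20000, 70000, by norm_num, by norm_num, ?_⟩
  intro η X Y u hη h
  have hη0 : 0 ≤ η := (abs_nonneg _).trans (h.clX [] (by simp) 0)
  have hX := h.smX
  have hY := h.smY
  have hu := h.smu
  -- the Jacobian
  have hj : ∀ z, 1 / 2 ≤ br X Y z := by
    intro z
    obtain ⟨B, e, hB, he, he2, he3, hx, h1, h2, h3, h4, h5, h6⟩ := base h z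
    have := (abs_le_nk 3 (fun z => br X Y z - 1) z).trans
      (j_close hX hY 3 he (by linarith) h1 h2 h3 h4)
    have := (abs_le.mp this).1
    linarith
  have hj0 : ∀ z, br X Y z ≠ 0 := fun z => by have := hj z; linarith
  have hp : Sm (pf X Y u) := hX.pf hY hu hj0
  set p := pf X Y u with hpdef
  -- closeness of `p`
  have hpc : ∀ z, nk 3 (fun z => p z - z.1) z ≤ 728 * η := by
    intro z
    obtain ⟨B, e, hB, he, he2, he3, hx, h1, h2, h3, h4, h5, h6⟩ := base h z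
    exact (p_close hX hY hu hj0 hB he (by linarith) hx h1 h2 h3 h4 h5 h6).trans he3
  have spx : Sm (fun z => p z - z.1) := hp.sub' Sm.fst
  have ep1 : dx (fun z => p z - z.1) = fun z => dx p z - 1 := by
    rw [dx_sub hp Sm.fst, dx_fst]
  have ep2 : dy (fun z => p z - z.1) = dy p := by
    rw [dy_sub hp Sm.fst, dy_fst]; funext w; ring
  have hp1 : ∀ z, nk 2 (fun z => dx p z - 1) z ≤ 2184 * η := by
    intro z
    have := nk_dx spx 2 z
    rw [ep1] at this
    have h2 := hpc z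
    norm_num at this
    linarith
  have hp2 : ∀ z, nk 2 (dy p) z ≤ 2184 * η := by
    intro z
    have := nk_dy spx 2 z
    rw [ep2] at this
    have h2 := hpc z
    norm_num at this
    linarith
  -- base closeness at order two, with the constant `2184 η`
  have hb : ∀ z, nk 2 (fun z => dx X z - 1) z ≤ 2184 * η ∧ nk 2 (dy X) z ≤ 2184 * η ∧
      nk 2 (dx Y) z ≤ 2184 * η ∧ nk 2 (fun z => dy Y z - 1) z ≤ 2184 * η := by
    intro z
    obtain ⟨B, e, hB, he, he2, he3, hx, h1, h2, h3, h4, h5, h6⟩ := base h z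
    have m : ∀ f : Pl → ℝ, nk 2 f z ≤ nk 3 f z := fun f => nk_mono (by norm_num) f z
    refine ⟨(m _).trans (h1.trans ?_), (m _).trans (h2.trans ?_), (m _).trans (h3.trans ?_),
      (m _).trans (h4.trans ?_)⟩ <;> linarith
  have hJc : ∀ z, |br p Y z - 1| ≤ 1 / 2 := by
    intro z
    obtain ⟨h1, h2, h3, h4⟩ := hb z
    have := (abs_le_nk 2 (fun z => br p Y z - 1) z).trans
      (j_close hp hY 2 (e := 2184 * η) (by linarith) (by linarith) (hp1 z) (hp2 z) h3 h4)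
    linarith
  have hJ1 : ∀ z, 1 / 2 ≤ br p Y z := fun z => by have := (abs_le.mp (hJc z)).1; linarith
  have hJ2 : ∀ z, br p Y z ≤ 2 := fun z => by have := (abs_le.mp (hJc z)).2; linarith
  have hJ0 : ∀ z, br p Y z ≠ 0 := fun z => by have := hJ1 z; linarith
  refine ⟨hj, hp, hX.qf hY hu hj0, hX.kapf hY hu hj0, ?_, hJ1, hJ2, ?_, ?_⟩
  · rw [hpdef]; unfold pf br
    rw [h.ux0, h.uy0]; simp
  · intro w hw z
    refine (abs_Dw_le spx w hw z).trans ?_
    have := hpc z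
    norm_num [Nat.factorial]
    linarith
  · intro w hw z
    obtain ⟨h1, h2, h3, h4⟩ := hb z
    obtain ⟨g1, g2, g3, g4, g5, g6⟩ := frame2 (z := z) (e := 2184 * η) hX hY hp hJ0 (by linarith)
      (by linarith) h1 h2 h3 h4 (hp1 z) (hp2 z)
    have sPx : Sm (fun z => Pop p Y (fun z => z.1) z - 1) := (hp.Pop hY Sm.fst hJ0).sub' (Sm.const 1)
    have sPy : Sm (fun z => Pop p Y (fun z => z.2) z) := hp.Pop hY Sm.snd hJ0
    have sTx : Sm (fun z => Top p Y (fun z => z.1) z) := hp.Top hY Sm.fst hJ0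
    have sTy : Sm (fun z => Top p Y (fun z => z.2) z - 1) := (hp.Top hY Sm.snd hJ0).sub' (Sm.const 1)
    have sPX : Sm (fun z => Pop p Y X z - 1) := (hp.Pop hY hX hJ0).sub' (Sm.const 1)
    have sTX : Sm (fun z => Top p Y X z) := hp.Top hY hX hJ0
    have fin : ∀ {f : Pl → ℝ}, Sm f → nk 2 f z ≤ 16 * (2184 * η) → |Dw w f z| ≤ 70000 * η := by
      intro f hf hfn
      refine (abs_Dw_le hf w hw z).trans ?_
      norm_num [Nat.factorial]
      linarith
    exact ⟨fin sPx g1, fin sPy g2, fin sTx g3, fin sTy g4, fin sPX g5, fin sTX g6⟩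

end Crest.Agent.R220
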