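import Crest.Agent.R220.Basic

/-!
# Row 220: the linearised isometry system in the partial Legendre frame

Main result `lin_eq`: if `(D1, D2, d)` is a deformation of `(X, Y, u)` with strain `a dy²` on the
square `sq s`, then in the interior of the square

`T T d + P (κ P d) = - P H - T T al`

where `P = ∂/∂p`, `T = ∂/∂Y` and `κ = {p,q}/{X,Y}`.
-/

set_option autoImplicit false

open scoped ContDiff Topology

namespace Crest.Agent.R220

namespace LinEq

/-! ### Pure algebra -/

section Alg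

variable {R : Type*} [CommRing R]

theorem deriv_two (D : Derivation ℤ R R) : D 2 = 0 := by
  have : (2 : R) = 1 + 1 := by norm_num
  rw [this, map_add]; simp

/-- The algebraic core of step 4. -/
theorem source_alg (P T : Derivation ℤ R R) (hc : ∀ f : R, P (T f) = T (P f))
    (X p q D1 D2 d iPX hf : R)
    (hPp : P p = 1) (hTp : T p = 0) (hPq : P q = - T X)
    (hi : P X * iPX = 1) (hhf : 2 * hf = 1)
    (h11 h12 h22 : R)
    (e11 : h11 = 2 * (P X * P D1 + p * P X * P d))
    (e12 : h12 = P X * T D1 + T X * P D1 + P D2 + p * P X * T d + (p * T X + q) * P d)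
    (e22 : h22 = 2 * (T X * T D1 + T D2 + (p * T X + q) * T d)) :
    T (T d) + P (T q * iPX * P d) =
      P (iPX * (T h12 - hf * P h22 - T (T X) * (hf * h11 * iPX))) - T (T (hf * h11 * iPX)) := by
  have h1 : hf * h11 * iPX = P D1 + p * P d := by
    rw [e11]
    linear_combination (P D1 + p * P d) * ((P X * iPX) * hhf + hi)
  have hP22 : hf * P h22 = P (T X * T D1 + T D2 + (p * T X + q) * T d) := by
    rw [e22, P.leibniz, deriv_two P]
    simp only [smul_eq_mul, mul_zero, add_zero]
    linear_combination (P (T X * T D1 + T D2 + (p * T X + q) * T d)) * hhf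
  have hW : T h12 - hf * P h22 - T (T X) * (hf * h11 * iPX)
      = P X * (T (T D1) + p * T (T d)) + T q * P d := by
    rw [hP22, h1, e12]
    simp only [map_add, Derivation.leibniz, smul_eq_mul, hPp, hTp, hPq, hc]
    ring
  rw [hW, h1]
  have h3 : iPX * (P X * (T (T D1) + p * T (T d)) + T q * P d)
      = T (T D1) + p * T (T d) + T q * iPX * P d := by
    linear_combination (T (T D1) + p * T (T d)) * hi
  rw [h3]
  simp only [map_add, Derivation.leibniz, smul_eq_mul, hPp, hTp, hc, map_zero]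
  ring

/-- the frame derivation `f ↦ iJ * {f, Y}` -/
def frameP (Dx Dy : Derivation ℤ R R) (Y iJ : R) : Derivation ℤ R R :=
  (iJ * Dy Y) • Dx - (iJ * Dx Y) • Dy

/-- the frame derivation `f ↦ iJ * {p, f}` -/
def frameT (Dx Dy : Derivation ℤ R R) (p iJ : R) : Derivation ℤ R R :=
  (iJ * Dx p) • Dy - (iJ * Dy p) • Dx

theorem frameP_apply (Dx Dy : Derivation ℤ R R) (Y iJ f : R) :
    frameP Dx Dy Y iJ f = iJ * (Dx f * Dy Y - Dy f * Dx Y) := by
  simp [frameP]; ring

theorem frameT_apply (Dx Dy : Derivation ℤ R R) (p iJ f : R) :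
    frameT Dx Dy p iJ f = iJ * (Dx p * Dy f - Dy p * Dx f) := by
  simp [frameT]; ring

theorem frame_comm (Dx Dy : Derivation ℤ R R) (hc : ∀ f, Dx (Dy f) = Dy (Dx f)) (p Y iJ : R)
    (hJ : (Dx p * Dy Y - Dy p * Dx Y) * iJ = 1) (f : R) :
    frameP Dx Dy Y iJ (frameT Dx Dy p iJ f) = frameT Dx Dy p iJ (frameP Dx Dy Y iJ f) := by
  have h1 := congrArg Dx hJ
  have h2 := congrArg Dy hJ
  simp only [frameP_apply, frameT_apply]
  simp only [map_sub, Derivation.leibniz, smul_eq_mul, Derivation.map_one_eq_zero, hc] at h1 h2 ⊢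
  linear_combination (iJ * Dy f) * h1 - (iJ * Dx f) * h2

end Alg

/-! ### The ring of smooth functions and its derivations -/

/-- the ring of smooth functions -/
def smRing : Subring (Pl → ℝ) where
  carrier := {f | Sm f}
  mul_mem' := fun {f g} (hf : Sm f) (hg : Sm g) => ContDiff.mul hf hg
  one_mem' := show Sm (fun _ => (1 : ℝ)) from contDiff_const
  add_mem' := fun {f g} (hf : Sm f) (hg : Sm g) => ContDiff.add hf hg
  zero_mem' := show Sm (fun _ => (0 : ℝ)) from contDiff_const
  neg_mem' := fun {f} (hf : Sm f) => ContDiff.neg hf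

/-- `∂x` as a derivation of the ring of smooth functions -/
noncomputable def derX : Derivation ℤ smRing smRing :=
  Derivation.mk' (AddMonoidHom.toIntLinearMap
    { toFun := fun f => ⟨dx f.1, Sm.dx f.2⟩
      map_zero' := by
        ext z; simp [dx]
      map_add' := fun f g => Subtype.ext (dx_add f.2 g.2) })
    (fun f g => Subtype.ext (dx_mul f.2 g.2))

/-- `∂y` as a derivation of the ring of smooth functions -/
noncomputable def derY : Derivation ℤ smRing smRing :=
  Derivation.mk' (AddMonoidHom.toIntLinearMap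
    { toFun := fun f => ⟨dy f.1, Sm.dy f.2⟩
      map_zero' := by
        ext z; simp [dy]
      map_add' := fun f g => Subtype.ext (dy_add f.2 g.2) })
    (fun f g => Subtype.ext (dy_mul f.2 g.2))

@[simp] theorem derX_coe (f : smRing) : (derX f : Pl → ℝ) = dx f.1 := rfl
@[simp] theorem derY_coe (f : smRing) : (derY f : Pl → ℝ) = dy f.1 := rfl

theorem der_comm (f : smRing) : derX (derY f) = derY (derX f) :=
  Subtype.ext (dy_dx f.2).symm

/-! ### Congruence for the frame operators -/

theorem dx_evcongr {f g : Pl → ℝ} {z : Pl} (h : f =ᶠ[𝓝 z] g) : dx f =ᶠ[𝓝 z] dx g := by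
  filter_upwards [h.fderiv (𝕜 := ℝ)] with w hw
  simp [dx, hw]

theorem dy_evcongr {f g : Pl → ℝ} {z : Pl} (h : f =ᶠ[𝓝 z] g) : dy f =ᶠ[𝓝 z] dy g := by
  filter_upwards [h.fderiv (𝕜 := ℝ)] with w hw
  simp [dy, hw]

theorem Pop_congr {p Y f g : Pl → ℝ} {z : Pl} (h : f =ᶠ[𝓝 z] g) :
    Pop p Y f =ᶠ[𝓝 z] Pop p Y g := by
  filter_upwards [dx_evcongr h, dy_evcongr h] with w h1 h2
  simp [Pop, br, h1, h2]

theorem Top_congr {p Y f g : Pl → ℝ} {z : Pl} (h : f =ᶠ[𝓝 z] g) :
    Top p Y f =ᶠ[𝓝 z] Top p Y g := by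
  filter_upwards [dx_evcongr h, dy_evcongr h] with w h1 h2
  simp [Top, br, h1, h2]

theorem dx_u {X Y u : Pl → ℝ} {z : Pl} (h0 : br X Y z ≠ 0) :
    dx u z = pf X Y u z * dx X z + qf X Y u z * dx Y z := by
  simp only [pf, qf]
  field_simp
  simp only [br]
  ring

theorem dy_u {X Y u : Pl → ℝ} {z : Pl} (h0 : br X Y z ≠ 0) :
    dy u z = pf X Y u z * dy X z + qf X Y u z * dy Y z := by
  simp only [pf, qf]
  field_simp
  simp only [br]
  ring

theorem Pop_neg (p Y f : Pl → ℝ) (z : Pl) : Pop p Y (fun z => - f z) z = - Pop p Y f z := by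
  simp only [Pop, br, dx_neg, dy_neg]; ring

end LinEq

open LinEq

theorem Strain.mono {S S' : Set Pl} (h : S' ⊆ S) {a X Y u D1 D2 d : Pl → ℝ}
    (hs : Strain S a X Y u D1 D2 d) : Strain S' a X Y u D1 D2 d :=
  ⟨fun z hz => hs.s11 z (h hz), fun z hz => hs.s12 z (h hz), fun z hz => hs.s22 z (h hz)⟩

/-- **Linearised isometry equation** in the partial Legendre frame, on an open set. No smoothness
of the strain `a` is needed. -/
theorem lin_eq_open {S : Set Pl} (hS : IsOpen S) {a X Y u D1 D2 d : Pl → ℝ}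
    (hX : Sm X) (hY : Sm Y) (hu : Sm u) (hD1 : Sm D1) (hD2 : Sm D2) (hd : Sm d)
    (hJ : ∀ z, br X Y z ≠ 0) (hK : ∀ z, br (pf X Y u) Y z ≠ 0)
    (hs : Strain S a X Y u D1 D2 d) :
    let p := pf X Y u
    let P := Pop p Y
    let T := Top p Y
    let al : Pl → ℝ := fun z => a z * (P (fun z => z.2) z) ^ 2 / (2 * P X z)
    let H : Pl → ℝ := fun z => (1 / P X z) * ((1 / 2) * P (fun z => a z * (T (fun z => z.2) z) ^ 2) z
      - T (fun z => a z * P (fun z => z.2) z * T (fun z => z.2) z) z + T (T X) z * al z)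
    ∀ z ∈ S, Lop p Y (kapf X Y u) d z = - P H z - T (T al) z := by
  intro p' P' T' al H
  have hp : Sm (pf X Y u) := Sm.pf hX hY hu hJ
  have hq : Sm (qf X Y u) := Sm.qf hX hY hu hJ
  set p := pf X Y u with hpdef
  set q := qf X Y u with hqdef
  -- bundled objects
  let bX : smRing := ⟨X, hX⟩
  let bY : smRing := ⟨Y, hY⟩
  let bp : smRing := ⟨p, hp⟩
  let bq : smRing := ⟨q, hq⟩
  let bD1 : smRing := ⟨D1, hD1⟩
  let bD2 : smRing := ⟨D2, hD2⟩
  let bd : smRing := ⟨d, hd⟩
  let iJ : smRing := ⟨fun z => (br p Y z)⁻¹, (hp.br hY).inv' hK⟩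
  let iPX : smRing := ⟨fun z => br p Y z / br X Y z, (hp.br hY).div' (hX.br hY) hJ⟩
  let hf : smRing := ⟨fun _ => 1 / 2, Sm.const (1 / 2)⟩
  let P := frameP derX derY bY iJ
  let T := frameT derX derY bp iJ
  have hPcoe : ∀ f : smRing, (P f : Pl → ℝ) = Pop p Y f := by
    intro f
    funext z
    have : P f = iJ * (derX f * derY bY - derY f * derX bY) := frameP_apply _ _ _ _ _
    rw [this]
    simp only [Pop, br, div_eq_inv_mul]
    rfl
  have hTcoe : ∀ f : smRing, (T f : Pl → ℝ) = Top p Y f := by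
    intro f
    funext z
    have : T f = iJ * (derX bp * derY f - derY bp * derX f) := frameT_apply _ _ _ _ _
    rw [this]
    simp only [Top, br, div_eq_inv_mul]
    rfl
  have hc : ∀ f, P (T f) = T (P f) := by
    intro f
    apply frame_comm derX derY der_comm
    apply Subtype.ext
    funext z
    exact mul_inv_cancel₀ (hK z)
  have hPp : P bp = 1 := by
    apply Subtype.ext
    rw [hPcoe]
    funext z
    exact div_self (hK z)
  have hTp : T bp = 0 := by
    apply Subtype.ext
    rw [hTcoe]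
    funext z
    show Top p Y p z = 0
    simp only [Top, br]
    ring_nf
  have hux : dx u = fun z => p z * dx X z + q z * dx Y z := by
    funext z; exact dx_u (hJ z)
  have huy : dy u = fun z => p z * dy X z + q z * dy Y z := by
    funext z; exact dy_u (hJ z)
  have hcurl : ∀ z, br q Y z = - br p X z := by
    intro z
    have h1 := dy_dx hu
    rw [hux, huy, dx_add (hp.mul' hX.dy) (hq.mul' hY.dy),
      dy_add (hp.mul' hX.dx) (hq.mul' hY.dx), dx_mul hp hX.dy, dx_mul hq hY.dy,
      dy_mul hp hX.dx, dy_mul hq hY.dx, dy_dx hX, dy_dx hY] at h1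
    have h2 := congrFun h1 z
    simp only at h2
    simp only [br]
    linear_combination - h2
  have hPq : P bq = - T bX := by
    apply Subtype.ext
    funext z
    show (P bq : Pl → ℝ) z = - (T bX : Pl → ℝ) z
    rw [hPcoe, hTcoe]
    show Pop p Y q z = - Top p Y X z
    simp only [Pop, Top, hcurl z]
    ring
  have hi : P bX * iPX = 1 := by
    apply Subtype.ext
    funext z
    show (P bX : Pl → ℝ) z * (br p Y z / br X Y z) = 1
    rw [hPcoe]
    show br X Y z / br p Y z * (br p Y z / br X Y z) = 1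
    have := hJ z
    have := hK z
    field_simp
  have hhf : 2 * hf = 1 := by
    apply Subtype.ext
    funext z
    show (2 : ℝ) * (1 / 2) = 1
    norm_num
  have key := source_alg P T hc bX bp bq bD1 bD2 bd iPX hf hPp hTp hPq hi hhf _ _ _ rfl rfl rfl
  intro z hz
  have hnb : ∀ᶠ w in 𝓝 z, w ∈ S := hS.mem_nhds hz
  -- values of the frame operators
  have hPX : ∀ w, Pop p Y X w = br X Y w / br p Y w := fun w => rfl
  have hPX0 : ∀ w, Pop p Y X w ≠ 0 := fun w => div_ne_zero (hJ w) (hK w)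
  have hPf : ∀ (f : Pl → ℝ) w, Pop p Y f w
      = (dy Y w / br p Y w) * dx f w + (- dx Y w / br p Y w) * dy f w := by
    intro f w; simp only [Pop, br]; ring
  have hTf : ∀ (f : Pl → ℝ) w, Top p Y f w
      = (- dy p w / br p Y w) * dx f w + (dx p w / br p Y w) * dy f w := by
    intro f w; simp only [Top, br]; ring
  have hPy : ∀ w, Pop p Y (fun z => z.2) w = - dx Y w / br p Y w := by
    intro w; rw [hPf, dx_snd, dy_snd]; ring
  have hTy : ∀ w, Top p Y (fun z => z.2) w = dx p w / br p Y w := by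
    intro w; rw [hTf, dx_snd, dy_snd]; ring
  have hPY : ∀ w, Pop p Y Y w = 0 := by
    intro w; simp only [Pop, br]; ring_nf
  have hTY : ∀ w, Top p Y Y w = 1 := by
    intro w; exact div_self (hK w)
  -- strain components
  have hYw : ∀ w, (dy Y w / br p Y w) * dx Y w + (- dx Y w / br p Y w) * dy Y w = 0 := by
    intro w; ring
  have hYw' : ∀ w, (- dy p w / br p Y w) * dx Y w + (dx p w / br p Y w) * dy Y w = 1 := by
    intro w; rw [← hTf Y w]; exact hTY w
  have s11 : ∀ w ∈ S, 2 * (Pop p Y X w * Pop p Y D1 w + p w * Pop p Y X w * Pop p Y d w)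
      = a w * (Pop p Y (fun z => z.2) w) ^ 2 := by
    intro w hw
    have e1 := hs.s11 w hw
    have e2 := hs.s12 w hw
    have e3 := hs.s22 w hw
    have h0 := hYw w
    rw [congrFun hux w] at e1 e2
    rw [congrFun huy w] at e2 e3
    rw [hPy, hPf X, hPf D1, hPf d]
    generalize dy Y w / br p Y w = α at *
    generalize - dx Y w / br p Y w = β at *
    linear_combination (2 * α ^ 2) * e1 + (2 * α * β) * e2 + β ^ 2 * e3
      - 2 * ((α * dx D2 w + β * dy D2 w) + q w * (α * dx d w + β * dy d w)) * h0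
  have s12 : ∀ w ∈ S, Pop p Y X w * Top p Y D1 w + Top p Y X w * Pop p Y D1 w + Pop p Y D2 w
      + p w * Pop p Y X w * Top p Y d w + (p w * Top p Y X w + q w) * Pop p Y d w
      = a w * Pop p Y (fun z => z.2) w * Top p Y (fun z => z.2) w := by
    intro w hw
    have e1 := hs.s11 w hw
    have e2 := hs.s12 w hw
    have e3 := hs.s22 w hw
    have h0 := hYw w
    have h1 := hYw' w
    rw [congrFun hux w] at e1 e2
    rw [congrFun huy w] at e2 e3
    rw [hPy, hTy, hPf X, hPf D1, hPf D2, hPf d, hTf X, hTf D1, hTf d]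
    generalize dy Y w / br p Y w = α at *
    generalize - dx Y w / br p Y w = β at *
    generalize - dy p w / br p Y w = α' at *
    generalize dx p w / br p Y w = β' at *
    linear_combination (2 * α * α') * e1 + (α * β' + α' * β) * e2 + β * β' * e3
      - ((α' * dx D2 w + β' * dy D2 w) + q w * (α' * dx d w + β' * dy d w)) * h0
      - ((α * dx D2 w + β * dy D2 w) + q w * (α * dx d w + β * dy d w)) * h1
  have s22 : ∀ w ∈ S, 2 * (Top p Y X w * Top p Y D1 w + Top p Y D2 w
      + (p w * Top p Y X w + q w) * Top p Y d w)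
      = a w * (Top p Y (fun z => z.2) w) ^ 2 := by
    intro w hw
    have e1 := hs.s11 w hw
    have e2 := hs.s12 w hw
    have e3 := hs.s22 w hw
    have h1 := hYw' w
    rw [congrFun hux w] at e1 e2
    rw [congrFun huy w] at e2 e3
    rw [hTy, hTf X, hTf D1, hTf D2, hTf d]
    generalize - dy p w / br p Y w = α' at *
    generalize dx p w / br p Y w = β' at *
    linear_combination (2 * α' ^ 2) * e1 + (2 * α' * β') * e2 + β' ^ 2 * e3
      - 2 * ((α' * dx D2 w + β' * dy D2 w) + q w * (α' * dx d w + β' * dy d w)) * h1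
  -- transfer
  let h11 : smRing := 2 * (P bX * P bD1 + bp * P bX * P bd)
  let h12 : smRing := P bX * T bD1 + T bX * P bD1 + P bD2 + bp * P bX * T bd
    + (bp * T bX + bq) * P bd
  let h22 : smRing := 2 * (T bX * T bD1 + T bD2 + (bp * T bX + bq) * T bd)
  have v11 : h11.val =ᶠ[𝓝 z] fun w => a w * (Pop p Y (fun z => z.2) w) ^ 2 := by
    filter_upwards [hnb] with w hw
    rw [← s11 w hw]
    show (2 : ℝ) * ((P bX : Pl → ℝ) w * (P bD1 : Pl → ℝ) w + p w * (P bX : Pl → ℝ) w *
      (P bd : Pl → ℝ) w) = _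
    simp only [hPcoe]
    rfl
  have v12 : h12.val =ᶠ[𝓝 z] fun w => a w * Pop p Y (fun z => z.2) w * Top p Y (fun z => z.2) w := by
    filter_upwards [hnb] with w hw
    rw [← s12 w hw]
    show (P bX : Pl → ℝ) w * (T bD1 : Pl → ℝ) w + (T bX : Pl → ℝ) w * (P bD1 : Pl → ℝ) w
      + (P bD2 : Pl → ℝ) w + p w * (P bX : Pl → ℝ) w * (T bd : Pl → ℝ) w
      + (p w * (T bX : Pl → ℝ) w + q w) * (P bd : Pl → ℝ) w = _
    simp only [hPcoe, hTcoe]
    rfl
  have v22 : h22.val =ᶠ[𝓝 z] fun w => a w * (Top p Y (fun z => z.2) w) ^ 2 := by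
    filter_upwards [hnb] with w hw
    rw [← s22 w hw]
    show (2 : ℝ) * ((T bX : Pl → ℝ) w * (T bD1 : Pl → ℝ) w + (T bD2 : Pl → ℝ) w
      + (p w * (T bX : Pl → ℝ) w + q w) * (T bd : Pl → ℝ) w) = _
    simp only [hTcoe]
    rfl
  let A : smRing := hf * h11 * iPX
  let B : smRing := iPX * (T h12 - hf * P h22 - T (T bX) * A)
  have key1 : T (T bd) + P (T bq * iPX * P bd) = P B - T (T A) := key
  have key2 := congrFun (congrArg Subtype.val key1) z
  have vA : A.val =ᶠ[𝓝 z] al := by
    filter_upwards [v11] with w hw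
    show (1 / 2 : ℝ) * h11.val w * (br p Y w / br X Y w) = a w * (Pop p Y (fun z => z.2) w) ^ 2 /
      (2 * Pop p Y X w)
    rw [hw, hPX w]
    have := hJ w
    have := hK w
    field_simp
  have vB : B.val =ᶠ[𝓝 z] fun w => - H w := by
    filter_upwards [Top_congr (p := p) (Y := Y) v12, Pop_congr (p := p) (Y := Y) v22, vA]
      with w h1 h2 h3
    show (br p Y w / br X Y w) * ((T h12 : Pl → ℝ) w - (1 / 2) * (P h22 : Pl → ℝ) w
      - (T (T bX) : Pl → ℝ) w * A.val w) = - ((1 / Pop p Y X w) *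
      ((1 / 2) * Pop p Y (fun z => a z * (Top p Y (fun z => z.2) z) ^ 2) w
      - Top p Y (fun z => a z * Pop p Y (fun z => z.2) z * Top p Y (fun z => z.2) z) w
      + Top p Y (Top p Y X) w * al w))
    rw [h3, hTcoe, hPcoe, hTcoe, hTcoe, h1, h2, hPX w]
    have := hJ w
    have := hK w
    show _ * (_ - _ - Top p Y (Top p Y X) w * al w) = _
    rw [one_div_div]
    ring
  have l1 : (T (T bd) : Pl → ℝ) z = Top p Y (Top p Y d) z := by
    rw [hTcoe, hTcoe]
  have l2 : (P (T bq * iPX * P bd) : Pl → ℝ) z =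
      Pop p Y (fun z => kapf X Y u z * Pop p Y d z) z := by
    rw [hPcoe]
    congr 1
    funext w
    show (T bq : Pl → ℝ) w * (br p Y w / br X Y w) * (P bd : Pl → ℝ) w
      = kapf X Y u w * Pop p Y d w
    rw [hPcoe, hTcoe]
    show br p q w / br p Y w * (br p Y w / br X Y w) * Pop p Y d w
      = br p q w / br X Y w * Pop p Y d w
    have := hJ w
    have := hK w
    field_simp
  have l3 : (P B : Pl → ℝ) z = - Pop p Y H z := by
    rw [hPcoe, (Pop_congr vB).eq_of_nhds, LinEq.Pop_neg]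
  have l4 : (T (T A) : Pl → ℝ) z = Top p Y (Top p Y al) z := by
    rw [hTcoe, hTcoe, (Top_congr (Top_congr vA)).eq_of_nhds]
  show Top p Y (Top p Y d) z + Pop p Y (fun z => kapf X Y u z * Pop p Y d z) z
    = - Pop p Y H z - Top p Y (Top p Y al) z
  rw [← l1, ← l2, ← l3, ← l4]
  exact key2

/-- **lin_eq**: the linearised equation from the strain relations, at interior points. -/
theorem lin_eq (X Y u D1 D2 d a : Pl → ℝ) (hX : Sm X) (hY : Sm Y) (hu : Sm u) (hD1 : Sm D1)
    (hD2 : Sm D2) (hd : Sm d) (_ha : Sm a) (hj : ∀ z, br X Y z ≠ 0)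
    (hJ : ∀ z, br (pf X Y u) Y z ≠ 0) (s : ℝ)
    (hS : Strain (sq s) a X Y u D1 D2 d) :
    let p := pf X Y u
    let P := Pop p Y
    let T := Top p Y
    let al : Pl → ℝ := fun z => a z * (P (fun z => z.2) z) ^ 2 / (2 * P X z)
    let H : Pl → ℝ := fun z => (1 / P X z) * ((1 / 2) * P (fun z => a z * (T (fun z => z.2) z) ^ 2) z
      - T (fun z => a z * P (fun z => z.2) z * T (fun z => z.2) z) z + T (T X) z * al z)
    ∀ z : Pl, |z.1| < s → |z.2| < s → Lop p Y (kapf X Y u) d z = - P H z - T (T al) z := by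
  intro p P T al H z h1 h2
  have hopen : IsOpen {z : Pl | |z.1| < s ∧ |z.2| < s} :=
    (isOpen_lt (continuous_fst.abs) continuous_const).inter
      (isOpen_lt (continuous_snd.abs) continuous_const)
  have hsub : {z : Pl | |z.1| < s ∧ |z.2| < s} ⊆ sq s := fun z hz => ⟨hz.1.le, hz.2.le⟩
  exact lin_eq_open hopen hX hY hu hD1 hD2 hd hj hJ (hS.mono hsub) z ⟨h1, h2⟩

end Crest.Agent.R220
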