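import Crest.Agent.R220.GMI
import Crest.Agent.R220.LinEq
import Crest.Agent.R220.FrameClose

/-!
# Row 220: Caccioppoli inequality in the elliptic frame (`pair_cacc`)
-/

set_option autoImplicit false

open scoped ContDiff
open MeasureTheory Set

namespace Crest.Agent.R220.PairCacc

lemma isClosed_frame (a b : ℝ) : IsClosed (frame a b) := by
  have h1 : IsClosed (sq b) := by
    have : sq b = {z : Pl | |z.1| ≤ b} ∩ {z : Pl | |z.2| ≤ b} := rfl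
    rw [this]
    exact (isClosed_le (continuous_fst.abs) continuous_const).inter
      (isClosed_le (continuous_snd.abs) continuous_const)
  have h2 : IsClosed {z : Pl | ¬ (|z.1| < a ∧ |z.2| < a)} := by
    have : {z : Pl | ¬ (|z.1| < a ∧ |z.2| < a)} = ({z : Pl | |z.1| < a} ∩ {z : Pl | |z.2| < a})ᶜ := by
      ext z; simp
    rw [this]
    exact ((isOpen_lt continuous_fst.abs continuous_const).inter
      (isOpen_lt continuous_snd.abs continuous_const)).isClosed_compl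
  exact h1.inter h2

lemma frame_subset_sq (a b : ℝ) : frame a b ⊆ sq b := fun _ hz => hz.1

lemma isCompact_sq (s : ℝ) : IsCompact (sq s) := by
  have : sq s = Icc (-s) s ×ˢ Icc (-s) s := by
    ext z
    simp only [sq, mem_ofPred_eq, abs_le, mem_prod, mem_Icc]
  rw [this]
  exact isCompact_Icc.prod isCompact_Icc

/-- the homogeneous equation where the strain vanishes -/
lemma Lop_eq_zero {S : Set Pl} (hSo : IsOpen S) {X Y u D1 D2 d a : Pl → ℝ} (hX : Sm X) (hY : Sm Y)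
    (hu : Sm u) (hD1 : Sm D1) (hD2 : Sm D2) (hd : Sm d) (hj : ∀ z, br X Y z ≠ 0)
    (hJ : ∀ z, br (pf X Y u) Y z ≠ 0)
    (hS : Strain S a X Y u D1 D2 d) (ha : ∀ z ∈ S, a z = 0) {z : Pl} (hz : z ∈ S) :
    Lop (pf X Y u) Y (kapf X Y u) d z = 0 := by
  have hS' : Strain S (fun _ => 0) X Y u D1 D2 d :=
    ⟨hS.s11, hS.s12, fun w hw => by rw [← ha w hw]; exact hS.s22 w hw⟩
  have key := lin_eq_open hSo hX hY hu hD1 hD2 hd hj hJ hS' z hz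
  have e0 : Top (pf X Y u) Y (fun _ => (0:ℝ)) = fun _ => 0 := by
    funext w; exact Top_const _
  simp only [zero_mul, zero_div, Pop_const, Top_const, e0, mul_zero, sub_zero, add_zero, neg_zero]
    at key
  exact key

lemma low_aux (δ κ P T J c px py qx qy dx' dy' : ℝ) (hδ : 0 < δ) (hδ1 : δ ≤ 1)
    (hκ : δ / 20 ≤ κ) (hJ : 1 / 2 ≤ J) (h1 : |px| ≤ 2) (h2 : |py| ≤ 1) (h3 : |qx| ≤ 1)
    (h4 : |qy| ≤ 2) (ex : dx' = P * px + T * qx) (ey : dy' = P * py + T * qy) :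
    c ^ 2 * (dx' ^ 2 + dy' ^ 2) ≤ (400 / δ) * (c ^ 2 * (T ^ 2 + κ * P ^ 2) * J) := by
  have s1 : px ^ 2 ≤ 4 := by rw [← sq_abs]; nlinarith [abs_nonneg px]
  have s2 : py ^ 2 ≤ 1 := by rw [← sq_abs]; nlinarith [abs_nonneg py]
  have s3 : qx ^ 2 ≤ 1 := by rw [← sq_abs]; nlinarith [abs_nonneg qx]
  have s4 : qy ^ 2 ≤ 4 := by rw [← sq_abs]; nlinarith [abs_nonneg qy]
  have t1 : dx' ^ 2 ≤ 2 * (P ^ 2 * px ^ 2) + 2 * (T ^ 2 * qx ^ 2) := by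
    rw [ex]; nlinarith [sq_nonneg (P * px - T * qx)]
  have t2 : dy' ^ 2 ≤ 2 * (P ^ 2 * py ^ 2) + 2 * (T ^ 2 * qy ^ 2) := by
    rw [ey]; nlinarith [sq_nonneg (P * py - T * qy)]
  have u1 : P ^ 2 * px ^ 2 ≤ P ^ 2 * 4 := by gcongr
  have u2 : T ^ 2 * qx ^ 2 ≤ T ^ 2 * 1 := by gcongr
  have u3 : P ^ 2 * py ^ 2 ≤ P ^ 2 * 1 := by gcongr
  have u4 : T ^ 2 * qy ^ 2 ≤ T ^ 2 * 4 := by gcongr
  have h1 : dx' ^ 2 + dy' ^ 2 ≤ 10 * (P ^ 2 + T ^ 2) := by linarith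
  have w1 : (δ / 20) * P ^ 2 ≤ κ * P ^ 2 := by gcongr
  have w2 : (δ / 20) * T ^ 2 ≤ 1 * T ^ 2 := by
    gcongr
    linarith
  have h2 : (δ / 20) * (P ^ 2 + T ^ 2) ≤ T ^ 2 + κ * P ^ 2 := by linarith
  have h3 : P ^ 2 + T ^ 2 ≤ (20 / δ) * (T ^ 2 + κ * P ^ 2) := by
    rw [div_mul_eq_mul_div, le_div_iff₀ hδ]
    linarith
  have hQ : 0 ≤ T ^ 2 + κ * P ^ 2 := le_trans (by positivity) h2
  have h4 : (T ^ 2 + κ * P ^ 2) ≤ 2 * ((T ^ 2 + κ * P ^ 2) * J) := by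
    nlinarith
  calc c ^ 2 * (dx' ^ 2 + dy' ^ 2)
      ≤ c ^ 2 * (10 * ((20 / δ) * (2 * ((T ^ 2 + κ * P ^ 2) * J)))) := by
        refine mul_le_mul_of_nonneg_left ?_ (sq_nonneg _)
        refine h1.trans (mul_le_mul_of_nonneg_left ?_ (by norm_num))
        exact h3.trans (mul_le_mul_of_nonneg_left h4 (by positivity))
    _ = (400 / δ) * (c ^ 2 * (T ^ 2 + κ * P ^ 2) * J) := by ring

lemma up_aux (κ P T J c px py tx ty cx cy : ℝ) (hκ : κ ≤ 2) (hJ0 : 0 ≤ J)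
    (hJ : J ≤ 2) (h1 : |px| ≤ 2) (h2 : |py| ≤ 1) (h3 : |tx| ≤ 1) (h4 : |ty| ≤ 2)
    (eP : P = px * cx + py * cy) (eT : T = tx * cx + ty * cy) :
    c ^ 2 * (T ^ 2 + κ * P ^ 2) * J ≤ 60 * ((cx ^ 2 + cy ^ 2) * c ^ 2) := by
  have s1 : px ^ 2 ≤ 4 := by rw [← sq_abs]; nlinarith [abs_nonneg px]
  have s2 : py ^ 2 ≤ 1 := by rw [← sq_abs]; nlinarith [abs_nonneg py]
  have s3 : tx ^ 2 ≤ 1 := by rw [← sq_abs]; nlinarith [abs_nonneg tx]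
  have s4 : ty ^ 2 ≤ 4 := by rw [← sq_abs]; nlinarith [abs_nonneg ty]
  have t1 : P ^ 2 ≤ 8 * cx ^ 2 + 2 * cy ^ 2 := by
    rw [eP]
    have v1 : (px * cx + py * cy) ^ 2 ≤ 2 * (px ^ 2 * cx ^ 2) + 2 * (py ^ 2 * cy ^ 2) := by
      nlinarith [sq_nonneg (px * cx - py * cy)]
    have v2 : px ^ 2 * cx ^ 2 ≤ 4 * cx ^ 2 := by gcongr
    have v3 : py ^ 2 * cy ^ 2 ≤ 1 * cy ^ 2 := by gcongr
    linarith
  have t2 : T ^ 2 ≤ 2 * cx ^ 2 + 8 * cy ^ 2 := by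
    rw [eT]
    have v1 : (tx * cx + ty * cy) ^ 2 ≤ 2 * (tx ^ 2 * cx ^ 2) + 2 * (ty ^ 2 * cy ^ 2) := by
      nlinarith [sq_nonneg (tx * cx - ty * cy)]
    have v2 : tx ^ 2 * cx ^ 2 ≤ 1 * cx ^ 2 := by gcongr
    have v3 : ty ^ 2 * cy ^ 2 ≤ 4 * cy ^ 2 := by gcongr
    linarith
  have t3 : κ * P ^ 2 ≤ 2 * (8 * cx ^ 2 + 2 * cy ^ 2) :=
    mul_le_mul hκ t1 (sq_nonneg _) (by norm_num)
  have t4 : T ^ 2 + κ * P ^ 2 ≤ 30 * (cx ^ 2 + cy ^ 2) := by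
    nlinarith [sq_nonneg cx, sq_nonneg cy]
  have t5 : c ^ 2 * (T ^ 2 + κ * P ^ 2) ≤ c ^ 2 * (30 * (cx ^ 2 + cy ^ 2)) :=
    mul_le_mul_of_nonneg_left t4 (sq_nonneg _)
  have t6 : c ^ 2 * (T ^ 2 + κ * P ^ 2) * J ≤ c ^ 2 * (30 * (cx ^ 2 + cy ^ 2)) * 2 :=
    mul_le_mul t5 hJ hJ0 (by positivity)
  linarith

lemma kap_aux (η δ κ : ℝ) (z : Pl) (hη : η ≤ 1 / 100) (hδ : 0 < δ) (hδ1 : δ ≤ 1)
    (hk : |κ - δ * kap0 z| ≤ η * δ) (hz : z ∈ frame (6/10) (9/10)) :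
    δ / 20 ≤ κ ∧ κ ≤ 2 := by
  have h1 := hk
  rw [abs_le] at h1
  have hx : |z.1| ≤ 9 / 10 := hz.1.1
  have hy : |z.2| ≤ 9 / 10 := hz.1.2
  have hx2 : z.1 ^ 2 ≤ (9 / 10) ^ 2 := by
    rw [← sq_abs]; gcongr
  have hy2 : z.2 ^ 2 ≤ (9 / 10) ^ 2 := by
    rw [← sq_abs]; gcongr
  have hlow : (6 / 10 : ℝ) ^ 2 ≤ z.1 ^ 2 + z.2 ^ 2 := by
    have hh := hz.2
    rw [not_and_or, not_lt, not_lt] at hh
    rcases hh with h | h
    · have : (6 / 10 : ℝ) ^ 2 ≤ z.1 ^ 2 := by rw [← sq_abs z.1]; gcongr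
      nlinarith [sq_nonneg z.2]
    · have : (6 / 10 : ℝ) ^ 2 ≤ z.2 ^ 2 := by rw [← sq_abs z.2]; gcongr
      nlinarith [sq_nonneg z.1]
  have hk0l : 11 / 100 ≤ kap0 z := by unfold kap0; nlinarith
  have hk0u : kap0 z ≤ 15 / 10 := by unfold kap0; nlinarith
  constructor
  · nlinarith
  · nlinarith

/-- The content of `pair_cacc`, from the quantitative frame bounds. -/
theorem main {η C0 δ' : ℝ} (hη2 : η ≤ 1 / 100) (hη3 : C0 * η ≤ 1 / 10) (hδ : 0 < δ')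
    (hδ1 : δ' ≤ 1) {a X Y u D1 D2 d χ : Pl → ℝ} (hN : NearCyl η X Y u)
    (hD1 : Sm D1) (hD2 : Sm D2) (hd : Sm d)
    (hK : KapClose η δ' (kapf X Y u)) (hS : Strain (sq (9/10)) a X Y u D1 D2 d)
    (ha : ∀ z ∈ frame (6/10) (9/10), a z = 0) (hχ : Sm χ)
    (hχ0 : ∀ z, z ∉ frame (6/10) (9/10) → χ z = 0)
    (hj : ∀ z, 1 / 2 ≤ br X Y z) (hJl : ∀ z, 1 / 2 ≤ br (pf X Y u) Y z)
    (hJu : ∀ z, br (pf X Y u) Y z ≤ 2)
    (hpw : ∀ w : List Bool, w.length ≤ 3 → ∀ z, |Dw w (fun z => pf X Y u z - z.1) z| ≤ C0 * η)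
    (hfr : ∀ w : List Bool, w.length ≤ 2 → ∀ z,
      |Dw w (fun z => Pop (pf X Y u) Y (fun z => z.1) z - 1) z| ≤ C0 * η ∧
      |Dw w (fun z => Pop (pf X Y u) Y (fun z => z.2) z) z| ≤ C0 * η ∧
      |Dw w (fun z => Top (pf X Y u) Y (fun z => z.1) z) z| ≤ C0 * η ∧
      |Dw w (fun z => Top (pf X Y u) Y (fun z => z.2) z - 1) z| ≤ C0 * η ∧
      |Dw w (fun z => Pop (pf X Y u) Y X z - 1) z| ≤ C0 * η ∧
      |Dw w (fun z => Top (pf X Y u) Y X z) z| ≤ C0 * η) :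
    ∫ z, χ z ^ 2 * (dx d z ^ 2 + dy d z ^ 2) ≤
        (100000 / δ') * ∫ z, (dx χ z ^ 2 + dy χ z ^ 2) * d z ^ 2 := by
  have hY := hN.smY
  have hX := hN.smX
  have hj0 : ∀ z, br X Y z ≠ 0 := fun z => by have := hj z; positivity
  have hJ0 : ∀ z, br (pf X Y u) Y z ≠ 0 := fun z => by have := hJl z; positivity
  have hsp : Sm (pf X Y u) := Sm.pf hX hY hN.smu hj0
  have hsk : Sm (kapf X Y u) := Sm.kapf hX hY hN.smu hj0
  -- frame bounds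
  have bp : ∀ z, |dx (pf X Y u) z| ≤ 2 ∧ |dy (pf X Y u) z| ≤ 1 := by
    intro z
    have h1 := hpw [true] (by simp) z
    have h2 := hpw [false] (by simp) z
    rw [Dw_true, Dw_nil, dx_sub hsp Sm.fst, dx_fst] at h1
    rw [Dw_false, Dw_nil, dy_sub hsp Sm.fst, dy_fst] at h2
    simp only [abs_le] at h1 h2
    rw [abs_le, abs_le]
    refine ⟨⟨?_, ?_⟩, ?_, ?_⟩ <;> linarith [h1.1, h1.2, h2.1, h2.2]
  have bY : ∀ z, |dx Y z| ≤ 1 ∧ |dy Y z| ≤ 2 := by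
    intro z
    have h1 := hN.clY [true] (by simp) z
    have h2 := hN.clY [false] (by simp) z
    rw [Dw_true, Dw_nil, dx_sub hY Sm.snd, dx_snd] at h1
    rw [Dw_false, Dw_nil, dy_sub hY Sm.snd, dy_snd] at h2
    simp only [abs_le] at h1 h2
    rw [abs_le, abs_le]
    refine ⟨⟨?_, ?_⟩, ?_, ?_⟩ <;> linarith [h1.1, h1.2, h2.1, h2.2]
  have bP : ∀ z, |Pop (pf X Y u) Y (fun z => z.1) z| ≤ 2 ∧
      |Pop (pf X Y u) Y (fun z => z.2) z| ≤ 1 ∧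
      |Top (pf X Y u) Y (fun z => z.1) z| ≤ 1 ∧ |Top (pf X Y u) Y (fun z => z.2) z| ≤ 2 := by
    intro z
    obtain ⟨h1, h2, h3, h4, -, -⟩ := hfr [] (by simp) z
    simp only [Dw_nil, abs_le] at h1 h2 h3 h4
    rw [abs_le, abs_le, abs_le, abs_le]
    refine ⟨⟨?_, ?_⟩, ⟨?_, ?_⟩, ⟨?_, ?_⟩, ?_, ?_⟩ <;>
      linarith [h1.1, h1.2, h2.1, h2.2, h3.1, h3.2, h4.1, h4.2]
  have bκ : ∀ z ∈ frame (6/10) (9/10), δ' / 20 ≤ kapf X Y u z ∧ kapf X Y u z ≤ 2 := fun z hz =>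
    kap_aux η δ' _ z hη2 hδ hδ1 (hK z (frame_subset_sq _ _ hz)).1 hz
  -- χ vanishes near points outside the frame
  have hout : ∀ z, z ∉ frame (6/10) (9/10) → χ =ᶠ[nhds z] fun _ => 0 := by
    intro z hz
    filter_upwards [(isClosed_frame (6/10) (9/10)).isOpen_compl.mem_nhds hz] with w hw
    exact hχ0 w hw
  have hcχ : HasCompactSupport χ :=
    HasCompactSupport.intro (isCompact_sq (9/10))
      (fun z hz => hχ0 z (fun h => hz (frame_subset_sq _ _ h)))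
  -- the equation on {χ ≠ 0}
  have hin : ∀ z, χ z ≠ 0 → frame (6/10) (9/10) ∈ nhds z := by
    intro z hz
    have hn : ∀ᶠ w in nhds z, χ w ≠ 0 := hχ.continuous'.continuousAt.eventually_ne hz
    filter_upwards [hn] with w hw
    by_contra hc
    exact hw (hχ0 w hc)
  have hL : ∀ z, χ z ≠ 0 → Lop (pf X Y u) Y (kapf X Y u) d z = 0 := by
    intro z hz
    have h1 : interior (frame (6/10) (9/10)) ⊆ sq (9/10) :=
      interior_subset.trans (frame_subset_sq _ _)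
    exact Lop_eq_zero isOpen_interior hX hY hN.smu hD1 hD2 hd hj0 hJ0 (Strain.mono h1 hS)
      (fun w hw => ha w (interior_subset hw)) (mem_interior_iff_mem_nhds.2 (hin z hz))
  have hk0 : ∀ z, χ z ≠ 0 → 0 ≤ kapf X Y u z := fun z hz =>
    le_trans (by positivity) (bκ z (mem_of_mem_nhds (hin z hz))).1
  have hc := caccioppoli (χ := χ) hsp hY hsk hd hχ (fun z => by have := hJl z; linarith) hcχ hk0 hL
  -- pointwise bounds
  have hlow : ∀ z, χ z ^ 2 * (dx d z ^ 2 + dy d z ^ 2) ≤ (400 / δ') * (χ z ^ 2 *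
      (Top (pf X Y u) Y d z ^ 2 + kapf X Y u z * Pop (pf X Y u) Y d z ^ 2)
        * br (pf X Y u) Y z) := by
    intro z
    by_cases hz : z ∈ frame (6/10) (9/10)
    · exact low_aux δ' _ _ _ _ _ _ _ _ _ _ _ hδ hδ1 (bκ z hz).1 (hJl z) (bp z).1 (bp z).2
        (bY z).1 (bY z).2 (dx_eq_frame _ _ _ _ (hJ0 z)) (dy_eq_frame _ _ _ _ (hJ0 z))
    · simp [hχ0 z hz]
  have hup : ∀ z, d z ^ 2 * (Top (pf X Y u) Y χ z ^ 2 + kapf X Y u z * Pop (pf X Y u) Y χ z ^ 2)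
      * br (pf X Y u) Y z ≤ 60 * ((dx χ z ^ 2 + dy χ z ^ 2) * d z ^ 2) := by
    intro z
    by_cases hz : z ∈ frame (6/10) (9/10)
    · obtain ⟨b1, b2, b3, b4⟩ := bP z
      exact up_aux _ _ _ _ _ _ _ _ _ _ _ (bκ z hz).2
        (by have := hJl z; linarith) (hJu z) b1 b2 b3 b4 (Pop_eq _ _ _ _) (Top_eq _ _ _ _)
    · have h0 : 0 ≤ 60 * ((dx χ z ^ 2 + dy χ z ^ 2) * d z ^ 2) := by positivity
      have h1 : Top (pf X Y u) Y χ z = 0 := by rw [Top_congr (hout z hz), Top_const]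
      have h2 : Pop (pf X Y u) Y χ z = 0 := by rw [Pop_congr (hout z hz), Pop_const]
      rw [h1, h2]
      simpa using h0
  have cs2 : HasCompactSupport (fun z => χ z ^ 2) := hcχ.mono (fun z hz h0 => hz (by simp [h0]))
  have sE : Sm (fun z => χ z ^ 2 * (Top (pf X Y u) Y d z ^ 2 + kapf X Y u z *
      Pop (pf X Y u) Y d z ^ 2) * br (pf X Y u) Y z) :=
    ((hχ.pow' 2).mul' (((Sm.Top hsp hY hd hJ0).pow' 2).add'
      (hsk.mul' ((Sm.Pop hsp hY hd hJ0).pow' 2)))).mul' (hsp.br hY)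
  have sG : Sm (fun z => d z ^ 2 * (Top (pf X Y u) Y χ z ^ 2 + kapf X Y u z *
      Pop (pf X Y u) Y χ z ^ 2) * br (pf X Y u) Y z) :=
    ((hd.pow' 2).mul' (((Sm.Top hsp hY hχ hJ0).pow' 2).add'
      (hsk.mul' ((Sm.Pop hsp hY hχ hJ0).pow' 2)))).mul' (hsp.br hY)
  have iE : Integrable (fun z => χ z ^ 2 * (Top (pf X Y u) Y d z ^ 2 + kapf X Y u z *
      Pop (pf X Y u) Y d z ^ 2) * br (pf X Y u) Y z) :=
    sE.integrable (HasCompactSupport.mul_right (HasCompactSupport.mul_right cs2))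
  have iG : Integrable (fun z => d z ^ 2 * (Top (pf X Y u) Y χ z ^ 2 + kapf X Y u z *
      Pop (pf X Y u) Y χ z ^ 2) * br (pf X Y u) Y z) := by
    refine sG.integrable (hcχ.mono' ?_)
    intro z hz
    by_contra hn
    apply hz
    show d z ^ 2 * (Top (pf X Y u) Y χ z ^ 2 + kapf X Y u z *
      Pop (pf X Y u) Y χ z ^ 2) * br (pf X Y u) Y z = 0
    rw [Top_eq_zero_of_notMem hn, Pop_eq_zero_of_notMem hn]; ring
  have iL : Integrable (fun z => χ z ^ 2 * (dx d z ^ 2 + dy d z ^ 2)) :=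
    ((hχ.pow' 2).mul' ((hd.dx.pow' 2).add' (hd.dy.pow' 2))).integrable
      (HasCompactSupport.mul_right cs2)
  have iR : Integrable (fun z => (dx χ z ^ 2 + dy χ z ^ 2) * d z ^ 2) := by
    refine (((hχ.dx.pow' 2).add' (hχ.dy.pow' 2)).mul' (hd.pow' 2)).integrable (hcχ.mono' ?_)
    intro z hz
    by_contra hn
    apply hz
    have h0 : χ =ᶠ[nhds z] fun _ => 0 := notMem_tsupport_iff_eventuallyEq.1 hn
    have h1 : dx χ z = 0 := by rw [dx_congr h0, dx_const]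
    have h2 : dy χ z = 0 := by rw [dy_congr h0, dy_const]
    show (dx χ z ^ 2 + dy χ z ^ 2) * d z ^ 2 = 0
    rw [h1, h2]; ring
  have hδ4 : 0 < 400 / δ' := by positivity
  have i1 := integral_mono iL (iE.const_mul (400 / δ')) hlow
  have i2 := integral_mono iG (iR.const_mul 60) hup
  rw [integral_const_mul] at i1 i2
  have h0 : 0 ≤ ∫ z, (dx χ z ^ 2 + dy χ z ^ 2) * d z ^ 2 :=
    integral_nonneg (fun z => by positivity)
  refine i1.trans ?_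
  have i3 := hc.trans (mul_le_mul_of_nonneg_left i2 (by norm_num : (0:ℝ) ≤ 4))
  refine (mul_le_mul_of_nonneg_left i3 hδ4.le).trans ?_
  have e : 400 / δ' * (4 * (60 * ∫ z, (dx χ z ^ 2 + dy χ z ^ 2) * d z ^ 2))
      = (96000 / δ') * ∫ z, (dx χ z ^ 2 + dy χ z ^ 2) * d z ^ 2 := by ring
  rw [e]
  gcongr
  norm_num

/-- `pair_cacc` from `frame_close` (as a hypothesis). -/
theorem of_frame_close (hfc : ∃ η0 C : ℝ, 0 < η0 ∧ 0 < C ∧ ∀ (η : ℝ) (X Y u : Pl → ℝ), η ≤ η0 →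
    NearCyl η X Y u →
    (∀ z, 1 / 2 ≤ br X Y z) ∧ Sm (pf X Y u) ∧ Sm (qf X Y u) ∧ Sm (kapf X Y u) ∧
    pf X Y u 0 = 0 ∧ (∀ z, 1 / 2 ≤ br (pf X Y u) Y z) ∧ (∀ z, br (pf X Y u) Y z ≤ 2) ∧
    (∀ w : List Bool, w.length ≤ 3 → ∀ z, |Dw w (fun z => pf X Y u z - z.1) z| ≤ C * η) ∧
    (∀ w : List Bool, w.length ≤ 2 → ∀ z,
      |Dw w (fun z => Pop (pf X Y u) Y (fun z => z.1) z - 1) z| ≤ C * η ∧
      |Dw w (fun z => Pop (pf X Y u) Y (fun z => z.2) z) z| ≤ C * η ∧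
      |Dw w (fun z => Top (pf X Y u) Y (fun z => z.1) z) z| ≤ C * η ∧
      |Dw w (fun z => Top (pf X Y u) Y (fun z => z.2) z - 1) z| ≤ C * η ∧
      |Dw w (fun z => Pop (pf X Y u) Y X z - 1) z| ≤ C * η ∧
      |Dw w (fun z => Top (pf X Y u) Y X z) z| ≤ C * η)) :
    ∃ η C : ℝ, 0 < η ∧ 0 < C ∧
    ∀ δ' : ℝ, 0 < δ' → δ' ≤ 1 →
    ∀ a X Y u D1 D2 d : Pl → ℝ, NearCyl η X Y u → Sm D1 → Sm D2 → Sm d →
      KapClose η δ' (kapf X Y u) → Strain (sq (9/10)) a X Y u D1 D2 d →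
      (∀ z ∈ frame (6/10) (9/10), a z = 0) →
    ∀ χ : Pl → ℝ, Sm χ → (∀ z, z ∉ frame (6/10) (9/10) → χ z = 0) →
      ∫ z, χ z ^ 2 * (dx d z ^ 2 + dy d z ^ 2) ≤
        (C / δ') * ∫ z, (dx χ z ^ 2 + dy χ z ^ 2) * d z ^ 2 := by
  obtain ⟨η0, C0, hη0, hC0, hfc⟩ := hfc
  have hηpos : 0 < min (min η0 (1 / 100)) (1 / (10 * C0)) := by positivity
  have hη1 : min (min η0 (1 / 100)) (1 / (10 * C0)) ≤ η0 :=
    (min_le_left _ _).trans (min_le_left _ _)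
  have hη2 : min (min η0 (1 / 100)) (1 / (10 * C0)) ≤ 1 / 100 :=
    (min_le_left _ _).trans (min_le_right _ _)
  have hη3 : C0 * min (min η0 (1 / 100)) (1 / (10 * C0)) ≤ 1 / 10 := by
    have h : min (min η0 (1 / 100)) (1 / (10 * C0)) ≤ 1 / (10 * C0) := min_le_right _ _
    calc C0 * min (min η0 (1 / 100)) (1 / (10 * C0)) ≤ C0 * (1 / (10 * C0)) := by gcongr
      _ = 1 / 10 := by field_simp
  refine ⟨min (min η0 (1 / 100)) (1 / (10 * C0)), 100000, hηpos, by norm_num, ?_⟩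
  intro δ' hδ hδ1 a X Y u D1 D2 d hN hD1 hD2 hd hK hS ha χ hχ hχ0
  obtain ⟨hj, -, -, -, -, hJl, hJu, hpw, hfr⟩ := hfc _ X Y u hη1 hN
  exact main hη2 hη3 hδ hδ1 hN hD1 hD2 hd hK hS ha hχ hχ0 hj hJl hJu hpw hfr

end Crest.Agent.R220.PairCacc

namespace Crest.Agent.R220

/-- **pair_cacc**: Caccioppoli inequality in the elliptic frame. -/
theorem pair_cacc : ∃ η C : ℝ, 0 < η ∧ 0 < C ∧
    ∀ δ' : ℝ, 0 < δ' → δ' ≤ 1 →
    ∀ a X Y u D1 D2 d : Pl → ℝ, NearCyl η X Y u → Sm D1 → Sm D2 → Sm d →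
      KapClose η δ' (kapf X Y u) → Strain (sq (9/10)) a X Y u D1 D2 d →
      (∀ z ∈ frame (6/10) (9/10), a z = 0) →
    ∀ χ : Pl → ℝ, Sm χ → (∀ z, z ∉ frame (6/10) (9/10) → χ z = 0) →
      ∫ z, χ z ^ 2 * (dx d z ^ 2 + dy d z ^ 2) ≤
        (C / δ') * ∫ z, (dx χ z ^ 2 + dy χ z ^ 2) * d z ^ 2 :=
  PairCacc.of_frame_close frame_close

end Crest.Agent.R220
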