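import Crest.Agent.R220.SourceAux
import Crest.Agent.R220.FrameClose

/-!
# Row 220: `src_of_strain`
-/

set_option autoImplicit false

namespace Crest.Agent.R220

/-- **src_of_strain**: admissible right-hand side of the linearised equation, from the strain. -/
theorem src_of_strain : ∃ C1 C η0 : ℝ, 1 ≤ C1 ∧ 0 < C ∧ 0 < η0 ∧
    ∀ (η ξ : ℝ) (J : ℕ) (σ : ℕ → ℝ) (X Y u D1 D2 d : Pl → ℝ), 0 < η → η ≤ η0 → 1 ≤ ξ →
      (∀ j, σ j = 0 ∨ σ j = 1 ∨ σ j = -1) →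
      NearCyl η X Y u → Sm D1 → Sm D2 → Sm d →
      Strain (sq (9/10)) (pat ξ J σ) X Y u D1 D2 d →
      ∃ H G : Pl → ℝ, Src C1 (C * η) ξ J σ (pf X Y u) Y (kapf X Y u) d H G :=
  src_of_strain_aux frame_close

end Crest.Agent.R220
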