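import Crest.Agent.R220.PdeCore
import Crest.Agent.R220.FrameClose
import Crest.Agent.R220.Source

set_option autoImplicit false

open scoped ContDiff
open MeasureTheory

namespace Crest.Agent.R220

namespace PairObs

lemma dx_sub_fst {f : Pl → ℝ} (hf : Sm f) (z : Pl) :
    dx (fun z => f z - z.1) z = dx f z - 1 := by
  unfold dx
  have h1 : DifferentiableAt ℝ f z := (ContDiff.differentiable hf (by simp)).differentiableAt
  have h2 : DifferentiableAt ℝ (fun z : Pl => z.1) z := differentiableAt_fst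
  have := fderiv_sub (𝕜 := ℝ) h1 h2
  have e : (fun z => f z - z.1) = f - (fun z : Pl => z.1) := rfl
  rw [e, this]
  simp [fderiv_fst]

lemma dy_sub_fst {f : Pl → ℝ} (hf : Sm f) (z : Pl) :
    dy (fun z => f z - z.1) z = dy f z := by
  unfold dy
  have h1 : DifferentiableAt ℝ f z := (ContDiff.differentiable hf (by simp)).differentiableAt
  have h2 : DifferentiableAt ℝ (fun z : Pl => z.1) z := differentiableAt_fst
  have := fderiv_sub (𝕜 := ℝ) h1 h2
  have e : (fun z => f z - z.1) = f - (fun z : Pl => z.1) := rfl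
  rw [e, this]
  simp [fderiv_fst]

lemma dx_sub_snd {f : Pl → ℝ} (hf : Sm f) (z : Pl) :
    dx (fun z => f z - z.2) z = dx f z := by
  unfold dx
  have h1 : DifferentiableAt ℝ f z := (ContDiff.differentiable hf (by simp)).differentiableAt
  have h2 : DifferentiableAt ℝ (fun z : Pl => z.2) z := differentiableAt_snd
  have := fderiv_sub (𝕜 := ℝ) h1 h2
  have e : (fun z => f z - z.2) = f - (fun z : Pl => z.2) := rfl
  rw [e, this]
  simp [fderiv_snd]

lemma dy_sub_snd {f : Pl → ℝ} (hf : Sm f) (z : Pl) :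
    dy (fun z => f z - z.2) z = dy f z - 1 := by
  unfold dy
  have h1 : DifferentiableAt ℝ f z := (ContDiff.differentiable hf (by simp)).differentiableAt
  have h2 : DifferentiableAt ℝ (fun z : Pl => z.2) z := differentiableAt_snd
  have := fderiv_sub (𝕜 := ℝ) h1 h2
  have e : (fun z => f z - z.2) = f - (fun z : Pl => z.2) := rfl
  rw [e, this]
  simp [fderiv_snd]

lemma dx_sub_const (f : Pl → ℝ) (c : ℝ) : dx (fun z => f z - c) = dx f := by
  funext z
  unfold dx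
  rw [fderiv_sub_const]

lemma dy_sub_const (f : Pl → ℝ) (c : ℝ) : dy (fun z => f z - c) = dy f := by
  funext z
  unfold dy
  rw [fderiv_sub_const]

lemma Dw2_sub_fst {f : Pl → ℝ} (hf : Sm f) (w : List Bool) (hw : w.length = 2) (z : Pl) :
    Dw w (fun z => f z - z.1) z = Dw w f z := by
  obtain ⟨a, b, rfl⟩ : ∃ a b, w = [a, b] := by
    match w, hw with
    | [a, b], _ => exact ⟨a, b, rfl⟩
  have h1 : dx (fun z => f z - z.1) = fun z => dx f z - 1 := funext (dx_sub_fst hf)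
  have h2 : dy (fun z => f z - z.1) = dy f := funext (dy_sub_fst hf)
  cases a <;> cases b <;> simp only [Dw, h1, h2, dx_sub_const, dy_sub_const]

lemma Dw2_sub_snd {f : Pl → ℝ} (hf : Sm f) (w : List Bool) (hw : w.length = 2) (z : Pl) :
    Dw w (fun z => f z - z.2) z = Dw w f z := by
  obtain ⟨a, b, rfl⟩ : ∃ a b, w = [a, b] := by
    match w, hw with
    | [a, b], _ => exact ⟨a, b, rfl⟩
  have h1 : dx (fun z => f z - z.2) = dx f := funext (dx_sub_snd hf)
  have h2 : dy (fun z => f z - z.2) = fun z => dy f z - 1 := funext (dy_sub_snd hf)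
  cases a <;> cases b <;> simp only [Dw, h1, h2, dx_sub_const, dy_sub_const]

lemma KapClose.mono {τ τ' δ' : ℝ} {κ : Pl → ℝ} (h : τ ≤ τ') (hδ : 0 < δ')
    (hk : KapClose τ δ' κ) : KapClose τ' δ' κ := fun z hz => by
  have hm : τ * δ' ≤ τ' * δ' := mul_le_mul_of_nonneg_right h hδ.le
  obtain ⟨a, b, c⟩ := hk z hz
  exact ⟨a.trans hm, b.trans hm, c.trans hm⟩

end PairObs

open PairObs in
/-- the Legendre frame of a near-cylindrical surface is a `GoodFrame` -/
theorem goodFrame_of_nearCyl (ηp : ℝ) (hηp : 0 < ηp) : ∃ η0 : ℝ, 0 < η0 ∧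
    ∀ (η δ' : ℝ) (X Y u : Pl → ℝ), 0 < δ' → η ≤ η0 → NearCyl η X Y u →
      KapClose η δ' (kapf X Y u) → GoodFrame ηp δ' (pf X Y u) Y (kapf X Y u) := by
  obtain ⟨η1, C, hη1, hC, HF⟩ := frame_close
  refine ⟨min η1 (min ηp (ηp / C)), by positivity, ?_⟩
  intro η δ' X Y u hδ hη hN hk
  have hη1' : η ≤ η1 := hη.trans (min_le_left _ _)
  have hη2' : η ≤ ηp := hη.trans ((min_le_right _ _).trans (min_le_left _ _))
  have hη3' : C * η ≤ ηp := by
    have : η ≤ ηp / C := hη.trans ((min_le_right _ _).trans (min_le_right _ _))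
    rw [le_div_iff₀ hC] at this
    linarith
  obtain ⟨-, hp, -, hκ, hp0, -, -, hcl, -⟩ := HF η X Y u hη1' hN
  refine ⟨hp, hN.smY, hκ, hp0, hN.Y0, fun z => ?_, fun z => ?_, fun w hw z => ?_,
    fun w hw z => ?_, KapClose.mono hη2' hδ hk⟩
  · have a := hcl [true] (by simp) z
    have b := hcl [false] (by simp) z
    simp only [Dw] at a b
    rw [dx_sub_fst hp] at a
    rw [dy_sub_fst hp] at b
    exact ⟨a.trans hη3', b.trans hη3'⟩
  · have a := hN.clY [true] (by simp) z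
    have b := hN.clY [false] (by simp) z
    simp only [Dw] at a b
    rw [dx_sub_snd hN.smY] at a
    rw [dy_sub_snd hN.smY] at b
    exact ⟨a.trans hη2', b.trans hη2'⟩
  · have a := hcl w (by omega) z
    rw [Dw2_sub_fst hp w hw] at a
    exact a.trans hη3'
  · have a := hN.clY w (by omega) z
    rw [Dw2_sub_snd hN.smY w hw] at a
    exact a.trans hη2'

theorem pair_obs : ∃ η δs c0 : ℝ, 0 < η ∧ 0 < δs ∧ 0 < c0 ∧
    ∀ δ' ξ hh : ℝ, 0 < δ' → δ' ≤ δs → 1 ≤ ξ → 0 < hh → hh + 1 / ξ ≤ c0 * Real.sqrt δ' →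
    ∀ (J : ℕ) (σ : ℕ → ℝ), (∀ j, σ j = 0 ∨ σ j = 1 ∨ σ j = -1) → (∃ j < J, σ j ≠ 0) →
      (J : ℝ) ≤ hh * ξ →
    ∀ X Y u D1 D2 d : Pl → ℝ, NearCyl η X Y u → Sm D1 → Sm D2 → Sm d →
      KapClose η δ' (kapf X Y u) → Strain (sq (9/10)) (pat ξ J σ) X Y u D1 D2 d →
      c0 * ξ ≤ ∫ z in frame (7/10) (8/10), (d z ^ 2 + dx d z ^ 2 + dy d z ^ 2) := by
  obtain ⟨C1, C, ηs, hC1, hC, hηs, HS⟩ := src_of_strain
  obtain ⟨ηp, δs, c0, hηp, hδs, hc0, HP⟩ := pde_core C1 hC1
  obtain ⟨ηf, hηf, HG⟩ := goodFrame_of_nearCyl ηp hηp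
  refine ⟨min ηs (min ηf (ηp / C)), δs, c0, by positivity, hδs, hc0, ?_⟩
  intro δ' ξ hh hδ hδ1 hξ hhh hsum J σ hσ hact hJ X Y u D1 D2 d hN hD1 hD2 hd hk hst
  have h1 : min ηs (min ηf (ηp / C)) ≤ ηs := min_le_left _ _
  have h2 : min ηs (min ηf (ηp / C)) ≤ ηf := (min_le_right _ _).trans (min_le_left _ _)
  have h3 : C * min ηs (min ηf (ηp / C)) ≤ ηp := by
    have : min ηs (min ηf (ηp / C)) ≤ ηp / C := (min_le_right _ _).trans (min_le_right _ _)
    rw [le_div_iff₀ hC] at this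
    linarith
  have hGF := HG _ δ' X Y u hδ h2 hN hk
  obtain ⟨H, G, hsrc⟩ := HS _ ξ J σ X Y u D1 D2 d (by positivity) h1 hξ hσ hN hD1 hD2 hd hst
  exact HP δ' ξ hh hδ hδ1 hξ hhh hsum J σ hσ hact hJ (pf X Y u) Y (kapf X Y u) d H G hGF
    (hsrc.mono h3 (by linarith))

end Crest.Agent.R220
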