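import Crest.Agent.R220.Defs

set_option autoImplicit false
open MeasureTheory Set
open scoped ContDiff

namespace Crest.Agent.R220.Pigeon

open Crest.Agent.R220

/-- Cauchy–Schwarz for an interval integral. -/
lemma sq_intervalIntegral_le {g : ℝ → ℝ} (hg : Continuous g) {a b : ℝ} (hab : a ≤ b) :
    (∫ t in a..b, g t) ^ 2 ≤ (b - a) * ∫ t in a..b, (g t) ^ 2 := by
  rcases hab.eq_or_lt with rfl | hlt
  · simp
  have hpos : 0 < b - a := sub_pos.2 hlt
  set I := ∫ t in a..b, g t with hI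
  set c := I / (b - a) with hc
  have h1 : 0 ≤ ∫ t in a..b, (g t - c) ^ 2 :=
    intervalIntegral.integral_nonneg hab (fun t _ => sq_nonneg _)
  have h2 : ∫ t in a..b, (g t - c) ^ 2
      = (∫ t in a..b, (g t) ^ 2) - 2 * c * I + c ^ 2 * (b - a) := by
    have : (fun t => (g t - c) ^ 2) = fun t => ((g t) ^ 2 - (2 * c) * g t) + c ^ 2 := by
      funext t; ring
    rw [this, intervalIntegral.integral_add, intervalIntegral.integral_sub,
      intervalIntegral.integral_const_mul, intervalIntegral.integral_const]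
    · simp only [smul_eq_mul]; ring
    · exact (hg.pow 2).intervalIntegrable _ _
    · exact (hg.const_mul _).intervalIntegrable _ _
    · exact ((hg.pow 2).sub (hg.const_mul _)).intervalIntegrable _ _
    · exact intervalIntegrable_const
  rw [h2] at h1
  have h3 : c * (b - a) = I := by rw [hc]; field_simp
  have h4 : I ^ 2 = (b - a) * (2 * c * I - c ^ 2 * (b - a)) := by
    have : (b - a) * (2 * c * I - c ^ 2 * (b - a)) = 2 * (c * (b - a)) * I - (c * (b - a)) ^ 2 := by
      ring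
    rw [this, h3]; ring
  rw [h4]
  apply mul_le_mul_of_nonneg_left _ hpos.le
  linarith

lemma sq_sub_le_integral_aux {g g' : ℝ → ℝ} (hg : ∀ t, HasDerivAt g (g' t) t)
    (hg' : Continuous g') {a b x x' : ℝ} (hx : a ≤ x) (hxx : x ≤ x') (hx' : x' ≤ b) :
    (g x' - g x) ^ 2 ≤ (b - a) * ∫ t in a..b, (g' t) ^ 2 := by
  have h1 : ∫ t in x..x', g' t = g x' - g x :=
    intervalIntegral.integral_eq_sub_of_hasDerivAt (fun t _ => hg t)
      (hg'.intervalIntegrable _ _)
  rw [← h1]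
  refine (sq_intervalIntegral_le hg' hxx).trans ?_
  have hnn : 0 ≤ ∫ t in x..x', (g' t) ^ 2 :=
    intervalIntegral.integral_nonneg hxx (fun t _ => sq_nonneg _)
  have hmono : ∫ t in x..x', (g' t) ^ 2 ≤ ∫ t in a..b, (g' t) ^ 2 := by
    apply intervalIntegral.integral_mono_interval hx hxx hx'
    · filter_upwards with t using sq_nonneg _
    · exact (hg'.pow 2).intervalIntegrable _ _
  exact mul_le_mul (by linarith) hmono hnn (by linarith)

lemma sq_sub_le_integral {g g' : ℝ → ℝ} (hg : ∀ t, HasDerivAt g (g' t) t)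
    (hg' : Continuous g') {a b x x' : ℝ} (hx : x ∈ Icc a b) (hx' : x' ∈ Icc a b) :
    (g x - g x') ^ 2 ≤ (b - a) * ∫ t in a..b, (g' t) ^ 2 := by
  rcases le_total x x' with h | h
  · have := sq_sub_le_integral_aux hg hg' hx.1 h hx'.2
    calc (g x - g x') ^ 2 = (g x' - g x) ^ 2 := by ring
      _ ≤ _ := this
  · exact sq_sub_le_integral_aux hg hg' hx'.1 h hx.2


/-- closed square with lower-left corner `(a,b)` and side `s` -/
def cell (a b s : ℝ) : Set (ℝ × ℝ) := Icc a (a + s) ×ˢ Icc b (b + s)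

lemma isCompact_cell (a b s : ℝ) : IsCompact (cell a b s) := isCompact_Icc.prod isCompact_Icc

lemma measurableSet_cell (a b s : ℝ) : MeasurableSet (cell a b s) :=
  measurableSet_Icc.prod measurableSet_Icc

lemma integrableOn_cell {f : ℝ × ℝ → ℝ} (hf : Continuous f) (a b s : ℝ) :
    IntegrableOn f (cell a b s) := hf.continuousOn.integrableOn_compact (isCompact_cell a b s)

lemma volume_cell {a b s : ℝ} (hs : 0 ≤ s) : volume.real (cell a b s) = s ^ 2 := by
  have : (volume : Measure (ℝ × ℝ)) = (volume : Measure ℝ).prod volume := rfl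
  rw [cell, this, measureReal_prod_prod, Real.volume_real_Icc, Real.volume_real_Icc]
  rw [max_eq_left (by linarith), max_eq_left (by linarith)]
  ring

lemma setIntegral_cell {f : ℝ × ℝ → ℝ} (hf : Continuous f) {a b s : ℝ} (hs : 0 ≤ s) :
    ∫ z in cell a b s, f z = ∫ x in a..a + s, ∫ y in b..b + s, f (x, y) := by
  have h1 : ∫ z in cell a b s, f z = ∫ x in Icc a (a + s), ∫ y in Icc b (b + s), f (x, y) := by
    rw [cell]
    exact setIntegral_prod f (integrableOn_cell hf a b s)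
  rw [h1, intervalIntegral.integral_of_le (by linarith), integral_Icc_eq_integral_Ioc]
  congr 1
  funext x
  rw [intervalIntegral.integral_of_le (by linarith), integral_Icc_eq_integral_Ioc]

lemma setIntegral_cell' {f : ℝ × ℝ → ℝ} (hf : Continuous f) {a b s : ℝ} (hs : 0 ≤ s) :
    ∫ z in cell a b s, f z = ∫ y in b..b + s, ∫ x in a..a + s, f (x, y) := by
  have h0 : (volume : Measure (ℝ × ℝ)) = (volume : Measure ℝ).prod volume := rfl
  have h1 : ∫ z in cell a b s, f z = ∫ y in Icc b (b + s), ∫ x in Icc a (a + s), f (x, y) := by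
    have hint := integrableOn_cell hf a b s
    rw [cell] at hint ⊢
    rw [IntegrableOn, h0, ← Measure.prod_restrict] at hint
    rw [h0, ← Measure.prod_restrict]
    exact integral_prod_symm f hint
  rw [h1, intervalIntegral.integral_of_le (by linarith), integral_Icc_eq_integral_Ioc]
  congr 1
  funext x
  rw [intervalIntegral.integral_of_le (by linarith), integral_Icc_eq_integral_Ioc]

/-- Cauchy–Schwarz on a set of finite measure. -/
lemma sq_setIntegral_le {g : ℝ × ℝ → ℝ} {Q : Set (ℝ × ℝ)}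
    (hg : IntegrableOn g Q) (hg2 : IntegrableOn (fun z => (g z) ^ 2) Q)
    (hQ : volume Q ≠ ⊤) :
    (∫ z in Q, g z) ^ 2 ≤ volume.real Q * ∫ z in Q, (g z) ^ 2 := by
  set V := volume.real Q with hV
  have hV0 : 0 ≤ V := measureReal_nonneg
  set I := ∫ z in Q, g z with hI
  rcases hV0.eq_or_lt with h0 | hpos
  · -- measure zero
    have : volume Q = 0 := by
      have := h0.symm
      rw [hV, measureReal_def, ENNReal.toReal_eq_zero_iff] at this
      exact this.resolve_right hQ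
    have : I = 0 := by rw [hI, Measure.restrict_eq_zero.2 this]; simp
    rw [this, ← h0]; simp
  set c := I / V with hc
  have h1 : 0 ≤ ∫ z in Q, (g z - c) ^ 2 := integral_nonneg (fun t => sq_nonneg _)
  have hcst : IntegrableOn (fun _ : ℝ × ℝ => c ^ 2) Q := integrableOn_const hQ
  have h2 : ∫ z in Q, (g z - c) ^ 2
      = (∫ z in Q, (g z) ^ 2) - 2 * c * I + c ^ 2 * V := by
    have : (fun t => (g t - c) ^ 2) = fun t => ((g t) ^ 2 - (2 * c) * g t) + c ^ 2 := by
      funext t; ring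
    rw [this, integral_add, integral_sub, integral_const_mul, setIntegral_const]
    · simp only [smul_eq_mul]; ring
    · exact hg2
    · exact hg.const_mul _
    · exact hg2.sub (hg.const_mul _)
    · exact hcst
  rw [h2] at h1
  have h3 : c * V = I := by rw [hc]; field_simp
  have h4 : I ^ 2 = V * (2 * c * I - c ^ 2 * V) := by
    have : V * (2 * c * I - c ^ 2 * V) = 2 * (c * V) * I - (c * V) ^ 2 := by ring
    rw [this, h3]; ring
  rw [h4]
  apply mul_le_mul_of_nonneg_left _ hpos.le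
  linarith

/-- average over the square -/
noncomputable def avg (a b s : ℝ) (f : ℝ × ℝ → ℝ) : ℝ := (∫ z in cell a b s, f z) / s ^ 2

lemma hasDerivAt_fst {f : ℝ × ℝ → ℝ} (hf : ContDiff ℝ 1 f) (y t : ℝ) :
    HasDerivAt (fun t => f (t, y)) (dx f (t, y)) t := by
  have h1 : HasFDerivAt f (fderiv ℝ f (t, y)) (t, y) :=
    (hf.differentiable (by norm_num) _).hasFDerivAt
  have h2 : HasDerivAt (fun t : ℝ => (t, y)) ((1 : ℝ), (0 : ℝ)) t :=
    (hasDerivAt_id t).prodMk (hasDerivAt_const t y)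
  exact h1.comp_hasDerivAt t h2

lemma hasDerivAt_snd {f : ℝ × ℝ → ℝ} (hf : ContDiff ℝ 1 f) (x t : ℝ) :
    HasDerivAt (fun t => f (x, t)) (dy f (x, t)) t := by
  have h1 : HasFDerivAt f (fderiv ℝ f (x, t)) (x, t) :=
    (hf.differentiable (by norm_num) _).hasFDerivAt
  have h2 : HasDerivAt (fun t : ℝ => (x, t)) ((0 : ℝ), (1 : ℝ)) t :=
    (hasDerivAt_const t x).prodMk (hasDerivAt_id t)
  exact h1.comp_hasDerivAt t h2

lemma continuous_dx {f : ℝ × ℝ → ℝ} (hf : ContDiff ℝ 1 f) : Continuous (dx f) :=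
  (hf.continuous_fderiv (by norm_num)).clm_apply continuous_const

lemma continuous_dy {f : ℝ × ℝ → ℝ} (hf : ContDiff ℝ 1 f) : Continuous (dy f) :=
  (hf.continuous_fderiv (by norm_num)).clm_apply continuous_const

/-- **Poincaré inequality on a square.** -/
theorem poincare_cell {f : ℝ × ℝ → ℝ} (hf : ContDiff ℝ 1 f) {a b s : ℝ} (hs : 0 < s) :
    ∫ z in cell a b s, (f z - avg a b s f) ^ 2
      ≤ 2 * s ^ 2 * ∫ z in cell a b s, ((dx f z) ^ 2 + (dy f z) ^ 2) := by
  have hfc : Continuous f := hf.continuous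
  have hdx := continuous_dx hf
  have hdy := continuous_dy hf
  set m := avg a b s f with hm
  set G1 : ℝ → ℝ := fun y => ∫ t in a..a + s, (dx f (t, y)) ^ 2 with hG1
  set G2 : ℝ → ℝ := fun x => ∫ t in b..b + s, (dy f (x, t)) ^ 2 with hG2
  have hG1c : Continuous G1 := by
    apply intervalIntegral.continuous_parametric_intervalIntegral_of_continuous' (f := fun y t => (dx f (t, y)) ^ 2)
    exact ((hdx.comp (continuous_snd.prodMk continuous_fst)).pow 2)
  have hG2c : Continuous G2 := by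
    apply intervalIntegral.continuous_parametric_intervalIntegral_of_continuous' (f := fun x t => (dy f (x, t)) ^ 2)
    exact ((hdy.comp (continuous_fst.prodMk continuous_snd)).pow 2)
  have hIdx : ∫ z in cell a b s, (dx f z) ^ 2 = ∫ y in b..b + s, G1 y :=
    setIntegral_cell' (hdx.pow 2) hs.le
  have hIdy : ∫ z in cell a b s, (dy f z) ^ 2 = ∫ x in a..a + s, G2 x :=
    setIntegral_cell (hdy.pow 2) hs.le
  -- pointwise two-point bound
  have hpt : ∀ z ∈ cell a b s, ∀ z' ∈ cell a b s,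
      (f z - f z') ^ 2 ≤ 2 * s * G1 z.2 + 2 * s * G2 z'.1 := by
    rintro ⟨x, y⟩ ⟨hx, hy⟩ ⟨x', y'⟩ ⟨hx', hy'⟩
    simp only at hx hy hx' hy' ⊢
    have e1 := sq_sub_le_integral (fun t => hasDerivAt_fst hf y t)
      (hdx.comp (continuous_id.prodMk continuous_const)) hx hx'
    have e2 := sq_sub_le_integral (fun t => hasDerivAt_snd hf x' t)
      (hdy.comp (continuous_const.prodMk continuous_id)) hy hy'
    have e1' : (f (x, y) - f (x', y)) ^ 2 ≤ s * G1 y := by
      have : a + s - a = s := by ring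
      rw [this] at e1; exact e1
    have e2' : (f (x', y) - f (x', y')) ^ 2 ≤ s * G2 x' := by
      have : b + s - b = s := by ring
      rw [this] at e2; exact e2
    nlinarith [sq_nonneg ((f (x, y) - f (x', y)) - (f (x', y) - f (x', y')))]
  -- bound at a point
  have hI2 : ∫ z' in cell a b s, G2 z'.1 = s * ∫ z in cell a b s, (dy f z) ^ 2 := by
    rw [setIntegral_cell (f := fun z' => G2 z'.1) (hG2c.comp continuous_fst) hs.le, hIdy]
    simp only [intervalIntegral.integral_const, smul_eq_mul]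
    rw [intervalIntegral.integral_const_mul]
    ring
  have hI1 : ∫ z' in cell a b s, G1 z'.2 = s * ∫ z in cell a b s, (dx f z) ^ 2 := by
    rw [setIntegral_cell' (f := fun z' => G1 z'.2) (hG1c.comp continuous_snd) hs.le, hIdx]
    simp only [intervalIntegral.integral_const, smul_eq_mul]
    rw [intervalIntegral.integral_const_mul]
    ring
  have hvol := volume_cell (a := a) (b := b) hs.le
  have hfin : volume (cell a b s) ≠ ⊤ := (isCompact_cell a b s).measure_ne_top
  have hpoint : ∀ z ∈ cell a b s,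
      (f z - m) ^ 2 ≤ 2 * s * G1 z.2 + 2 * ∫ w in cell a b s, (dy f w) ^ 2 := by
    intro z hz
    have c1 : ∫ z' in cell a b s, (f z - f z') = s ^ 2 * (f z - m) := by
      rw [integral_sub (integrableOn_cell continuous_const a b s).integrable
        (integrableOn_cell hfc a b s).integrable, setIntegral_const, hvol,
        smul_eq_mul, hm, avg]
      field_simp
    have c2 := sq_setIntegral_le (g := fun z' => f z - f z') (Q := cell a b s)
      (integrableOn_cell (continuous_const.sub hfc) a b s)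
      (integrableOn_cell ((continuous_const.sub hfc).pow 2) a b s) hfin
    rw [c1, hvol] at c2
    have c3 : ∫ z' in cell a b s, (f z - f z') ^ 2
        ≤ ∫ z' in cell a b s, (2 * s * G1 z.2 + 2 * s * G2 z'.1) := by
      apply setIntegral_mono_on
      · exact integrableOn_cell ((continuous_const.sub hfc).pow 2) a b s
      · exact integrableOn_cell (continuous_const.add (continuous_const.mul (hG2c.comp continuous_fst))) a b s
      · exact measurableSet_cell a b s
      · intro z' hz'; exact hpt z hz z' hz'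
    have c4 : ∫ z' in cell a b s, (2 * s * G1 z.2 + 2 * s * G2 z'.1)
        = s ^ 2 * (2 * s * G1 z.2 + 2 * ∫ w in cell a b s, (dy f w) ^ 2) := by
      have i2 : IntegrableOn (fun z' : ℝ × ℝ => 2 * s * G2 z'.1) (cell a b s) :=
        integrableOn_cell (continuous_const.mul (hG2c.comp continuous_fst)) a b s
      rw [integral_add (integrableOn_cell continuous_const a b s).integrable i2.integrable,
        setIntegral_const, integral_const_mul, hI2, hvol, smul_eq_mul]
      ring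
    rw [c4] at c3
    have hs2 : 0 < s ^ 2 := by positivity
    have c5 : (s ^ 2 * (f z - m)) ^ 2
        ≤ s ^ 2 * (s ^ 2 * (2 * s * G1 z.2 + 2 * ∫ w in cell a b s, (dy f w) ^ 2)) :=
      c2.trans (mul_le_mul_of_nonneg_left c3 hs2.le)
    have c6 : s ^ 2 * (s ^ 2 * (f z - m) ^ 2)
        ≤ s ^ 2 * (s ^ 2 * (2 * s * G1 z.2 + 2 * ∫ w in cell a b s, (dy f w) ^ 2)) := by
      calc s ^ 2 * (s ^ 2 * (f z - m) ^ 2) = (s ^ 2 * (f z - m)) ^ 2 := by ring
        _ ≤ _ := c5
    exact le_of_mul_le_mul_left (le_of_mul_le_mul_left c6 hs2) hs2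
  have hfinal : ∫ z in cell a b s, (f z - m) ^ 2
      ≤ ∫ z in cell a b s, (2 * s * G1 z.2 + 2 * ∫ w in cell a b s, (dy f w) ^ 2) := by
    apply setIntegral_mono_on
    · exact integrableOn_cell ((hfc.sub continuous_const).pow 2) a b s
    · exact integrableOn_cell ((continuous_const.mul (hG1c.comp continuous_snd)).add continuous_const) a b s
    · exact measurableSet_cell a b s
    · exact hpoint
  refine hfinal.trans (le_of_eq ?_)
  have i1 : IntegrableOn (fun z : ℝ × ℝ => 2 * s * G1 z.2) (cell a b s) :=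
    integrableOn_cell (continuous_const.mul (hG1c.comp continuous_snd)) a b s
  have i3 : IntegrableOn (fun z : ℝ × ℝ => (dx f z) ^ 2) (cell a b s) :=
    integrableOn_cell (hdx.pow 2) a b s
  have i4 : IntegrableOn (fun z : ℝ × ℝ => (dy f z) ^ 2) (cell a b s) :=
    integrableOn_cell (hdy.pow 2) a b s
  rw [integral_add i1.integrable (integrableOn_cell continuous_const a b s).integrable,
    integral_const_mul, hI1, setIntegral_const, hvol, smul_eq_mul,
    integral_add i3.integrable i4.integrable]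
  ring


/-! ### grid -/

/-- lower coordinate of the `i`-th interval of the partition of `[-1,1)` into `2n` intervals -/
noncomputable def lo (n : ℕ) (i : Fin (2 * n)) : ℝ := (i : ℝ) / n - 1

lemma lo_cover {n : ℕ} (hn : 0 < n) {x : ℝ} (h1 : -1 ≤ x) (h2 : x < 1) :
    ∃ i : Fin (2 * n), x ∈ Ico (lo n i) (lo n i + 1 / n) := by
  have hn' : (0 : ℝ) < n := by exact_mod_cast hn
  have hnn : 0 ≤ (x + 1) * n := by nlinarith
  have hlt : ⌊(x + 1) * n⌋₊ < 2 * n := by
    rw [Nat.floor_lt hnn]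
    push_cast
    nlinarith
  refine ⟨⟨⌊(x + 1) * n⌋₊, hlt⟩, ?_, ?_⟩
  · have := Nat.floor_le hnn
    simp only [lo]
    have h3 : (⌊(x + 1) * n⌋₊ : ℝ) / n ≤ x + 1 := by
      rw [div_le_iff₀ hn']; exact this
    linarith
  · have := Nat.lt_floor_add_one ((x + 1) * n)
    simp only [lo]
    have h3 : x + 1 < (⌊(x + 1) * n⌋₊ : ℝ) / n + 1 / n := by
      rw [← add_div, lt_div_iff₀ hn']; exact this
    linarith

lemma lo_disj {n : ℕ} (hn : 0 < n) {i j : Fin (2 * n)} {x : ℝ}
    (hi : x ∈ Ico (lo n i) (lo n i + 1 / n)) (hj : x ∈ Ico (lo n j) (lo n j + 1 / n)) : i = j := by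
  have hn' : (0 : ℝ) < n := by exact_mod_cast hn
  have key : ∀ i j : Fin (2 * n), x ∈ Ico (lo n i) (lo n i + 1 / n) →
      x ∈ Ico (lo n j) (lo n j + 1 / n) → (i : ℕ) < (j : ℕ) + 1 := by
    intro i j hi hj
    have h1 : lo n i < lo n j + 1 / n := lt_of_le_of_lt hi.1 hj.2
    simp only [lo] at h1
    have h2 : (i : ℝ) / n < (j : ℝ) / n + 1 / n := by linarith
    rw [← add_div, div_lt_div_iff_of_pos_right hn'] at h2
    exact_mod_cast h2
  have h1 := key i j hi hj
  have h2 := key j i hj hi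
  apply Fin.ext
  omega

/-- half open cell -/
def hcell (n : ℕ) (c : Fin (2 * n) × Fin (2 * n)) : Set (ℝ × ℝ) :=
  Ico (lo n c.1) (lo n c.1 + 1 / n) ×ˢ Ico (lo n c.2) (lo n c.2 + 1 / n)

/-- closed cell -/
def ccell (n : ℕ) (c : Fin (2 * n) × Fin (2 * n)) : Set (ℝ × ℝ) :=
  cell (lo n c.1) (lo n c.2) (1 / n)

lemma hcell_sub (n : ℕ) (c : Fin (2 * n) × Fin (2 * n)) : hcell n c ⊆ ccell n c :=
  prod_mono Ico_subset_Icc_self Ico_subset_Icc_self

lemma hcell_ae (n : ℕ) (c : Fin (2 * n) × Fin (2 * n)) :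
    hcell n c =ᵐ[volume] ccell n c := by
  have h0 : (volume : Measure (ℝ × ℝ)) = (volume : Measure ℝ).prod volume := rfl
  rw [h0, hcell, ccell, cell]
  exact Measure.set_prod_ae_eq Ico_ae_eq_Icc Ico_ae_eq_Icc

lemma measurableSet_hcell (n : ℕ) (c : Fin (2 * n) × Fin (2 * n)) : MeasurableSet (hcell n c) :=
  measurableSet_Ico.prod measurableSet_Ico

lemma integrableOn_hcell {f : ℝ × ℝ → ℝ} (hf : Continuous f) (n : ℕ)
    (c : Fin (2 * n) × Fin (2 * n)) : IntegrableOn f (hcell n c) :=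
  (integrableOn_cell hf _ _ _).mono_set (hcell_sub n c)

/-- mean over a cell -/
noncomputable def mean (n : ℕ) (c : Fin (2 * n) × Fin (2 * n)) (f : ℝ × ℝ → ℝ) : ℝ :=
  avg (lo n c.1) (lo n c.2) (1 / n) f

lemma cell_bound {d : ℝ × ℝ → ℝ} (hd : ContDiff ℝ 1 d) {n : ℕ} (hn : 0 < n)
    (c : Fin (2 * n) × Fin (2 * n)) :
    ∫ z in hcell n c, (d z) ^ 2 ≤
      4 * (1 / n : ℝ) ^ 2 * (∫ z in hcell n c, ((dx d z) ^ 2 + (dy d z) ^ 2))
        + 2 * (1 / n : ℝ) ^ 2 * (mean n c d) ^ 2 := by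
  have hn' : (0 : ℝ) < n := by exact_mod_cast hn
  have hs : (0 : ℝ) < 1 / n := by positivity
  rw [setIntegral_congr_set (hcell_ae n c), setIntegral_congr_set (hcell_ae n c)]
  have hP := poincare_cell hd (a := lo n c.1) (b := lo n c.2) hs
  rw [ccell]
  set m := avg (lo n c.1) (lo n c.2) (1 / n) d with hm
  have hc := hd.continuous
  have i1 : IntegrableOn (fun z => 2 * (d z - m) ^ 2) (cell (lo n c.1) (lo n c.2) (1 / n)) :=
    integrableOn_cell (continuous_const.mul ((hc.sub continuous_const).pow 2)) _ _ _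
  have i2 : IntegrableOn (fun _ : ℝ × ℝ => 2 * m ^ 2) (cell (lo n c.1) (lo n c.2) (1 / n)) :=
    integrableOn_cell continuous_const _ _ _
  have h1 : ∫ z in cell (lo n c.1) (lo n c.2) (1 / n), (d z) ^ 2
      ≤ ∫ z in cell (lo n c.1) (lo n c.2) (1 / n), (2 * (d z - m) ^ 2 + 2 * m ^ 2) := by
    apply setIntegral_mono_on
    · exact integrableOn_cell (hc.pow 2) _ _ _
    · exact i1.add i2
    · exact measurableSet_cell _ _ _
    · intro z _
      nlinarith [sq_nonneg (d z - 2 * m)]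
  rw [integral_add i1.integrable i2.integrable, integral_const_mul, setIntegral_const,
    volume_cell hs.le, smul_eq_mul] at h1
  have : mean n c d = m := rfl
  rw [this]
  nlinarith

lemma mean_sq_le {d : ℝ × ℝ → ℝ} (hc : Continuous d) {n : ℕ} (hn : 0 < n)
    (c : Fin (2 * n) × Fin (2 * n)) :
    (mean n c d) ^ 2 ≤ (n : ℝ) ^ 2 * ∫ z in ccell n c, (d z) ^ 2 := by
  have hn' : (0 : ℝ) < n := by exact_mod_cast hn
  have hs : (0 : ℝ) < 1 / n := by positivity
  have h := sq_setIntegral_le (g := d) (Q := ccell n c)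
    (integrableOn_cell hc _ _ _) (integrableOn_cell (hc.pow 2) _ _ _)
    (isCompact_cell _ _ _).measure_ne_top
  have hv : volume.real (ccell n c) = (1 / n : ℝ) ^ 2 := volume_cell hs.le
  rw [hv] at h
  have hm : mean n c d = (n : ℝ) ^ 2 * ∫ z in ccell n c, d z := by
    rw [mean, avg, ccell]
    field_simp
  rw [hm, mul_pow]
  calc ((n : ℝ) ^ 2) ^ 2 * (∫ z in ccell n c, d z) ^ 2
      ≤ ((n : ℝ) ^ 2) ^ 2 * ((1 / n : ℝ) ^ 2 * ∫ z in ccell n c, (d z) ^ 2) := by gcongr
    _ = (n : ℝ) ^ 2 * ∫ z in ccell n c, (d z) ^ 2 := by field_simp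

/-- one halving step: energy in `Ω1` from gradient in `Ω'` and the cell averages. -/
lemma halving {d : ℝ × ℝ → ℝ} (hd : ContDiff ℝ 1 d) {n : ℕ} (hn : 0 < n)
    {Ω1 Ω' : Set (ℝ × ℝ)} (hΩ1 : ∀ z ∈ Ω1, |z.1| < 1 ∧ |z.2| < 1)
    (hΩc : Ω' ⊆ Crest.Agent.R220.sq 1)
    (hthick : ∀ z ∈ Ω1, ∀ z' : ℝ × ℝ, |z'.1 - z.1| ≤ 1 / n → |z'.2 - z.2| ≤ 1 / n → z' ∈ Ω')
    {δ : ℝ} (hδ : ∀ c, ccell n c ⊆ Ω' → |mean n c d| ≤ δ) :
    ∫ z in Ω1, (d z) ^ 2 ≤
      4 * (1 / n : ℝ) ^ 2 * (∫ z in Ω', ((dx d z) ^ 2 + (dy d z) ^ 2)) + 8 * δ ^ 2 := by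
  classical
  have hn' : (0 : ℝ) < n := by exact_mod_cast hn
  set act : Finset (Fin (2 * n) × Fin (2 * n)) :=
    Finset.univ.filter (fun c => ccell n c ⊆ Ω') with hact
  set U : Set (ℝ × ℝ) := ⋃ c ∈ act, hcell n c with hU
  have hgc : Continuous (fun z => (dx d z) ^ 2 + (dy d z) ^ 2) :=
    ((continuous_dx hd).pow 2).add ((continuous_dy hd).pow 2)
  have hsubU : Ω1 ⊆ U := by
    intro z hz
    obtain ⟨h1, h2⟩ := hΩ1 z hz
    rw [abs_lt] at h1 h2
    obtain ⟨i, hi⟩ := lo_cover hn h1.1.le h1.2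
    obtain ⟨j, hj⟩ := lo_cover hn h2.1.le h2.2
    simp only [hU, mem_iUnion]
    refine ⟨(i, j), ?_, ⟨hi, hj⟩⟩
    simp only [hact, Finset.mem_filter, Finset.mem_univ, true_and]
    rintro z' ⟨hz1, hz2⟩
    apply hthick z hz z'
    · rw [abs_le]
      have a1 := hz1.1; have a2 := hz1.2; have a3 := hi.1; have a4 := hi.2
      simp only at a1 a2 a3 a4
      constructor <;> linarith
    · rw [abs_le]
      have a1 := hz2.1; have a2 := hz2.2; have a3 := hj.1; have a4 := hj.2
      simp only at a1 a2 a3 a4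
      constructor <;> linarith
  have hUsub : U ⊆ Ω' := by
    intro z hz
    simp only [hU, mem_iUnion] at hz
    obtain ⟨c, hc, hzc⟩ := hz
    simp only [hact, Finset.mem_filter, Finset.mem_univ, true_and] at hc
    exact hc (hcell_sub n c hzc)
  have hdisj : Set.Pairwise (↑act) (Function.onFun Disjoint (hcell n)) := by
    intro c _ c' _ hne
    rw [Function.onFun, Set.disjoint_left]
    rintro z ⟨h1, h2⟩ ⟨h3, h4⟩
    exact hne (Prod.ext (lo_disj hn h1 h3) (lo_disj hn h2 h4))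
  have hmeasU : MeasurableSet U :=
    Finset.measurableSet_biUnion _ (fun c _ => measurableSet_hcell n c)
  have hsqc : IsCompact (Crest.Agent.R220.sq 1) := by
    have : Crest.Agent.R220.sq 1 = Icc (-1) 1 ×ˢ Icc (-1) 1 := by
      ext z; simp only [Crest.Agent.R220.sq, mem_ofPred_eq, abs_le, mem_prod, mem_Icc]
    rw [this]; exact isCompact_Icc.prod isCompact_Icc
  have hintΩ : ∀ g : ℝ × ℝ → ℝ, Continuous g → IntegrableOn g Ω' := fun g hg =>
    (hg.continuousOn.integrableOn_compact hsqc).mono_set hΩc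
  have hintU : ∀ g : ℝ × ℝ → ℝ, Continuous g → IntegrableOn g U := fun g hg =>
    (hintΩ g hg).mono_set hUsub
  have e1 : ∫ z in Ω1, (d z) ^ 2 ≤ ∫ z in U, (d z) ^ 2 := by
    apply setIntegral_mono_set (hintU _ (hd.continuous.pow 2))
    · exact ae_of_all _ (fun z => sq_nonneg _)
    · exact hsubU.eventuallyLE
  have e2 : ∫ z in U, (d z) ^ 2 = ∑ c ∈ act, ∫ z in hcell n c, (d z) ^ 2 :=
    integral_biUnion_finset act (fun c _ => measurableSet_hcell n c) hdisj
      (fun c _ => integrableOn_hcell (hd.continuous.pow 2) n c)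
  have e3 : ∫ z in U, ((dx d z) ^ 2 + (dy d z) ^ 2)
      = ∑ c ∈ act, ∫ z in hcell n c, ((dx d z) ^ 2 + (dy d z) ^ 2) :=
    integral_biUnion_finset act (fun c _ => measurableSet_hcell n c) hdisj
      (fun c _ => integrableOn_hcell hgc n c)
  have e4 : ∫ z in U, ((dx d z) ^ 2 + (dy d z) ^ 2)
      ≤ ∫ z in Ω', ((dx d z) ^ 2 + (dy d z) ^ 2) := by
    apply setIntegral_mono_set (hintΩ _ hgc)
    · exact ae_of_all _ (fun z => by positivity)
    · exact hUsub.eventuallyLE
  have e5 : ∑ c ∈ act, ∫ z in hcell n c, (d z) ^ 2 ≤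
      ∑ c ∈ act, (4 * (1 / n : ℝ) ^ 2 * (∫ z in hcell n c, ((dx d z) ^ 2 + (dy d z) ^ 2))
        + 2 * (1 / n : ℝ) ^ 2 * δ ^ 2) := by
    apply Finset.sum_le_sum
    intro c hc
    refine (cell_bound hd hn c).trans ?_
    have hc' : ccell n c ⊆ Ω' := by
      simpa only [hact, Finset.mem_filter, Finset.mem_univ, true_and] using hc
    have h1 := hδ c hc'
    have h2 : (mean n c d) ^ 2 ≤ δ ^ 2 := by
      rw [← sq_abs]; gcongr
    gcongr
  have e6 : ((act.card : ℕ) : ℝ) ≤ 4 * (n : ℝ) ^ 2 := by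
    have : act.card ≤ (2 * n) * (2 * n) := by
      refine (Finset.card_le_univ _).trans (le_of_eq ?_)
      simp
    calc ((act.card : ℕ) : ℝ) ≤ (((2 * n) * (2 * n) : ℕ) : ℝ) := by exact_mod_cast this
      _ = 4 * (n : ℝ) ^ 2 := by push_cast; ring
  rw [Finset.sum_add_distrib, ← Finset.mul_sum, ← e3, Finset.sum_const, nsmul_eq_mul] at e5
  have e7 : ((act.card : ℕ) : ℝ) * (2 * (1 / n : ℝ) ^ 2 * δ ^ 2) ≤ 8 * δ ^ 2 := by
    calc ((act.card : ℕ) : ℝ) * (2 * (1 / n : ℝ) ^ 2 * δ ^ 2)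
        ≤ (4 * (n : ℝ) ^ 2) * (2 * (1 / n : ℝ) ^ 2 * δ ^ 2) := by gcongr
      _ = 8 * δ ^ 2 := by field_simp; ring
  have e8 : 4 * (1 / n : ℝ) ^ 2 * (∫ z in U, ((dx d z) ^ 2 + (dy d z) ^ 2))
      ≤ 4 * (1 / n : ℝ) ^ 2 * (∫ z in Ω', ((dx d z) ^ 2 + (dy d z) ^ 2)) := by gcongr
  linarith [e1, e2.le, e5, e7, e8]


lemma mean_sub {f g : ℝ × ℝ → ℝ} (hf : Continuous f) (hg : Continuous g) (n : ℕ)
    (c : Fin (2 * n) × Fin (2 * n)) :
    mean n c (fun z => f z - g z) = mean n c f - mean n c g := by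
  rw [mean, mean, mean, avg, avg, avg, integral_sub (integrableOn_cell hf _ _ _).integrable
    (integrableOn_cell hg _ _ _).integrable, sub_div]

/-- iterated pigeonhole, abstract form. -/
lemma iterate {ι : Type} [DecidableEq ι] (f : ι → ℝ × ℝ → ℝ) (hf : ∀ i, ContDiff ℝ 1 (f i))
    {n : ℕ} (hn : 0 < n) (Ω Ω' : ℕ → Set (ℝ × ℝ)) (Λ : ℝ) (N : ℕ)
    (hΩc : ∀ t, Ω' t ⊆ Crest.Agent.R220.sq 1)
    (hΩ0 : ∀ t, Ω t ⊆ Crest.Agent.R220.sq 1)
    (hΩb : ∀ t, ∀ z ∈ Ω t, |z.1| < 1 ∧ |z.2| < 1)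
    (hΩΩ' : ∀ t, Ω' t ⊆ Ω t)
    (hthick : ∀ t < N, ∀ z ∈ Ω (t + 1), ∀ z' : ℝ × ℝ,
      |z'.1 - z.1| ≤ 1 / n → |z'.2 - z.2| ≤ 1 / n → z' ∈ Ω' t)
    (hcacc : ∀ i j, ∀ t < N, ∫ z in Ω' t, ((dx (fun z => f i z - f j z) z) ^ 2
      + (dy (fun z => f i z - f j z) z) ^ 2) ≤ Λ * ∫ z in Ω t, (f i z - f j z) ^ 2)
    (hΛ0 : 0 ≤ Λ)
    (hΛ : 4 * (1 / n : ℝ) ^ 2 * Λ ≤ 1 / 8) :
    ∀ k t : ℕ, t + k ≤ N → ∀ S : Finset ι, ∀ E : ℝ, 0 < E →
      (∀ i ∈ S, ∀ j ∈ S, ∫ z in Ω t, (f i z - f j z) ^ 2 ≤ E) →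
      ((16 * n + 3) ^ ((2 * n) * (2 * n))) ^ k < S.card →
      ∃ i ∈ S, ∃ j ∈ S, i ≠ j ∧ ∫ z in Ω (t + k), (f i z - f j z) ^ 2 ≤ E / 4 ^ k := by
  classical
  have hn' : (0 : ℝ) < n := by exact_mod_cast hn
  have hcont : ∀ i, Continuous (f i) := fun i => (hf i).continuous
  intro k
  induction k with
  | zero =>
    intro t _ S E _ hS hcard
    rw [pow_zero] at hcard
    obtain ⟨i, hi, j, hj, hij⟩ := Finset.one_lt_card.1 hcard
    exact ⟨i, hi, j, hj, hij, by simpa using hS i hi j hj⟩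
  | succ k ih =>
    intro t ht S E hE hS hcard
    have hSne : S.Nonempty := by
      rw [← Finset.card_pos]; omega
    obtain ⟨i0, hi0⟩ := hSne
    set δ := Real.sqrt E / 8 with hδdef
    have hsE : 0 < Real.sqrt E := Real.sqrt_pos.2 hE
    have hδ : 0 < δ := by positivity
    -- labels
    let lab : ι → (Fin (2 * n) × Fin (2 * n)) → ℤ := fun i c =>
      if ccell n c ⊆ Ω' t then ⌊mean n c (fun z => f i z - f i0 z) / δ⌋ else 0
    set L : Finset ((Fin (2 * n) × Fin (2 * n)) → ℤ) :=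
      Fintype.piFinset (fun _ => Finset.Icc (-(8 * n + 1 : ℤ)) (8 * n + 1)) with hL
    have hLcard : L.card = (16 * n + 3) ^ ((2 * n) * (2 * n)) := by
      rw [hL, Fintype.card_piFinset, Finset.prod_const, Int.card_Icc]
      congr 1
      · omega
      · simp
    have hmaps : ∀ i ∈ S, lab i ∈ L := by
      intro i hi
      rw [hL, Fintype.mem_piFinset]
      intro c
      simp only [lab]
      split_ifs with hc
      · have hdc : Continuous (fun z => f i z - f i0 z) := (hcont i).sub (hcont i0)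
        have h1 := mean_sq_le hdc hn c
        have h2 : ∫ z in ccell n c, (f i z - f i0 z) ^ 2 ≤ E := by
          refine le_trans ?_ (hS i hi i0 hi0)
          have hsqc : IsCompact (Crest.Agent.R220.sq 1) := by
            have : Crest.Agent.R220.sq 1 = Icc (-1) 1 ×ˢ Icc (-1) 1 := by
              ext z; simp only [Crest.Agent.R220.sq, mem_ofPred_eq, abs_le, mem_prod, mem_Icc]
            rw [this]; exact isCompact_Icc.prod isCompact_Icc
          apply setIntegral_mono_set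
          · exact ((hdc.pow 2).continuousOn.integrableOn_compact hsqc).mono_set (hΩ0 t)
          · exact ae_of_all _ (fun z => sq_nonneg _)
          · exact (hc.trans (hΩΩ' t)).eventuallyLE
        have h3 : (mean n c (fun z => f i z - f i0 z)) ^ 2 ≤ (n * Real.sqrt E) ^ 2 := by
          rw [mul_pow, Real.sq_sqrt hE.le]
          exact h1.trans (by gcongr)
        have h4 := abs_le_of_sq_le_sq' h3 (by positivity)
        have h5 : -(8 * n : ℝ) ≤ mean n c (fun z => f i z - f i0 z) / δ := by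
          rw [le_div_iff₀ hδ, hδdef]; linarith [h4.1]
        have h6 : mean n c (fun z => f i z - f i0 z) / δ ≤ (8 * n : ℝ) := by
          rw [div_le_iff₀ hδ, hδdef]; linarith [h4.2]
        rw [Finset.mem_Icc]
        constructor
        · have : (-(8 * n : ℤ)) ≤ ⌊mean n c (fun z => f i z - f i0 z) / δ⌋ := by
            rw [Int.le_floor]; push_cast; exact h5
          omega
        · have : ⌊mean n c (fun z => f i z - f i0 z) / δ⌋ ≤ (8 * n : ℤ) := by
            have h7 : ((⌊mean n c (fun z => f i z - f i0 z) / δ⌋ : ℤ) : ℝ) ≤ ((8 * n : ℤ) : ℝ) := by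
              push_cast; exact (Int.floor_le _).trans h6
            exact_mod_cast h7
          omega
      · rw [Finset.mem_Icc]; constructor <;> omega
    have hpig := Finset.exists_lt_card_fiber_of_mul_lt_card_of_maps_to
      (s := S) (t := L) (f := lab) (n := ((16 * n + 3) ^ ((2 * n) * (2 * n))) ^ k) hmaps
      (by rw [hLcard, ← pow_succ']; exact hcard)
    obtain ⟨y, _, hy⟩ := hpig
    have hE4 : 0 < E / 4 := by positivity
    have hstep : ∀ i ∈ S.filter (fun i => lab i = y), ∀ j ∈ S.filter (fun i => lab i = y),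
        ∫ z in Ω (t + 1), (f i z - f j z) ^ 2 ≤ E / 4 := by
      intro i hi j hj
      rw [Finset.mem_filter] at hi hj
      have hij : ContDiff ℝ 1 (fun z => f i z - f j z) := (hf i).sub (hf j)
      have hmean : ∀ c, ccell n c ⊆ Ω' t → |mean n c (fun z => f i z - f j z)| ≤ δ := by
        intro c hc
        have hl : lab i c = lab j c := by rw [hi.2, hj.2]
        simp only [lab, if_pos hc] at hl
        have e1 := mean_sub (hcont i) (hcont i0) n c
        have e2 := mean_sub (hcont j) (hcont i0) n c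
        have e3 := mean_sub (hcont i) (hcont j) n c
        have h1 := Int.abs_sub_lt_one_of_floor_eq_floor hl
        rw [← sub_div, abs_div, abs_of_pos hδ, div_lt_one hδ] at h1
        have : mean n c (fun z => f i z - f j z) =
            mean n c (fun z => f i z - f i0 z) - mean n c (fun z => f j z - f i0 z) := by
          rw [e1, e2, e3]; ring
        rw [this]; exact h1.le
      have h1 := halving hij hn (hΩb (t + 1)) (hΩc t)
        (hthick t (by omega)) hmean
      have h2 := hcacc i j t (by omega)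
      have h3 := hS i hi.1 j hj.1
      have h4 : δ ^ 2 = E / 64 := by
        rw [hδdef, div_pow, Real.sq_sqrt hE.le]; norm_num
      rw [h4] at h1
      have h5 : 4 * (1 / n : ℝ) ^ 2 * (∫ z in Ω' t, ((dx (fun z => f i z - f j z) z) ^ 2
          + (dy (fun z => f i z - f j z) z) ^ 2)) ≤ 4 * (1 / n : ℝ) ^ 2 * (Λ * E) := by
        gcongr
        exact h2.trans (by gcongr)
      have h6 : 4 * (1 / n : ℝ) ^ 2 * (Λ * E) ≤ 1 / 8 * E := by
        calc 4 * (1 / n : ℝ) ^ 2 * (Λ * E) = (4 * (1 / n : ℝ) ^ 2 * Λ) * E := by ring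
          _ ≤ 1 / 8 * E := by gcongr
      linarith
    obtain ⟨i, hi, j, hj, hne, hfin⟩ := ih (t + 1) (by omega) _ (E / 4) hE4 hstep hy
    refine ⟨i, (Finset.mem_filter.1 hi).1, j, (Finset.mem_filter.1 hj).1, hne, ?_⟩
    have e1 : t + (k + 1) = t + 1 + k := by omega
    have e2 : E / 4 ^ (k + 1) = E / 4 / 4 ^ k := by rw [pow_succ]; field_simp
    rw [e1, e2]; exact hfin


/-! ### cutoff functions -/

lemma exists_deriv_bound : ∃ c : ℝ, 1 ≤ c ∧ ∀ t, |deriv Real.smoothTransition t| ≤ c := by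
  have hc : Continuous (deriv Real.smoothTransition) :=
    (Real.smoothTransition.contDiff (n := 1)).continuous_deriv (by norm_num)
  obtain ⟨M, hM⟩ := (isCompact_Icc (a := (-1 : ℝ)) (b := 2)).exists_bound_of_continuousOn
    hc.continuousOn
  refine ⟨max 1 M, le_max_left _ _, fun t => ?_⟩
  by_cases h : t ∈ Icc (-1 : ℝ) 2
  · exact (hM t h).trans (le_max_right _ _)
  · have h0 : deriv Real.smoothTransition t = 0 := by
      rw [mem_Icc, not_and_or, not_le, not_le] at h
      rcases h with h | h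
      · have : Real.smoothTransition =ᶠ[nhds t] fun _ => 0 := by
          filter_upwards [Iio_mem_nhds (show t < 0 by linarith)] with u hu
          exact Real.smoothTransition.zero_of_nonpos (le_of_lt hu)
        rw [this.deriv_eq]; simp
      · have : Real.smoothTransition =ᶠ[nhds t] fun _ => 1 := by
          filter_upwards [Ioi_mem_nhds (show 1 < t by linarith)] with u hu
          exact Real.smoothTransition.one_of_one_le (le_of_lt hu)
        rw [this.deriv_eq]; simp
    rw [h0, abs_zero]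
    exact le_trans zero_le_one (le_max_left _ _)

/-- smooth even plateau function: `1` on `[-a,a]`, `0` outside `(-(a+τ),a+τ)` -/
noncomputable def th (a τ t : ℝ) : ℝ :=
  Real.smoothTransition ((a + τ - t) / τ) * Real.smoothTransition ((a + τ + t) / τ)

lemma th_contDiff (a τ : ℝ) : ContDiff ℝ ∞ (th a τ) := by
  unfold th
  apply ContDiff.mul
  · exact Real.smoothTransition.contDiff.comp (by fun_prop)
  · exact Real.smoothTransition.contDiff.comp (by fun_prop)

lemma th_nonneg (a τ t : ℝ) : 0 ≤ th a τ t :=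
  mul_nonneg (Real.smoothTransition.nonneg _) (Real.smoothTransition.nonneg _)

lemma th_le_one (a τ t : ℝ) : th a τ t ≤ 1 :=
  mul_le_one₀ (Real.smoothTransition.le_one _) (Real.smoothTransition.nonneg _)
    (Real.smoothTransition.le_one _)

lemma th_eq_one {a τ t : ℝ} (hτ : 0 < τ) (h : |t| ≤ a) : th a τ t = 1 := by
  rw [abs_le] at h
  unfold th
  rw [Real.smoothTransition.one_of_one_le, Real.smoothTransition.one_of_one_le, mul_one]
  · rw [one_le_div hτ]; linarith [h.1]
  · rw [one_le_div hτ]; linarith [h.2]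

lemma th_eq_zero {a τ t : ℝ} (hτ : 0 < τ) (h : a + τ ≤ |t|) : th a τ t = 0 := by
  unfold th
  rcases le_abs.1 h with h | h
  · rw [Real.smoothTransition.zero_of_nonpos, zero_mul]
    exact div_nonpos_of_nonpos_of_nonneg (by linarith) hτ.le
  · rw [Real.smoothTransition.zero_of_nonpos (x := (a + τ + t) / τ), mul_zero]
    exact div_nonpos_of_nonpos_of_nonneg (by linarith) hτ.le

lemma th_deriv {c : ℝ} (hc : ∀ t, |deriv Real.smoothTransition t| ≤ c) {a τ : ℝ}
    (hτ : 0 < τ) (t : ℝ) : |deriv (th a τ) t| ≤ 2 * c / τ := by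
  have hS : ∀ u, HasDerivAt Real.smoothTransition (deriv Real.smoothTransition u) u := fun u =>
    ((Real.smoothTransition.contDiff (n := 1)).differentiable (by norm_num) u).hasDerivAt
  have h1 : HasDerivAt (fun t : ℝ => (a + τ - t) / τ) (-1 / τ) t := by
    have := ((hasDerivAt_id t).const_sub (a + τ)).div_const τ
    simpa using this
  have h2 : HasDerivAt (fun t : ℝ => (a + τ + t) / τ) (1 / τ) t := by
    have := ((hasDerivAt_id t).const_add (a + τ)).div_const τ
    simpa using this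
  have h3 := (hS ((a + τ - t) / τ)).comp t h1
  have h4 := (hS ((a + τ + t) / τ)).comp t h2
  have h5 := h3.mul h4
  have h6 : deriv (th a τ) t = _ := h5.deriv
  rw [h6]
  set s1 := deriv Real.smoothTransition ((a + τ - t) / τ) with hs1
  set s2 := deriv Real.smoothTransition ((a + τ + t) / τ) with hs2
  have b1 : |s1| ≤ c := hc _
  have b2 : |s2| ≤ c := hc _
  have hc0 : 0 ≤ c := (abs_nonneg _).trans b1
  simp only [Function.comp_apply]
  set u1 := Real.smoothTransition ((a + τ - t) / τ) with hu1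
  set u2 := Real.smoothTransition ((a + τ + t) / τ) with hu2
  have p1 : |u1| ≤ 1 := by
    rw [abs_of_nonneg (Real.smoothTransition.nonneg _)]; exact Real.smoothTransition.le_one _
  have p2 : |u2| ≤ 1 := by
    rw [abs_of_nonneg (Real.smoothTransition.nonneg _)]; exact Real.smoothTransition.le_one _
  calc |s1 * (-1 / τ) * u2 + u1 * (s2 * (1 / τ))|
      ≤ |s1 * (-1 / τ) * u2| + |u1 * (s2 * (1 / τ))| := abs_add_le _ _
    _ = |s1| * (1 / τ) * |u2| + |u1| * (|s2| * (1 / τ)) := by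
        rw [abs_mul, abs_mul, abs_mul, abs_mul, abs_div, abs_neg, abs_one, abs_div, abs_one,
          abs_of_pos hτ]
    _ ≤ c * (1 / τ) * 1 + 1 * (c * (1 / τ)) := by gcongr
    _ = 2 * c / τ := by ring

/-- cutoff of a frame -/
noncomputable def chi (a b τ : ℝ) (z : Pl) : ℝ :=
  th (b - τ) τ z.1 * th (b - τ) τ z.2 * (1 - th a τ z.1 * th a τ z.2)

lemma chi_sm (a b τ : ℝ) : Sm (chi a b τ) := by
  unfold chi
  have h1 : ∀ a : ℝ, ContDiff ℝ ∞ (fun z : Pl => th a τ z.1) := fun a =>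
    (th_contDiff a τ).comp contDiff_fst
  have h2 : ∀ a : ℝ, ContDiff ℝ ∞ (fun z : Pl => th a τ z.2) := fun a =>
    (th_contDiff a τ).comp contDiff_snd
  exact ((h1 _).mul (h2 _)).mul (contDiff_const.sub ((h1 _).mul (h2 _)))

lemma chi_zero {a b τ : ℝ} (hτ : 0 < τ) (z : Pl) (hz : z ∉ frame a b) : chi a b τ z = 0 := by
  unfold chi
  rw [frame, mem_ofPred_eq, not_and_or, not_not, Crest.Agent.R220.sq, mem_ofPred_eq, not_and_or,
    not_le, not_le] at hz
  rcases hz with (h | h) | h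
  · rw [th_eq_zero (a := b - τ) (t := z.1) hτ (by linarith)]; ring
  · rw [th_eq_zero (a := b - τ) (t := z.2) hτ (by linarith)]; ring
  · rw [th_eq_one (a := a) (t := z.1) hτ h.1.le, th_eq_one (a := a) (t := z.2) hτ h.2.le]; ring

lemma chi_one {a b τ : ℝ} (hτ : 0 < τ) (z : Pl) (hz : z ∈ frame (a + τ) (b - τ)) :
    chi a b τ z = 1 := by
  unfold chi
  simp only [frame, Crest.Agent.R220.sq, mem_ofPred_eq, not_and_or, not_lt] at hz
  obtain ⟨⟨h1, h2⟩, h3⟩ := hz
  rw [th_eq_one (a := b - τ) (t := z.1) hτ h1, th_eq_one (a := b - τ) (t := z.2) hτ h2]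
  rcases h3 with h | h
  · rw [th_eq_zero (a := a) (t := z.1) hτ h]; ring
  · rw [th_eq_zero (a := a) (t := z.2) hτ h]; ring

lemma chi_dx {c : ℝ} (hc : ∀ t, |deriv Real.smoothTransition t| ≤ c) {a b τ : ℝ}
    (hτ : 0 < τ) (z : Pl) : |dx (chi a b τ) z| ≤ 4 * c / τ := by
  have hcd : ContDiff ℝ 1 (chi a b τ) := (chi_sm a b τ).of_le (by exact_mod_cast le_top)
  have h1 := hasDerivAt_fst hcd z.2 z.1
  have ht : ∀ a u, HasDerivAt (th a τ) (deriv (th a τ) u) u := fun a u =>
    ((th_contDiff a τ).differentiable (by simp) u).hasDerivAt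
  have h2 := ((ht (b - τ) z.1).mul_const (th (b - τ) τ z.2)).mul
    (((ht a z.1).mul_const (th a τ z.2)).const_sub 1)
  have h3 := h1.unique h2
  have hz : (z.1, z.2) = z := rfl
  rw [hz] at h3
  rw [h3]
  have b1 := th_deriv hc hτ (a := b - τ) z.1
  have b2 := th_deriv hc hτ (a := a) z.1
  have hc0 : 0 ≤ c := (abs_nonneg _).trans (hc 0)
  set D1 := deriv (th (b - τ) τ) z.1
  set D2 := deriv (th a τ) z.1
  have p1 := th_nonneg (b - τ) τ z.1
  have p2 := th_nonneg (b - τ) τ z.2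
  have p3 := th_nonneg a τ z.1
  have p4 := th_nonneg a τ z.2
  have q1 := th_le_one (b - τ) τ z.1
  have q2 := th_le_one (b - τ) τ z.2
  have q3 := th_le_one a τ z.1
  have q4 := th_le_one a τ z.2
  have q5 : |1 - th a τ z.1 * th a τ z.2| ≤ 1 := by
    rw [abs_le]; constructor <;> nlinarith
  calc |D1 * th (b - τ) τ z.2 * (1 - th a τ z.1 * th a τ z.2)
        + th (b - τ) τ z.1 * th (b - τ) τ z.2 * -(D2 * th a τ z.2)|
      ≤ |D1 * th (b - τ) τ z.2 * (1 - th a τ z.1 * th a τ z.2)|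
        + |th (b - τ) τ z.1 * th (b - τ) τ z.2 * -(D2 * th a τ z.2)| := abs_add_le _ _
    _ = |D1| * th (b - τ) τ z.2 * |1 - th a τ z.1 * th a τ z.2|
        + th (b - τ) τ z.1 * th (b - τ) τ z.2 * (|D2| * th a τ z.2) := by
        simp only [abs_mul, abs_neg, abs_of_nonneg p1, abs_of_nonneg p2, abs_of_nonneg p4]
    _ ≤ (2 * c / τ) * 1 * 1 + 1 * 1 * ((2 * c / τ) * 1) := by gcongr
    _ = 4 * c / τ := by ring

lemma chi_dy {c : ℝ} (hc : ∀ t, |deriv Real.smoothTransition t| ≤ c) {a b τ : ℝ}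
    (hτ : 0 < τ) (z : Pl) : |dy (chi a b τ) z| ≤ 4 * c / τ := by
  have hcd : ContDiff ℝ 1 (chi a b τ) := (chi_sm a b τ).of_le (by exact_mod_cast le_top)
  have h1 := hasDerivAt_snd hcd z.1 z.2
  have ht : ∀ a u, HasDerivAt (th a τ) (deriv (th a τ) u) u := fun a u =>
    ((th_contDiff a τ).differentiable (by simp) u).hasDerivAt
  have h2 := ((ht (b - τ) z.2).const_mul (th (b - τ) τ z.1)).mul
    (((ht a z.2).const_mul (th a τ z.1)).const_sub 1)
  have h3 := h1.unique h2
  have hz : (z.1, z.2) = z := rfl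
  rw [hz] at h3
  rw [h3]
  have b1 := th_deriv hc hτ (a := b - τ) z.2
  have b2 := th_deriv hc hτ (a := a) z.2
  have hc0 : 0 ≤ c := (abs_nonneg _).trans (hc 0)
  set D1 := deriv (th (b - τ) τ) z.2
  set D2 := deriv (th a τ) z.2
  have p1 := th_nonneg (b - τ) τ z.1
  have p2 := th_nonneg (b - τ) τ z.2
  have p3 := th_nonneg a τ z.1
  have p4 := th_nonneg a τ z.2
  have q1 := th_le_one (b - τ) τ z.1
  have q2 := th_le_one (b - τ) τ z.2
  have q3 := th_le_one a τ z.1
  have q4 := th_le_one a τ z.2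
  have q5 : |1 - th a τ z.1 * th a τ z.2| ≤ 1 := by
    rw [abs_le]; constructor <;> nlinarith
  calc |th (b - τ) τ z.1 * D1 * (1 - th a τ z.1 * th a τ z.2)
        + th (b - τ) τ z.1 * th (b - τ) τ z.2 * -(th a τ z.1 * D2)|
      ≤ |th (b - τ) τ z.1 * D1 * (1 - th a τ z.1 * th a τ z.2)|
        + |th (b - τ) τ z.1 * th (b - τ) τ z.2 * -(th a τ z.1 * D2)| := abs_add_le _ _
    _ = th (b - τ) τ z.1 * |D1| * |1 - th a τ z.1 * th a τ z.2|
        + th (b - τ) τ z.1 * th (b - τ) τ z.2 * (th a τ z.1 * |D2|) := by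
        simp only [abs_mul, abs_neg, abs_of_nonneg p1, abs_of_nonneg p2, abs_of_nonneg p3]
    _ ≤ 1 * (2 * c / τ) * 1 + 1 * 1 * (1 * (2 * c / τ)) := by gcongr
    _ = 4 * c / τ := by ring

lemma isClosed_frame (a b : ℝ) : IsClosed (frame a b) := by
  have h1 : frame a b = {z : Pl | |z.1| ≤ b} ∩ {z : Pl | |z.2| ≤ b} ∩
      ({z : Pl | a ≤ |z.1|} ∪ {z : Pl | a ≤ |z.2|}) := by
    ext z
    simp only [frame, Crest.Agent.R220.sq, mem_ofPred_eq, mem_inter_iff, mem_union, not_and_or,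
      not_lt]
  rw [h1]
  apply IsClosed.inter
  · exact (isClosed_le (by fun_prop) (by fun_prop)).inter (isClosed_le (by fun_prop) (by fun_prop))
  · exact (isClosed_le (by fun_prop) (by fun_prop)).union (isClosed_le (by fun_prop) (by fun_prop))

lemma isCompact_frame (a b : ℝ) : IsCompact (frame a b) := by
  apply (isCompact_Icc (a := (-b)) (b := b) |>.prod (isCompact_Icc (a := (-b)) (b := b))).of_isClosed_subset
    (isClosed_frame a b)
  intro z hz
  simp only [frame, Crest.Agent.R220.sq, mem_ofPred_eq, abs_le] at hz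
  exact ⟨hz.1.1, hz.1.2⟩


lemma contDiff_one_of_sm {f : Pl → ℝ} (hf : Sm f) : ContDiff ℝ 1 f :=
  hf.of_le (by exact_mod_cast le_top)

/-- from the cutoff form of Caccioppoli to the set form. -/
lemma cacc_set {c : ℝ} (hc : ∀ t, |deriv Real.smoothTransition t| ≤ c)
    {Cd : ℝ} (hCd : 0 ≤ Cd) {d : Pl → ℝ} (hd : Sm d)
    (hcacc : ∀ χ : Pl → ℝ, Sm χ → (∀ z, z ∉ frame (6/10) (9/10) → χ z = 0) →
        ∫ z, χ z ^ 2 * (dx d z ^ 2 + dy d z ^ 2) ≤
          Cd * ∫ z, (dx χ z ^ 2 + dy χ z ^ 2) * (d z) ^ 2)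
    {a b τ : ℝ} (hτ : 0 < τ) (ha : 6/10 ≤ a) (hb : b ≤ 9/10) :
    ∫ z in frame (a + τ) (b - τ), (dx d z ^ 2 + dy d z ^ 2) ≤
      (Cd * (32 * c ^ 2 / τ ^ 2)) * ∫ z in frame a b, (d z) ^ 2 := by
  have hd1 := contDiff_one_of_sm hd
  have hχ := chi_sm a b τ
  have hχ1 := contDiff_one_of_sm hχ
  have hsub : frame a b ⊆ frame (6/10) (9/10) := by
    rintro z ⟨⟨h1, h2⟩, h3⟩
    refine ⟨⟨h1.trans hb, h2.trans hb⟩, fun h => h3 ⟨h.1.trans_le ha, h.2.trans_le ha⟩⟩
  have h0 : ∀ z, z ∉ frame a b → chi a b τ z = 0 := chi_zero hτ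
  have h1 := hcacc (chi a b τ) hχ (fun z hz => h0 z (fun h => hz (hsub h)))
  have hgc : Continuous (fun z => (dx d z) ^ 2 + (dy d z) ^ 2) :=
    ((continuous_dx hd1).pow 2).add ((continuous_dy hd1).pow 2)
  -- derivative of chi vanishes outside the frame
  have hfd : ∀ z, z ∉ frame a b → dx (chi a b τ) z = 0 ∧ dy (chi a b τ) z = 0 := by
    intro z hz
    have hev : chi a b τ =ᶠ[nhds z] fun _ => 0 := by
      filter_upwards [(isClosed_frame a b).isOpen_compl.mem_nhds hz] with w hw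
      exact h0 w hw
    have : fderiv ℝ (chi a b τ) z = 0 := by
      rw [hev.fderiv_eq]; simp
    simp [dx, dy, this]
  have hL : ∫ z in frame (a + τ) (b - τ), (dx d z ^ 2 + dy d z ^ 2) ≤
      ∫ z, chi a b τ z ^ 2 * (dx d z ^ 2 + dy d z ^ 2) := by
    have e1 : ∫ z in frame (a + τ) (b - τ), (dx d z ^ 2 + dy d z ^ 2) =
        ∫ z in frame (a + τ) (b - τ), chi a b τ z ^ 2 * (dx d z ^ 2 + dy d z ^ 2) := by
      apply setIntegral_congr_fun (isClosed_frame _ _).measurableSet
      intro z hz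
      simp only [chi_one hτ z hz]; ring
    rw [e1]
    apply setIntegral_le_integral
    · apply Continuous.integrable_of_hasCompactSupport
      · exact (hχ1.continuous.pow 2).mul hgc
      · apply HasCompactSupport.intro (isCompact_frame a b)
        intro z hz
        rw [h0 z hz]; ring
    · exact ae_of_all _ (fun z => by positivity)
  have hR : ∫ z, (dx (chi a b τ) z ^ 2 + dy (chi a b τ) z ^ 2) * (d z) ^ 2 ≤
      (32 * c ^ 2 / τ ^ 2) * ∫ z in frame a b, (d z) ^ 2 := by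
    have e1 : ∫ z, (dx (chi a b τ) z ^ 2 + dy (chi a b τ) z ^ 2) * (d z) ^ 2 =
        ∫ z in frame a b, (dx (chi a b τ) z ^ 2 + dy (chi a b τ) z ^ 2) * (d z) ^ 2 := by
      rw [setIntegral_eq_integral_of_forall_compl_eq_zero]
      intro z hz
      rw [(hfd z hz).1, (hfd z hz).2]; ring
    rw [e1, ← integral_const_mul]
    apply setIntegral_mono_on
    · exact ((((continuous_dx hχ1).pow 2).add ((continuous_dy hχ1).pow 2)).mul
        (hd1.continuous.pow 2)).continuousOn.integrableOn_compact (isCompact_frame a b)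
    · exact (continuous_const.mul (hd1.continuous.pow 2)).continuousOn.integrableOn_compact
        (isCompact_frame a b)
    · exact (isClosed_frame a b).measurableSet
    · intro z _
      have b1 := chi_dx hc hτ (a := a) (b := b) z
      have b2 := chi_dy hc hτ (a := a) (b := b) z
      have b3 : dx (chi a b τ) z ^ 2 ≤ (4 * c / τ) ^ 2 := by rw [← sq_abs]; gcongr
      have b4 : dy (chi a b τ) z ^ 2 ≤ (4 * c / τ) ^ 2 := by rw [← sq_abs]; gcongr
      have b5 : dx (chi a b τ) z ^ 2 + dy (chi a b τ) z ^ 2 ≤ 32 * c ^ 2 / τ ^ 2 := by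
        calc _ ≤ (4 * c / τ) ^ 2 + (4 * c / τ) ^ 2 := by gcongr
          _ = 32 * c ^ 2 / τ ^ 2 := by ring
      gcongr
  calc _ ≤ _ := hL
    _ ≤ _ := h1
    _ ≤ Cd * ((32 * c ^ 2 / τ ^ 2) * ∫ z in frame a b, (d z) ^ 2) := by gcongr
    _ = _ := by ring

end Crest.Agent.R220.Pigeon

namespace Crest.Agent.R220
open Pigeon

set_option maxHeartbeats 2000000 in
theorem pigeon (Cd : ℝ) (hCd : 1 ≤ Cd) : ∃ K0 : ℕ, ∀ T : ℕ, 1 ≤ T →
    ∀ (ι : Type) [Fintype ι] (f : ι → Pl → ℝ), (∀ i, Sm (f i)) →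
      (∀ i, ∀ z ∈ sq 1, |f i z| ≤ 1) →
      (∀ i j, ∀ χ : Pl → ℝ, Sm χ → (∀ z, z ∉ frame (6/10) (9/10) → χ z = 0) →
        ∫ z, χ z ^ 2 * (dx (fun z => f i z - f j z) z ^ 2 + dy (fun z => f i z - f j z) z ^ 2) ≤
          Cd * ∫ z, (dx χ z ^ 2 + dy χ z ^ 2) * (f i z - f j z) ^ 2) →
      (K0 * T) ^ (K0 * T ^ 3) < Fintype.card ι →
      ∃ i j, i ≠ j ∧
        ∫ z in frame (7/10) (8/10), ((f i z - f j z) ^ 2 + dx (fun z => f i z - f j z) z ^ 2
          + dy (fun z => f i z - f j z) z ^ 2) ≤ K0 * (1 / 4 : ℝ) ^ T := by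
  classical
  obtain ⟨c, hc1, hc⟩ := exists_deriv_bound
  -- choose m with m ≥ 50 and 4 * Cd * 32 c^2 * 2500 ≤ m^2/8
  obtain ⟨m, hm⟩ := exists_nat_ge (max 50 (2560000 * Cd * c ^ 2))
  have hm50 : (50 : ℝ) ≤ m := (le_max_left _ _).trans hm
  have hmC : 2560000 * Cd * c ^ 2 ≤ m := (le_max_right _ _).trans hm
  have hm1 : (1 : ℝ) ≤ m := by linarith
  have hmm : (m : ℝ) ≤ (m : ℝ) ^ 2 := by nlinarith
  have hmn : 1 ≤ m := by exact_mod_cast hm1
  refine ⟨35 * m ^ 2 + m, ?_⟩
  intro T hT ι _ f hf hbd hcacc hcard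
  have hT' : (1 : ℝ) ≤ T := by exact_mod_cast hT
  have hT0 : (0 : ℝ) < T := by linarith
  set τ : ℝ := 1 / (50 * T) with hτdef
  have hτ : 0 < τ := by positivity
  set n := m * T with hn
  have hnpos : 0 < n := Nat.mul_pos hmn hT
  have hncast : (n : ℝ) = m * T := by rw [hn]; push_cast; ring
  have hn0 : (0 : ℝ) < n := by exact_mod_cast hnpos
  set Ω : ℕ → Set (ℝ × ℝ) := fun t => frame (6/10 + 2 * t * τ) (9/10 - 2 * t * τ) with hΩ
  set Ω' : ℕ → Set (ℝ × ℝ) := fun t => frame (6/10 + 2 * t * τ + τ) (9/10 - 2 * t * τ - τ) with hΩ'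
  set Λ : ℝ := Cd * (32 * c ^ 2 / τ ^ 2) with hΛ
  have hCd0 : 0 ≤ Cd := by linarith
  have hΛ0 : 0 ≤ Λ := by positivity
  have hd : ∀ i j, Sm (fun z => f i z - f j z) := fun i j => (hf i).sub (hf j)
  have hcacc' : ∀ i j, ∀ t : ℕ, ∫ z in Ω' t, ((dx (fun z => f i z - f j z) z) ^ 2
      + (dy (fun z => f i z - f j z) z) ^ 2) ≤ Λ * ∫ z in Ω t, (f i z - f j z) ^ 2 := by
    intro i j t
    have h2 : (0 : ℝ) ≤ 2 * t * τ := by positivity
    exact cacc_set hc hCd0 (hd i j) (hcacc i j) hτ (by linarith) (by linarith)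
  have hsubsq : ∀ a b : ℝ, b ≤ 1 → frame a b ⊆ Crest.Agent.R220.sq 1 := by
    rintro a b hb z ⟨⟨h1, h2⟩, _⟩
    exact ⟨h1.trans hb, h2.trans hb⟩
  have hit := iterate f (fun i => contDiff_one_of_sm (hf i)) hnpos Ω Ω' Λ (2 * T)
    (fun t => hsubsq _ _ (by
      have h2 : (0 : ℝ) ≤ 2 * t * τ := by positivity
      linarith))
    (fun t => hsubsq _ _ (by
      have h2 : (0 : ℝ) ≤ 2 * t * τ := by positivity
      linarith))
    (by
      rintro t z ⟨⟨h1, h2⟩, _⟩
      have h3 : (0 : ℝ) ≤ 2 * t * τ := by positivity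
      exact ⟨by linarith, by linarith⟩)
    (by
      rintro t z ⟨⟨h1, h2⟩, h3⟩
      refine ⟨⟨by linarith, by linarith⟩, fun h => h3 ⟨by linarith [h.1], by linarith [h.2]⟩⟩)
    (by
      have hsτ : (1 / n : ℝ) ≤ τ := by
        rw [hncast, hτdef]
        apply one_div_le_one_div_of_le (by positivity)
        gcongr
      rintro t _ z ⟨⟨h1, h2⟩, h3⟩ z' h4 h5
      push_cast at h1 h2 h3
      have a1 := abs_le.1 h4
      have a2 := abs_le.1 h5
      have b1 : |z'.1| ≤ |z.1| + 1 / n := by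
        have := abs_add_le (z'.1 - z.1) z.1
        rw [sub_add_cancel] at this; linarith
      have b2 : |z'.2| ≤ |z.2| + 1 / n := by
        have := abs_add_le (z'.2 - z.2) z.2
        rw [sub_add_cancel] at this; linarith
      have b3 : |z.1| ≤ |z'.1| + 1 / n := by
        have := abs_add_le (z.1 - z'.1) z'.1
        rw [sub_add_cancel, abs_sub_comm] at this; linarith
      have b4 : |z.2| ≤ |z'.2| + 1 / n := by
        have := abs_add_le (z.2 - z'.2) z'.2
        rw [sub_add_cancel, abs_sub_comm] at this; linarith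
      refine ⟨⟨by nlinarith, by nlinarith⟩, fun h => h3 ⟨?_, ?_⟩⟩
      · have := h.1; nlinarith
      · have := h.2; nlinarith)
    (fun i j t _ => hcacc' i j t) hΛ0
    (by
      rw [hΛ, hncast, hτdef]
      have e : 4 * (1 / ((m : ℝ) * T)) ^ 2 * (Cd * (32 * c ^ 2 / (1 / (50 * (T : ℝ))) ^ 2))
          = 320000 * Cd * c ^ 2 / (m : ℝ) ^ 2 := by
        field_simp
        ring
      rw [e, div_le_iff₀ (by positivity)]
      linarith)
  have hE16 : ∀ i ∈ (Finset.univ : Finset ι), ∀ j ∈ (Finset.univ : Finset ι),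
      ∫ z in Ω 0, (f i z - f j z) ^ 2 ≤ 16 := by
    intro i _ j _
    have hΩsub : Ω 0 ⊆ Crest.Agent.R220.sq 1 := hsubsq _ _ (by simp; norm_num)
    have hsq : Crest.Agent.R220.sq 1 = cell (-1) (-1) 2 := by
      ext z
      simp only [Crest.Agent.R220.sq, mem_ofPred_eq, abs_le, cell, Set.mem_prod, Set.mem_Icc]
      norm_num
    have hcont : Continuous (fun z => (f i z - f j z) ^ 2) := (hd i j).continuous.pow 2
    calc ∫ z in Ω 0, (f i z - f j z) ^ 2 ≤ ∫ z in cell (-1) (-1) 2, (f i z - f j z) ^ 2 := by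
          apply setIntegral_mono_set
          · exact integrableOn_cell hcont _ _ _
          · exact ae_of_all _ (fun z => sq_nonneg _)
          · rw [← hsq]; exact hΩsub.eventuallyLE
      _ ≤ ∫ z in cell (-1) (-1) 2, (4 : ℝ) := by
          apply setIntegral_mono_on
          · exact integrableOn_cell hcont _ _ _
          · exact integrableOn_cell continuous_const _ _ _
          · exact measurableSet_cell _ _ _
          · intro z hz
            rw [← hsq] at hz
            have h1 := abs_le.1 (hbd i z hz)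
            have h2 := abs_le.1 (hbd j z hz)
            nlinarith
      _ = 16 := by
          rw [setIntegral_const, volume_cell (by norm_num), smul_eq_mul]; norm_num
  have hcard' : ((16 * n + 3) ^ ((2 * n) * (2 * n))) ^ (2 * T) < (Finset.univ : Finset ι).card := by
    rw [Finset.card_univ]
    refine lt_of_le_of_lt ?_ hcard
    rw [← pow_mul]
    have h1 : 16 * n + 3 ≤ (35 * m ^ 2 + m) * T := by
      rw [hn]
      have h3 : 1 ≤ m * T := hnpos
      have h4 : m * T ≤ m ^ 2 * T := by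
        apply Nat.mul_le_mul_right; nlinarith
      nlinarith
    have h2 : (2 * n) * (2 * n) * (2 * T) ≤ (35 * m ^ 2 + m) * T ^ 3 := by
      rw [hn]
      have : (2 * (m * T)) * (2 * (m * T)) * (2 * T) = 8 * m ^ 2 * T ^ 3 := by ring
      rw [this]
      apply Nat.mul_le_mul_right
      nlinarith
    calc (16 * n + 3) ^ ((2 * n) * (2 * n) * (2 * T))
        ≤ ((35 * m ^ 2 + m) * T) ^ ((2 * n) * (2 * n) * (2 * T)) := Nat.pow_le_pow_left h1 _
      _ ≤ ((35 * m ^ 2 + m) * T) ^ ((35 * m ^ 2 + m) * T ^ 3) :=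
          Nat.pow_le_pow_right (by nlinarith) h2
  obtain ⟨i, _, j, _, hne, hfin⟩ := hit (2 * T) 0 (by omega) Finset.univ 16 (by norm_num) hE16 hcard'
  refine ⟨i, j, hne, ?_⟩
  rw [zero_add] at hfin
  have hfinal := hcacc' i j (2 * T)
  -- the target frame
  have h41 : (2 * ((2 * T : ℕ) : ℝ) * τ + τ) ≤ 1 / 10 := by
    rw [hτdef]; push_cast
    have : 2 * (2 * (T : ℝ)) * (1 / (50 * T)) + 1 / (50 * T) = (4 * T + 1) / (50 * T) := by
      field_simp
      ring
    rw [this, div_le_iff₀ (by positivity)]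
    linarith
  have hsub1 : frame (7/10) (8/10) ⊆ Ω' (2 * T) := by
    rintro z ⟨⟨h1, h2⟩, h3⟩
    refine ⟨⟨by linarith, by linarith⟩, fun h => h3 ⟨by linarith [h.1], by linarith [h.2]⟩⟩
  have hsub2 : frame (7/10) (8/10) ⊆ Ω (2 * T) := by
    rintro z ⟨⟨h1, h2⟩, h3⟩
    refine ⟨⟨by linarith, by linarith⟩, fun h => h3 ⟨by linarith [h.1], by linarith [h.2]⟩⟩
  have hd1 := contDiff_one_of_sm (hd i j)
  have hgc : Continuous (fun z => (dx (fun z => f i z - f j z) z) ^ 2
      + (dy (fun z => f i z - f j z) z) ^ 2) :=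
    ((continuous_dx hd1).pow 2).add ((continuous_dy hd1).pow 2)
  have hdc : Continuous (fun z => (f i z - f j z) ^ 2) := (hd i j).continuous.pow 2
  have hio : ∀ g : Pl → ℝ, Continuous g → ∀ a b : ℝ, IntegrableOn g (frame a b) := fun g hg a b =>
    hg.continuousOn.integrableOn_compact (isCompact_frame a b)
  have k1 : ∫ z in frame (7/10) (8/10), (f i z - f j z) ^ 2 ≤ 16 / 4 ^ (2 * T) := by
    refine le_trans ?_ hfin
    apply setIntegral_mono_set (hio _ hdc _ _)
    · exact ae_of_all _ (fun z => sq_nonneg _)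
    · exact hsub2.eventuallyLE
  have k2 : ∫ z in frame (7/10) (8/10), ((dx (fun z => f i z - f j z) z) ^ 2
      + (dy (fun z => f i z - f j z) z) ^ 2) ≤ Λ * (16 / 4 ^ (2 * T)) := by
    calc _ ≤ ∫ z in Ω' (2 * T), ((dx (fun z => f i z - f j z) z) ^ 2
          + (dy (fun z => f i z - f j z) z) ^ 2) := by
          apply setIntegral_mono_set (hio _ hgc _ _)
          · exact ae_of_all _ (fun z => by positivity)
          · exact hsub1.eventuallyLE
      _ ≤ _ := hfinal
      _ ≤ _ := by gcongr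
  have k3 : ∫ z in frame (7/10) (8/10), ((f i z - f j z) ^ 2 + dx (fun z => f i z - f j z) z ^ 2
          + dy (fun z => f i z - f j z) z ^ 2) =
      (∫ z in frame (7/10) (8/10), (f i z - f j z) ^ 2) +
      ∫ z in frame (7/10) (8/10), ((dx (fun z => f i z - f j z) z) ^ 2
      + (dy (fun z => f i z - f j z) z) ^ 2) := by
    rw [← integral_add (hio _ hdc _ _).integrable (hio _ hgc _ _).integrable]
    congr 1
    funext z
    ring
  rw [k3]
  have k4 : (T : ℝ) ^ 2 ≤ 4 ^ T := by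
    have h1 : (T : ℝ) ≤ 2 ^ T := by
      have : T < 2 ^ T := Nat.lt_two_pow_self
      exact_mod_cast this.le
    calc (T : ℝ) ^ 2 ≤ (2 ^ T) ^ 2 := by gcongr
      _ = 4 ^ T := by rw [← pow_mul, mul_comm, pow_mul]; norm_num
  have k5 : (1 : ℝ) ≤ 4 ^ T := one_le_pow₀ (by norm_num)
  have k6 : (0 : ℝ) < 4 ^ T := by positivity
  have k7 : Λ = 80000 * Cd * c ^ 2 * (T : ℝ) ^ 2 := by
    rw [hΛ, hτdef]; field_simp; ring
  have k8 : (4 : ℝ) ^ (2 * T) = 4 ^ T * 4 ^ T := by rw [← pow_add]; congr 1; omega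
  rw [k7, k8] at k2
  rw [k8] at k1
  have k9 : (16 : ℝ) / (4 ^ T * 4 ^ T) ≤ 16 * (1 / 4) ^ T := by
    rw [one_div, inv_pow, ← div_eq_mul_inv]
    apply div_le_div_of_nonneg_left (by norm_num) k6
    nlinarith
  have k10 : 80000 * Cd * c ^ 2 * (T : ℝ) ^ 2 * (16 / (4 ^ T * 4 ^ T))
      ≤ 1280000 * Cd * c ^ 2 * (1 / 4) ^ T := by
    have : 80000 * Cd * c ^ 2 * (T : ℝ) ^ 2 * (16 / (4 ^ T * 4 ^ T))
        = 1280000 * Cd * c ^ 2 * ((T : ℝ) ^ 2 / 4 ^ T) * (1 / 4) ^ T := by
      rw [one_div, inv_pow]; field_simp; norm_num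
    rw [this]
    have h3 : (T : ℝ) ^ 2 / 4 ^ T ≤ 1 := by rw [div_le_one k6]; exact k4
    calc 1280000 * Cd * c ^ 2 * ((T : ℝ) ^ 2 / 4 ^ T) * (1 / 4) ^ T
        ≤ 1280000 * Cd * c ^ 2 * 1 * (1 / 4) ^ T := by gcongr
      _ = _ := by ring
  have hK : 16 + 1280000 * Cd * c ^ 2 ≤ ((35 * m ^ 2 + m : ℕ) : ℝ) := by
    push_cast
    nlinarith
  calc _ ≤ 16 * (1 / 4 : ℝ) ^ T + 1280000 * Cd * c ^ 2 * (1 / 4) ^ T :=
        add_le_add (k1.trans k9) (k2.trans k10)
    _ = (16 + 1280000 * Cd * c ^ 2) * (1 / 4 : ℝ) ^ T := by ring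
    _ ≤ _ := by gcongr

end Crest.Agent.R220
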