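import Crest.Agent.R220.CoreAux
import Crest.Agent.R220.PairObs
import Crest.Agent.R220.PairCacc
import Crest.Agent.R220.Pigeon
import Crest.Agent.R220.ClassPigeon
import Crest.Agent.R220.AvgFrame
import Crest.Agent.R220.Metric

/-!
# Row 220 (S0341): the core theorem
-/

set_option autoImplicit false

open MeasureTheory

namespace Crest.Agent.R220

/-- **core**: for every `N` and `ε` there is a metric `(1+h1) dx² + (1+h2) dy²`, `ε`-close to flat
in `C^N`, with no isometric immersion that is `C^4`-close to a parabolic cylinder. -/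
theorem core : ∃ η : ℝ, 0 < η ∧ ∀ A0 : ℝ, 0 < A0 → ∀ (N : ℕ) (ε : ℝ), 0 < ε →
    ∃ h1 h2 : Pl → ℝ, Sm h1 ∧ Sm h2 ∧
      (∀ z, z ∉ sq (99/100) → h1 z = 0 ∧ h2 z = 0) ∧
      (∀ k ≤ N, ∀ z, ‖iteratedFDeriv ℝ k h1 z‖ ≤ ε ∧ ‖iteratedFDeriv ℝ k h2 z‖ ≤ ε) ∧
      ∀ (A : ℝ) (X Y Z : Pl → ℝ), A0 ≤ A → A ≤ 1 → NearCylLoc η A X Y Z →
        ¬ IsoOn (sq 1) h1 h2 X Y Z :=
  CoreAux.core_of pair_obs pair_cacc pigeon class_pigeon avg_frame metric_cut pat_bound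
    pat_smooth pat_supp Dw_le_iteratedFDeriv

end Crest.Agent.R220
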