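import Crest.Agent.R220.Defs

/-!
# Row 220: assembly of `core` from the component statements (as hypotheses)
-/

set_option autoImplicit false

open scoped ContDiff
open MeasureTheory

namespace Crest.Agent.R220.CoreAux

/-- statement of `pair_obs` -/
def PairObs : Prop := ∃ η δs c0 : ℝ, 0 < η ∧ 0 < δs ∧ 0 < c0 ∧
    ∀ δ' ξ hh : ℝ, 0 < δ' → δ' ≤ δs → 1 ≤ ξ → 0 < hh → hh + 1 / ξ ≤ c0 * Real.sqrt δ' →
    ∀ (J : ℕ) (σ : ℕ → ℝ), (∀ j, σ j = 0 ∨ σ j = 1 ∨ σ j = -1) → (∃ j < J, σ j ≠ 0) →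
      (J : ℝ) ≤ hh * ξ →
    ∀ X Y u D1 D2 d : Pl → ℝ, NearCyl η X Y u → Sm D1 → Sm D2 → Sm d →
      KapClose η δ' (kapf X Y u) → Strain (sq (9/10)) (pat ξ J σ) X Y u D1 D2 d →
      c0 * ξ ≤ ∫ z in frame (7/10) (8/10), (d z ^ 2 + dx d z ^ 2 + dy d z ^ 2)

/-- statement of `pair_cacc` -/
def PairCacc : Prop := ∃ η C : ℝ, 0 < η ∧ 0 < C ∧
    ∀ δ' : ℝ, 0 < δ' → δ' ≤ 1 →
    ∀ a X Y u D1 D2 d : Pl → ℝ, NearCyl η X Y u → Sm D1 → Sm D2 → Sm d →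
      KapClose η δ' (kapf X Y u) → Strain (sq (9/10)) a X Y u D1 D2 d →
      (∀ z ∈ frame (6/10) (9/10), a z = 0) →
    ∀ χ : Pl → ℝ, Sm χ → (∀ z, z ∉ frame (6/10) (9/10) → χ z = 0) →
      ∫ z, χ z ^ 2 * (dx d z ^ 2 + dy d z ^ 2) ≤
        (C / δ') * ∫ z, (dx χ z ^ 2 + dy χ z ^ 2) * d z ^ 2

/-- statement of `pigeon` -/
def Pigeon : Prop := ∀ (Cd : ℝ), 1 ≤ Cd → ∃ K0 : ℕ, ∀ T : ℕ, 1 ≤ T →
    ∀ (ι : Type) [Fintype ι] (f : ι → Pl → ℝ), (∀ i, Sm (f i)) →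
      (∀ i, ∀ z ∈ sq 1, |f i z| ≤ 1) →
      (∀ i j, ∀ χ : Pl → ℝ, Sm χ → (∀ z, z ∉ frame (6/10) (9/10) → χ z = 0) →
        ∫ z, χ z ^ 2 * (dx (fun z => f i z - f j z) z ^ 2 + dy (fun z => f i z - f j z) z ^ 2) ≤
          Cd * ∫ z, (dx χ z ^ 2 + dy χ z ^ 2) * (f i z - f j z) ^ 2) →
      (K0 * T) ^ (K0 * T ^ 3) < Fintype.card ι →
      ∃ i j, i ≠ j ∧
        ∫ z in frame (7/10) (8/10), ((f i z - f j z) ^ 2 + dx (fun z => f i z - f j z) z ^ 2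
          + dy (fun z => f i z - f j z) z ^ 2) ≤ K0 * (1 / 4 : ℝ) ^ T

/-- statement of `class_pigeon` -/
def ClassPigeon : Prop := ∀ (B ε0 : ℝ), 0 < ε0 → ∃ N0 : ℕ, 0 < N0 ∧
    ∀ (ι : Type) [Fintype ι] (f : ι → Fin 3 → Pl → ℝ), (∀ i k, Sm (f i k)) →
      (∀ i k, ∀ w : List Bool, w.length ≤ 4 → ∀ z ∈ sq 1, |Dw w (f i k) z| ≤ B) →
      ∃ S : Finset ι, Fintype.card ι ≤ N0 * S.card ∧
        ∀ i ∈ S, ∀ j ∈ S, ∀ k, ∀ w : List Bool, w.length ≤ 3 → ∀ z ∈ sq 1,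
          |Dw w (f i k) z - Dw w (f j k) z| ≤ ε0

/-- statement of `avg_frame` -/
def AvgFrame : Prop := ∀ (η : ℝ), 0 < η → ∃ η1 δ1 : ℝ, 0 < η1 ∧ 0 < δ1 ∧
    ∀ δ A0 : ℝ, 0 < δ → δ ≤ δ1 → 0 < A0 → ∃ ε0 ε1 : ℝ, 0 < ε0 ∧ 0 < ε1 ∧
    ∀ A1 A2 : ℝ, A0 ≤ A1 → A1 ≤ 1 → A0 ≤ A2 → A2 ≤ 1 →
    ∀ h1 h2 X1 Y1 Z1 X2 Y2 Z2 : Pl → ℝ, Sm h1 → Sm h2 →
      NearCylLoc η1 A1 X1 Y1 Z1 → NearCylLoc η1 A2 X2 Y2 Z2 →
      IsoOn (sq 1) h1 h2 X1 Y1 Z1 →
      (∀ w : List Bool, w.length ≤ 3 → ∀ z ∈ sq (95/100),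
        |Dw w (fun z => h1 z - δ * w0 z) z| ≤ ε1 ∧ |Dw w (fun z => h2 z - δ * w0 z) z| ≤ ε1) →
      (∀ w : List Bool, w.length ≤ 3 → ∀ z ∈ sq 1, |Dw w X1 z - Dw w X2 z| ≤ ε0 ∧
        |Dw w Y1 z - Dw w Y2 z| ≤ ε0 ∧ |Dw w Z1 z - Dw w Z2 z| ≤ ε0) →
      ∃ X Y u : Pl → ℝ, NearCyl η X Y u ∧
        (∀ z ∈ sq (95/100), X z = (X1 z + X2 z) / 2 ∧ Y z = (Y1 z + Y2 z) / 2 ∧
          u z = (Z1 z + Z2 z) / (2 * A1)) ∧
        KapClose η (δ / A1 ^ 2) (kapf X Y u)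

/-- statement of `metric_cut` -/
def MetricCut : Prop := ∃ W : Pl → ℝ, Sm W ∧ (∀ z ∈ sq (97/100), W z = w0 z) ∧
    (∀ z, z ∉ sq (99/100) → W z = 0) ∧
    (∀ N : ℕ, ∃ C : ℝ, 0 < C ∧ ∀ k ≤ N, ∀ z, ‖iteratedFDeriv ℝ k W z‖ ≤ C)

/-- statement of `pat_bound` -/
def PatBound : Prop := ∀ N : ℕ, ∃ C : ℝ, 0 < C ∧ ∀ (ξ : ℝ) (J : ℕ) (σ : ℕ → ℝ), 1 ≤ ξ →
    (J : ℝ) ≤ ξ → (∀ j, |σ j| ≤ 1) → ∀ k ≤ N, ∀ z,
      ‖iteratedFDeriv ℝ k (pat ξ J σ) z‖ ≤ C * ξ ^ (k + 1)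

/-- statement of `pat_smooth` -/
def PatSmooth : Prop := ∀ (ξ : ℝ) (J : ℕ) (σ : ℕ → ℝ), Sm (pat ξ J σ)

/-- statement of `pat_supp` -/
def PatSupp : Prop := ∀ (ξ : ℝ), 1 ≤ ξ → ∀ (J : ℕ) (σ : ℕ → ℝ) (z : Pl),
    pat ξ J σ z ≠ 0 → |z.1| ≤ (J + 1) / ξ ∧ |z.2| ≤ 1 / (4 * ξ)

/-- statement of `Dw_le_iteratedFDeriv` -/
def DwLe : Prop := ∀ (f : Pl → ℝ), Sm f → ∀ (w : List Bool) (z : Pl),
    |Dw w f z| ≤ ‖iteratedFDeriv ℝ w.length f z‖

/-- statement of `core` -/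
def Core : Prop := ∃ η : ℝ, 0 < η ∧ ∀ A0 : ℝ, 0 < A0 → ∀ (N : ℕ) (ε : ℝ), 0 < ε →
    ∃ h1 h2 : Pl → ℝ, Sm h1 ∧ Sm h2 ∧
      (∀ z, z ∉ sq (99/100) → h1 z = 0 ∧ h2 z = 0) ∧
      (∀ k ≤ N, ∀ z, ‖iteratedFDeriv ℝ k h1 z‖ ≤ ε ∧ ‖iteratedFDeriv ℝ k h2 z‖ ≤ ε) ∧
      ∀ (A : ℝ) (X Y Z : Pl → ℝ), A0 ≤ A → A ≤ 1 → NearCylLoc η A X Y Z →
        ¬ IsoOn (sq 1) h1 h2 X Y Z

/-! ### Calculus helpers -/

lemma Sm.diff {f : Pl → ℝ} (hf : Sm f) (z : Pl) : DifferentiableAt ℝ f z :=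
  (hf.differentiable (by simp)) z

lemma sm_dx {f : Pl → ℝ} (hf : Sm f) : Sm (dx f) := by
  unfold dx
  exact (hf.fderiv_right (m := ∞) (by simp)).clm_apply contDiff_const

lemma sm_dy {f : Pl → ℝ} (hf : Sm f) : Sm (dy f) := by
  unfold dy
  exact (hf.fderiv_right (m := ∞) (by simp)).clm_apply contDiff_const

lemma dx_sub {f g : Pl → ℝ} {z : Pl} (hf : DifferentiableAt ℝ f z)
    (hg : DifferentiableAt ℝ g z) : dx (fun z => f z - g z) z = dx f z - dx g z := by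
  unfold dx; rw [fderiv_fun_sub hf hg]; rfl

lemma dy_sub {f g : Pl → ℝ} {z : Pl} (hf : DifferentiableAt ℝ f z)
    (hg : DifferentiableAt ℝ g z) : dy (fun z => f z - g z) z = dy f z - dy g z := by
  unfold dy; rw [fderiv_fun_sub hf hg]; rfl

lemma dx_add {f g : Pl → ℝ} {z : Pl} (hf : DifferentiableAt ℝ f z)
    (hg : DifferentiableAt ℝ g z) : dx (fun z => f z + g z) z = dx f z + dx g z := by
  unfold dx; rw [fderiv_fun_add hf hg]; rfl

lemma dy_add {f g : Pl → ℝ} {z : Pl} (hf : DifferentiableAt ℝ f z)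
    (hg : DifferentiableAt ℝ g z) : dy (fun z => f z + g z) z = dy f z + dy g z := by
  unfold dy; rw [fderiv_fun_add hf hg]; rfl

lemma dx_cmul {f : Pl → ℝ} {z : Pl} (c : ℝ) (hf : DifferentiableAt ℝ f z) :
    dx (fun z => c * f z) z = c * dx f z := by
  unfold dx; rw [fderiv_const_mul hf]; rfl

lemma dy_cmul {f : Pl → ℝ} {z : Pl} (c : ℝ) (hf : DifferentiableAt ℝ f z) :
    dy (fun z => c * f z) z = c * dy f z := by
  unfold dy; rw [fderiv_const_mul hf]; rfl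

lemma dx_congr {f g : Pl → ℝ} {z : Pl} (h : f =ᶠ[nhds z] g) : dx f z = dx g z := by
  unfold dx; rw [h.fderiv_eq]

lemma dy_congr {f g : Pl → ℝ} {z : Pl} (h : f =ᶠ[nhds z] g) : dy f z = dy g z := by
  unfold dy; rw [h.fderiv_eq]

lemma dx_congr_ev {f g : Pl → ℝ} {z : Pl} (h : f =ᶠ[nhds z] g) : dx f =ᶠ[nhds z] dx g := by
  have := h.fderiv (𝕜 := ℝ)
  filter_upwards [this] with y hy
  unfold dx; rw [hy]

lemma dy_congr_ev {f g : Pl → ℝ} {z : Pl} (h : f =ᶠ[nhds z] g) : dy f =ᶠ[nhds z] dy g := by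
  have := h.fderiv (𝕜 := ℝ)
  filter_upwards [this] with y hy
  unfold dy; rw [hy]

lemma Dw_congr_ev {f g : Pl → ℝ} {z : Pl} (w : List Bool) (h : f =ᶠ[nhds z] g) :
    Dw w f =ᶠ[nhds z] Dw w g := by
  induction w with
  | nil => simpa [Dw] using h
  | cons b w ih =>
    cases b
    · exact dy_congr_ev ih
    · exact dx_congr_ev ih

lemma sm_Dw {f : Pl → ℝ} (hf : Sm f) (w : List Bool) : Sm (Dw w f) := by
  induction w with
  | nil => simpa [Dw] using hf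
  | cons b w ih =>
    cases b
    · exact sm_dy ih
    · exact sm_dx ih

lemma Dw_cmul {f : Pl → ℝ} (hf : Sm f) (c : ℝ) (w : List Bool) (z : Pl) :
    Dw w (fun z => c * f z) z = c * Dw w f z := by
  induction w generalizing z with
  | nil => simp [Dw]
  | cons b w ih =>
    have h : Dw w (fun z => c * f z) = fun z => c * Dw w f z := funext ih
    cases b
    · show dy (Dw w (fun z => c * f z)) z = c * dy (Dw w f) z
      rw [h]; exact dy_cmul c (Sm.diff (sm_Dw hf w) z)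
    · show dx (Dw w (fun z => c * f z)) z = c * dx (Dw w f) z
      rw [h]; exact dx_cmul c (Sm.diff (sm_Dw hf w) z)


lemma dx_sub_fun {f g : Pl → ℝ} (hf : Sm f) (hg : Sm g) :
    dx (fun z => f z - g z) = fun z => dx f z - dx g z :=
  funext fun z => dx_sub (Sm.diff hf z) (Sm.diff hg z)

lemma dy_sub_fun {f g : Pl → ℝ} (hf : Sm f) (hg : Sm g) :
    dy (fun z => f z - g z) = fun z => dy f z - dy g z :=
  funext fun z => dy_sub (Sm.diff hf z) (Sm.diff hg z)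

lemma Dw_sub {f g : Pl → ℝ} (hf : Sm f) (hg : Sm g) (w : List Bool) :
    Dw w (fun z => f z - g z) = fun z => Dw w f z - Dw w g z := by
  induction w with
  | nil => simp [Dw]
  | cons b w ih =>
    cases b
    · show dy (Dw w (fun z => f z - g z)) = _
      rw [ih]; exact dy_sub_fun (sm_Dw hf w) (sm_Dw hg w)
    · show dx (Dw w (fun z => f z - g z)) = _
      rw [ih]; exact dx_sub_fun (sm_Dw hf w) (sm_Dw hg w)

lemma Dw_zero_of_ev {f : Pl → ℝ} {z : Pl} (w : List Bool) (h : f =ᶠ[nhds z] fun _ => 0) :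
    Dw w f z = 0 := by
  have h0 : ∀ w : List Bool, Dw w (fun _ : Pl => (0:ℝ)) = fun _ => 0 := by
    intro w
    induction w with
    | nil => rfl
    | cons b w ih =>
      cases b
      · show dy (Dw w (fun _ : Pl => (0:ℝ))) = _
        rw [ih]; funext z; simp [dy]
      · show dx (Dw w (fun _ : Pl => (0:ℝ))) = _
        rw [ih]; funext z; simp [dx]
  have := (Dw_congr_ev w h).eq_of_nhds
  rw [this, h0 w]

lemma sq_mem_nhds {a b : ℝ} (hab : a < b) {z : Pl} (hz : z ∈ sq a) : sq b ∈ nhds z := by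
  have : {w : Pl | |w.1| < b ∧ |w.2| < b} ∈ nhds z := by
    apply IsOpen.mem_nhds
    · exact (isOpen_lt (f := fun w : Pl => |w.1|) (g := fun _ => b) (by fun_prop)
        (by fun_prop)).inter (isOpen_lt (f := fun w : Pl => |w.2|) (g := fun _ => b) (by fun_prop)
        (by fun_prop))
    · exact ⟨lt_of_le_of_lt hz.1 hab, lt_of_le_of_lt hz.2 hab⟩
  filter_upwards [this] with w hw using ⟨hw.1.le, hw.2.le⟩

lemma sq_mono {a b : ℝ} (hab : a ≤ b) : sq a ⊆ sq b :=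
  fun _ hz => ⟨hz.1.trans hab, hz.2.trans hab⟩

lemma isCompact_sq (a : ℝ) : IsCompact (sq a) := by
  have : sq a = Set.Icc (-a) a ×ˢ Set.Icc (-a) a := by
    ext z; simp only [sq, abs_le, Set.mem_ofPred_eq, Set.mem_prod, Set.mem_Icc]
  rw [this]; exact isCompact_Icc.prod isCompact_Icc

/-! ### Monotonicity -/

lemma NearCyl.mono {η η' : ℝ} {X Y u : Pl → ℝ} (h : NearCyl η X Y u) (hη : η ≤ η') :
    NearCyl η' X Y u :=
  { h with
    clX := fun w hw z => (h.clX w hw z).trans hη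
    clY := fun w hw z => (h.clY w hw z).trans hη
    clu := fun w hw z => (h.clu w hw z).trans hη }

lemma NearCylLoc.mono {η η' A : ℝ} {X Y Z : Pl → ℝ} (h : NearCylLoc η A X Y Z) (hA : 0 ≤ A)
    (hη : η ≤ η') : NearCylLoc η' A X Y Z :=
  { h with
    clX := fun w hw z hz => (h.clX w hw z hz).trans hη
    clY := fun w hw z hz => (h.clY w hw z hz).trans hη
    clZ := fun w hw z hz => (h.clZ w hw z hz).trans (mul_le_mul_of_nonneg_right hη hA) }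

lemma KapClose.mono {τ τ' δ' : ℝ} {κ : Pl → ℝ} (h : KapClose τ δ' κ) (hδ : 0 ≤ δ')
    (hτ : τ ≤ τ') : KapClose τ' δ' κ := by
  intro z hz
  obtain ⟨h1, h2, h3⟩ := h z hz
  have := mul_le_mul_of_nonneg_right hτ hδ
  exact ⟨h1.trans this, h2.trans this, h3.trans this⟩

/-! ### Strain -/

lemma Strain.scale {S : Set Pl} {a X Y u D1 D2 d : Pl → ℝ} (h : Strain S a X Y u D1 D2 d)
    (hD1 : Sm D1) (hD2 : Sm D2) (hd : Sm d) (c : ℝ) :
    Strain S (fun z => c * a z) X Y u (fun z => c * D1 z) (fun z => c * D2 z)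
      (fun z => c * d z) where
  s11 := fun z hz => by
    rw [dx_cmul c (Sm.diff hD1 z), dx_cmul c (Sm.diff hD2 z), dx_cmul c (Sm.diff hd z)]
    linear_combination c * h.s11 z hz
  s12 := fun z hz => by
    rw [dx_cmul c (Sm.diff hD1 z), dx_cmul c (Sm.diff hD2 z), dx_cmul c (Sm.diff hd z),
      dy_cmul c (Sm.diff hD1 z), dy_cmul c (Sm.diff hD2 z), dy_cmul c (Sm.diff hd z)]
    linear_combination c * h.s12 z hz
  s22 := fun z hz => by
    rw [dy_cmul c (Sm.diff hD1 z), dy_cmul c (Sm.diff hD2 z), dy_cmul c (Sm.diff hd z)]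
    linear_combination c * h.s22 z hz

lemma strain_of_pair {h1 h2 h2' X1 Y1 Z1 X2 Y2 Z2 X Y u : Pl → ℝ} {A1 : ℝ} (hA1 : A1 ≠ 0)
    (sX1 : Sm X1) (sY1 : Sm Y1) (sZ1 : Sm Z1) (sX2 : Sm X2) (sY2 : Sm Y2) (sZ2 : Sm Z2)
    (i1 : IsoOn (sq 1) h1 h2 X1 Y1 Z1) (i2 : IsoOn (sq 1) h1 h2' X2 Y2 Z2)
    (hav : ∀ z ∈ sq (95/100), X z = (X1 z + X2 z) / 2 ∧ Y z = (Y1 z + Y2 z) / 2 ∧
          u z = (Z1 z + Z2 z) / (2 * A1)) :
    Strain (sq (9/10)) (fun z => h2 z - h2' z) X Y u (fun z => X1 z - X2 z)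
      (fun z => Y1 z - Y2 z) (fun z => A1 * (Z1 z - Z2 z)) := by
  have key : ∀ z ∈ sq (9/10), (dx X z = (dx X1 z + dx X2 z) / 2 ∧ dy X z = (dy X1 z + dy X2 z) / 2)
      ∧ (dx Y z = (dx Y1 z + dx Y2 z) / 2 ∧ dy Y z = (dy Y1 z + dy Y2 z) / 2)
      ∧ (dx u z = (dx Z1 z + dx Z2 z) / (2 * A1) ∧ dy u z = (dy Z1 z + dy Z2 z) / (2 * A1)) := by
    intro z hz
    have hn : sq (95/100) ∈ nhds z := sq_mem_nhds (by norm_num) hz
    have e1 : X =ᶠ[nhds z] fun z => (1/2) * (X1 z + X2 z) := by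
      filter_upwards [hn] with w hw; rw [(hav w hw).1]; ring
    have e2 : Y =ᶠ[nhds z] fun z => (1/2) * (Y1 z + Y2 z) := by
      filter_upwards [hn] with w hw; rw [(hav w hw).2.1]; ring
    have e3 : u =ᶠ[nhds z] fun z => (1/(2*A1)) * (Z1 z + Z2 z) := by
      filter_upwards [hn] with w hw; rw [(hav w hw).2.2]; ring
    have dX1 := Sm.diff sX1 z
    have dX2 := Sm.diff sX2 z
    have dY1 := Sm.diff sY1 z
    have dY2 := Sm.diff sY2 z
    have dZ1 := Sm.diff sZ1 z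
    have dZ2 := Sm.diff sZ2 z
    refine ⟨⟨?_, ?_⟩, ⟨?_, ?_⟩, ⟨?_, ?_⟩⟩
    · rw [dx_congr e1, dx_cmul _ (dX1.fun_add dX2), dx_add dX1 dX2]; ring
    · rw [dy_congr e1, dy_cmul _ (dX1.fun_add dX2), dy_add dX1 dX2]; ring
    · rw [dx_congr e2, dx_cmul _ (dY1.fun_add dY2), dx_add dY1 dY2]; ring
    · rw [dy_congr e2, dy_cmul _ (dY1.fun_add dY2), dy_add dY1 dY2]; ring
    · rw [dx_congr e3, dx_cmul _ (dZ1.fun_add dZ2), dx_add dZ1 dZ2]; ring
    · rw [dy_congr e3, dy_cmul _ (dZ1.fun_add dZ2), dy_add dZ1 dZ2]; ring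
  have hdd : ∀ z, dx (fun z => A1 * (Z1 z - Z2 z)) z = A1 * (dx Z1 z - dx Z2 z) ∧
      dy (fun z => A1 * (Z1 z - Z2 z)) z = A1 * (dy Z1 z - dy Z2 z) := by
    intro z
    have dZ1 := Sm.diff sZ1 z
    have dZ2 := Sm.diff sZ2 z
    constructor
    · rw [dx_cmul _ (dZ1.fun_sub dZ2), dx_sub dZ1 dZ2]
    · rw [dy_cmul _ (dZ1.fun_sub dZ2), dy_sub dZ1 dZ2]
  have hsub : ∀ z ∈ sq (9/10), z ∈ sq 1 := fun z hz => sq_mono (by norm_num) hz
  constructor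
  · intro z hz
    obtain ⟨⟨a1, a2⟩, ⟨b1, b2⟩, ⟨c1, c2⟩⟩ := key z hz
    rw [(hdd z).1, dx_sub (Sm.diff sX1 z) (Sm.diff sX2 z), dx_sub (Sm.diff sY1 z) (Sm.diff sY2 z),
      a1, b1, c1]
    have e1 := i1.g11 z (hsub z hz)
    have e2 := i2.g11 z (hsub z hz)
    field_simp
    linear_combination (e1 - e2)
  · intro z hz
    obtain ⟨⟨a1, a2⟩, ⟨b1, b2⟩, ⟨c1, c2⟩⟩ := key z hz
    rw [(hdd z).1, (hdd z).2, dx_sub (Sm.diff sX1 z) (Sm.diff sX2 z),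
      dx_sub (Sm.diff sY1 z) (Sm.diff sY2 z), dy_sub (Sm.diff sX1 z) (Sm.diff sX2 z),
      dy_sub (Sm.diff sY1 z) (Sm.diff sY2 z), a1, a2, b1, b2, c1, c2]
    have e1 := i1.g12 z (hsub z hz)
    have e2 := i2.g12 z (hsub z hz)
    field_simp
    linear_combination 2 * (e1 - e2)
  · intro z hz
    obtain ⟨⟨a1, a2⟩, ⟨b1, b2⟩, ⟨c1, c2⟩⟩ := key z hz
    rw [(hdd z).2, dy_sub (Sm.diff sX1 z) (Sm.diff sX2 z),
      dy_sub (Sm.diff sY1 z) (Sm.diff sY2 z), a2, b2, c2]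
    have e1 := i1.g22 z (hsub z hz)
    have e2 := i2.g22 z (hsub z hz)
    field_simp
    linear_combination (e1 - e2)

/-! ### Bounds for the words -/

lemma exists_Dw_bound {f : Pl → ℝ} (hf : Sm f) (n : ℕ) :
    ∃ B : ℝ, 0 ≤ B ∧ ∀ w : List Bool, w.length ≤ n → ∀ z ∈ sq 1, |Dw w f z| ≤ B := by
  have hfin : {w : List Bool | w.length ≤ n}.Finite := List.finite_length_le Bool n
  have h1 : ∀ w : List Bool, ∃ B : ℝ, ∀ z ∈ sq 1, |Dw w f z| ≤ B := by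
    intro w
    obtain ⟨B, hB⟩ := (isCompact_sq 1).exists_bound_of_continuousOn
      (f := Dw w f) (sm_Dw hf w).continuous.continuousOn
    exact ⟨B, fun z hz => by simpa using hB z hz⟩
  choose B hB using h1
  obtain ⟨M, hM⟩ := (hfin.image B).bddAbove
  refine ⟨max M 0, le_max_right _ _, fun w hw z hz => (hB w z hz).trans ?_⟩
  exact (hM (Set.mem_image_of_mem B hw)).trans (le_max_left _ _)


/-! ### Counting -/

open Filter in
lemma count_eventually (hh : ℝ) (hh0 : 0 < hh) (N0 K0 m : ℕ) :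
    ∀ᶠ n : ℕ in atTop,
      N0 * (K0 * ((m + 1) * n)) ^ (K0 * ((m + 1) * n) ^ 3) < 2 ^ ⌊hh * 2 ^ n⌋₊ := by
  set C : ℕ := (K0 * (m + 1)) * (K0 * (m + 1) ^ 3) with hC
  have t1 : Tendsto (fun n : ℕ => ((n : ℝ) ^ 4) / 2 ^ n) atTop (nhds 0) :=
    tendsto_pow_const_div_const_pow_of_one_lt 4 (by norm_num)
  have t0 : Tendsto (fun n : ℕ => ((n : ℝ) ^ 0) / 2 ^ n) atTop (nhds 0) :=
    tendsto_pow_const_div_const_pow_of_one_lt 0 (by norm_num)
  have t : Tendsto (fun n : ℕ => ((N0 : ℝ) + 1) * (((n : ℝ) ^ 0) / 2 ^ n)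
      + (C : ℝ) * (((n : ℝ) ^ 4) / 2 ^ n)) atTop (nhds 0) := by
    have := (t0.const_mul ((N0 : ℝ) + 1)).add (t1.const_mul (C : ℝ))
    simpa using this
  filter_upwards [t.eventually (gt_mem_nhds hh0)] with n hn
  have h2 : (0 : ℝ) < 2 ^ n := by positivity
  have hle : (((N0 + C * n ^ 4 + 1 : ℕ)) : ℝ) ≤ hh * 2 ^ n := by
    have : ((N0 : ℝ) + 1) * (((n : ℝ) ^ 0) / 2 ^ n) + (C : ℝ) * (((n : ℝ) ^ 4) / 2 ^ n)
        = (((N0 : ℝ) + C * (n : ℝ) ^ 4 + 1)) / 2 ^ n := by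
      field_simp; ring
    rw [this, div_lt_iff₀ h2] at hn
    push_cast
    exact hn.le
  have hfl : N0 + C * n ^ 4 + 1 ≤ ⌊hh * 2 ^ n⌋₊ := Nat.le_floor hle
  calc N0 * (K0 * ((m + 1) * n)) ^ (K0 * ((m + 1) * n) ^ 3)
      ≤ 2 ^ N0 * (2 ^ (K0 * ((m + 1) * n))) ^ (K0 * ((m + 1) * n) ^ 3) := by
        apply Nat.mul_le_mul (Nat.lt_two_pow_self).le
        exact Nat.pow_le_pow_left (Nat.lt_two_pow_self).le _
    _ = 2 ^ (N0 + C * n ^ 4) := by
        rw [← pow_mul, ← pow_add, hC]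
        congr 1
        ring
    _ < 2 ^ ⌊hh * 2 ^ n⌋₊ := Nat.pow_lt_pow_right (by norm_num) (by omega)

/-! ### Patterns -/

/-- the real coefficient sequence of a boolean vector -/
noncomputable def cf {J : ℕ} (g : Fin J → Bool) (j : ℕ) : ℝ :=
  if h : j < J then (if g ⟨j, h⟩ then 1 else 0) else 0

lemma cf_abs {J : ℕ} (g : Fin J → Bool) (j : ℕ) : |cf g j| ≤ 1 := by
  unfold cf; split_ifs <;> simp

lemma cf_sub_mem {J : ℕ} (g g' : Fin J → Bool) (j : ℕ) :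
    cf g j - cf g' j = 0 ∨ cf g j - cf g' j = 1 ∨ cf g j - cf g' j = -1 := by
  unfold cf; split_ifs <;> simp

lemma cf_ne {J : ℕ} {g g' : Fin J → Bool} (h : g ≠ g') :
    ∃ j < J, cf g j - cf g' j ≠ 0 := by
  obtain ⟨j, hj⟩ := Function.ne_iff.1 h
  refine ⟨j, j.2, ?_⟩
  unfold cf
  rw [dif_pos j.2, dif_pos j.2]
  cases h1 : g ⟨j, j.2⟩ <;> cases h2 : g' ⟨j, j.2⟩ <;> simp_all

lemma pat_sub (ξ : ℝ) (J : ℕ) (σ σ' : ℕ → ℝ) (z : Pl) :
    pat ξ J σ z - pat ξ J σ' z = pat ξ J (fun j => σ j - σ' j) z := by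
  unfold pat
  rw [← Finset.sum_sub_distrib]
  exact Finset.sum_congr rfl fun j _ => by ring


open Filter in
lemma inv_two_pow_eventually {a : ℝ} (ha : 0 < a) : ∀ᶠ n : ℕ in atTop, 1 / (2 : ℝ) ^ n ≤ a := by
  have : Tendsto (fun n : ℕ => ((n : ℝ) ^ 0) / 2 ^ n) atTop (nhds 0) :=
    tendsto_pow_const_div_const_pow_of_one_lt 0 (by norm_num)
  filter_upwards [this.eventually (gt_mem_nhds ha)] with n hn
  simpa using hn.le

/-- The core theorem from its components. -/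
theorem core_of (hobs : PairObs) (hcacc : PairCacc) (hpig : Pigeon) (hcl : ClassPigeon)
    (havg : AvgFrame) (hmet : MetricCut) (hpb : PatBound) (hps : PatSmooth) (hsupp : PatSupp)
    (hdw : DwLe) : Core := by
  obtain ⟨ηo, δs, c0, hηo, hδs, hc0, hobs⟩ := hobs
  obtain ⟨ηc, Cc, hηc, hCc, hcacc⟩ := hcacc
  obtain ⟨η1, δ1, hη1, hδ1, havg⟩ := havg (min ηo ηc) (lt_min hηo hηc)
  obtain ⟨W, sW, hWin, hWout, hWb⟩ := hmet
  refine ⟨min η1 (1/2), lt_min hη1 (by norm_num), ?_⟩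
  intro A0 hA0 N ε hε
  obtain ⟨CW, hCW, hWb⟩ := hWb N
  -- choice of `δ`
  obtain ⟨δ, hδ, hδ_1, hδ_W, hδ_s, hδ_A⟩ : ∃ δ : ℝ, 0 < δ ∧ δ ≤ δ1 ∧ δ * CW ≤ ε / 2 ∧
      δ / A0 ^ 2 ≤ δs ∧ δ / A0 ^ 2 ≤ 1 := by
    have hA2 : 0 < A0 ^ 2 := by positivity
    refine ⟨min (min δ1 (ε / (2 * CW))) (min (δs * A0 ^ 2) (A0 ^ 2)), ?_, ?_, ?_, ?_, ?_⟩
    · refine lt_min (lt_min hδ1 (by positivity)) (lt_min (by positivity) hA2)
    · exact (min_le_left _ _).trans (min_le_left _ _)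
    · have h : min (min δ1 (ε / (2 * CW))) (min (δs * A0 ^ 2) (A0 ^ 2)) ≤ ε / (2 * CW) :=
        (min_le_left _ _).trans (min_le_right _ _)
      calc _ ≤ ε / (2 * CW) * CW := mul_le_mul_of_nonneg_right h hCW.le
        _ = ε / 2 := by field_simp
    · rw [div_le_iff₀ hA2]
      exact (min_le_right _ _).trans (min_le_left _ _)
    · rw [div_le_iff₀ hA2, one_mul]
      exact (min_le_right _ _).trans (min_le_right _ _)
  obtain ⟨ε0, ε1, hε0, hε1, havg⟩ := havg δ A0 hδ hδ_1 hA0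
  obtain ⟨K0, hK0⟩ := hpig (max 1 (Cc / δ)) (le_max_left _ _)
  obtain ⟨B1, hB1, hB1'⟩ := exists_Dw_bound (f := fun z : Pl => z.1) contDiff_fst 4
  obtain ⟨B2, hB2, hB2'⟩ := exists_Dw_bound (f := fun z : Pl => z.2) contDiff_snd 4
  obtain ⟨B3, hB3, hB3'⟩ := exists_Dw_bound (f := fun z : Pl => z.1 ^ 2 / 2)
    ((contDiff_fst.pow 2).div_const 2) 4
  obtain ⟨N0, hN0, hcl⟩ := hcl (1 + B1 + B2 + B3) ε0 hε0
  obtain ⟨Cp, hCp, hpb⟩ := hpb (max N 3)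
  obtain ⟨m, hm⟩ : ∃ m : ℕ, m = N + 6 := ⟨_, rfl⟩
  have hsδ : 0 < Real.sqrt δ := Real.sqrt_pos.2 hδ
  obtain ⟨hh, hhh, hhdef1, hhdef2⟩ : ∃ hh : ℝ, 0 < hh ∧ hh ≤ 1 / 4 ∧ hh ≤ c0 * Real.sqrt δ / 2 :=
    ⟨min (1/4) (c0 * Real.sqrt δ / 2), lt_min (by norm_num) (by positivity), min_le_left _ _,
      min_le_right _ _⟩
  -- choice of `n`
  have hK0ev : ∀ᶠ n : ℕ in Filter.atTop, (K0 : ℝ) * (1 / 4 : ℝ) ^ n < c0 := by
    have : Filter.Tendsto (fun n : ℕ => (K0 : ℝ) * (1 / 4 : ℝ) ^ n) Filter.atTop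
        (nhds ((K0 : ℝ) * 0)) :=
      (tendsto_pow_atTop_nhds_zero_of_lt_one (by norm_num) (by norm_num)).const_mul _
    rw [mul_zero] at this
    exact this.eventually (gt_mem_nhds hc0)
  obtain ⟨n, ⟨⟨⟨⟨⟨e1, e2⟩, e3⟩, e4⟩, e5⟩, e6⟩, e7⟩ :=
    ((((((inv_two_pow_eventually (show 0 < c0 * Real.sqrt δ / 2 by positivity)).and
      (inv_two_pow_eventually (show (0:ℝ) < 1 / 4 by norm_num))).and
      (inv_two_pow_eventually (show 0 < ε1 / Cp by positivity))).and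
      (inv_two_pow_eventually (show 0 < ε / 2 / Cp by positivity))).and hK0ev).and
      (count_eventually hh hhh N0 K0 m)).and (Filter.eventually_ge_atTop 1) |>.exists
  obtain ⟨ξ, hξdef⟩ : ∃ ξ : ℝ, ξ = 2 ^ n := ⟨_, rfl⟩
  rw [← hξdef] at e1 e2 e3 e4 e6
  have hξ1 : 1 ≤ ξ := by rw [hξdef]; exact one_le_pow₀ (by norm_num)
  have hξ0 : 0 < ξ := by linarith
  obtain ⟨s, hsdef⟩ : ∃ s : ℝ, s = (ξ ^ m)⁻¹ := ⟨_, rfl⟩
  have hs0 : 0 < s := by rw [hsdef]; positivity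
  obtain ⟨J, hJdef⟩ : ∃ J : ℕ, J = ⌊hh * ξ⌋₊ := ⟨_, rfl⟩
  rw [← hJdef] at e6
  have hJ : (J : ℝ) ≤ hh * ξ := by rw [hJdef]; exact Nat.floor_le (by positivity)
  have hJξ : (J : ℝ) ≤ ξ := hJ.trans (by nlinarith)
  obtain ⟨T, hT⟩ : ∃ T : ℕ, T = (m + 1) * n := ⟨_, rfl⟩
  rw [← hT] at e6
  have hT1 : 1 ≤ T := by rw [hT]; exact Nat.mul_pos (by omega) e7
  -- power bounds
  have hspow : ∀ k : ℕ, k ≤ max N 3 → s * (Cp * ξ ^ (k + 1)) ≤ Cp * (1 / ξ) := by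
    intro k hk
    have hk2 : k + 1 + 1 ≤ m := by
      rw [hm]; rcases le_total N 3 with h | h
      · rw [max_eq_right h] at hk; omega
      · rw [max_eq_left h] at hk; omega
    have h1 : ξ ^ (k + 1) * ξ ≤ ξ ^ m := by
      rw [← pow_succ]; exact pow_le_pow_right₀ hξ1 hk2
    rw [hsdef]
    have h2 : (ξ ^ m)⁻¹ * ξ ^ (k + 1) ≤ 1 / ξ := by
      rw [inv_mul_eq_div, div_le_div_iff₀ (by positivity) hξ0]
      linarith
    calc (ξ ^ m)⁻¹ * (Cp * ξ ^ (k + 1)) = Cp * ((ξ ^ m)⁻¹ * ξ ^ (k + 1)) := by ring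
      _ ≤ Cp * (1 / ξ) := mul_le_mul_of_nonneg_left h2 hCp.le
  have e3' : Cp * (1 / ξ) ≤ ε1 := by
    calc Cp * (1 / ξ) ≤ Cp * (ε1 / Cp) := mul_le_mul_of_nonneg_left e3 hCp.le
      _ = ε1 := by field_simp
  have e4' : Cp * (1 / ξ) ≤ ε / 2 := by
    calc Cp * (1 / ξ) ≤ Cp * (ε / 2 / Cp) := mul_le_mul_of_nonneg_left e4 hCp.le
      _ = ε / 2 := by field_simp
  -- support of the patterns
  have hsup : ∀ (σ : ℕ → ℝ) (z : Pl), pat ξ J σ z ≠ 0 → |z.1| < 6/10 ∧ |z.2| < 6/10 := by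
    intro σ z hz
    obtain ⟨h1, h2⟩ := hsupp ξ hξ1 J σ z hz
    constructor
    · have : ((J : ℝ) + 1) / ξ ≤ 1/4 + 1/4 := by
        rw [add_div]
        have : (J : ℝ) / ξ ≤ hh := by rw [div_le_iff₀ hξ0]; exact hJ
        linarith
      linarith
    · have : 1 / (4 * ξ) ≤ 1 / 4 := by
        apply one_div_le_one_div_of_le (by norm_num); linarith
      linarith
  -- the family
  obtain ⟨h1, hh1⟩ : ∃ h1 : Pl → ℝ, h1 = fun z => δ * W z := ⟨_, rfl⟩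
  obtain ⟨h2, hh2⟩ : ∃ h2 : (Fin J → Bool) → Pl → ℝ,
    h2 = fun g z => δ * W z + s * pat ξ J (cf g) z := ⟨_, rfl⟩
  have sh1 : Sm h1 := by rw [hh1]; exact contDiff_const.mul sW
  have sh2 : ∀ g, Sm (h2 g) := by
    intro g; rw [hh2]; exact (contDiff_const.mul sW).add (contDiff_const.mul (hps _ _ _))
  have hout : ∀ g, ∀ z, z ∉ sq (99/100) → h1 z = 0 ∧ h2 g z = 0 := by
    intro g z hz
    have hp : pat ξ J (cf g) z = 0 := by
      by_contra hne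
      obtain ⟨a, b⟩ := hsup _ _ hne
      exact hz ⟨by linarith, by linarith⟩
    rw [hh1, hh2]
    simp [hWout z hz, hp]
  have hnW : ∀ k ≤ N, ∀ z, ‖iteratedFDeriv ℝ k (fun z => δ * W z) z‖ ≤ ε / 2 := by
    intro k hk z
    have : (fun z => δ * W z) = δ • W := rfl
    rw [this, iteratedFDeriv_const_smul_apply (sW.of_le (by exact_mod_cast le_top)).contDiffAt,
      norm_smul, Real.norm_of_nonneg hδ.le]
    exact (mul_le_mul_of_nonneg_left (hWb k hk z) hδ.le).trans hδ_W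
  have hnP : ∀ (σ : ℕ → ℝ), (∀ j, |σ j| ≤ 1) → ∀ k ≤ max N 3, ∀ z,
      ‖iteratedFDeriv ℝ k (fun z => s * pat ξ J σ z) z‖ ≤ Cp * (1 / ξ) := by
    intro σ hσ k hk z
    have : (fun z => s * pat ξ J σ z) = s • pat ξ J σ := rfl
    rw [this, iteratedFDeriv_const_smul_apply
      ((hps ξ J σ).of_le (by exact_mod_cast le_top)).contDiffAt, norm_smul,
      Real.norm_of_nonneg hs0.le]
    exact (mul_le_mul_of_nonneg_left (hpb ξ J σ hξ1 hJξ hσ k hk z) hs0.le).trans (hspow k hk)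
  have hbd : ∀ g, ∀ k ≤ N, ∀ z, ‖iteratedFDeriv ℝ k h1 z‖ ≤ ε ∧
      ‖iteratedFDeriv ℝ k (h2 g) z‖ ≤ ε := by
    intro g k hk z
    refine ⟨?_, ?_⟩
    · rw [hh1]; linarith [hnW k hk z]
    · have e : h2 g = (fun z => δ * W z) + fun z => s * pat ξ J (cf g) z := by rw [hh2]; rfl
      rw [e, iteratedFDeriv_add_apply]
      · refine (norm_add_le _ _).trans ?_
        have := hnP (cf g) (cf_abs g) k (hk.trans (le_max_left _ _)) z
        linarith [hnW k hk z]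
      · exact ((contDiff_const.mul sW).of_le (by exact_mod_cast le_top)).contDiffAt
      · exact ((contDiff_const.mul (hps ξ J (cf g))).of_le (by exact_mod_cast le_top)).contDiffAt
  -- contradiction hypothesis
  by_contra hcon
  have hsol : ∀ g : Fin J → Bool, ∃ (A : ℝ) (X Y Z : Pl → ℝ), A0 ≤ A ∧ A ≤ 1 ∧
      NearCylLoc (min η1 (1/2)) A X Y Z ∧ IsoOn (sq 1) h1 (h2 g) X Y Z := by
    intro g
    by_contra hg
    exact hcon ⟨h1, h2 g, sh1, sh2 g, hout g, hbd g, fun A X Y Z a1 a2 c i =>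
      hg ⟨A, X, Y, Z, a1, a2, c, i⟩⟩
  choose A X Y Z hA0' hA1' hcyl hiso using hsol
  have hApos : ∀ g, 0 < A g := fun g => lt_of_lt_of_le hA0 (hA0' g)
  -- classes
  obtain ⟨S, hScard, hS⟩ := hcl (Fin J → Bool) (fun g => ![X g, Y g, Z g])
    (by
      intro g k
      fin_cases k
      · exact (hcyl g).smX
      · exact (hcyl g).smY
      · exact (hcyl g).smZ)
    (by
      intro g k w hw z hz
      have hmin : min η1 (1/2) ≤ 1/2 := min_le_right _ _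
      fin_cases k
      · have h := (hcyl g).clX w hw z hz
        rw [Dw_sub (hcyl g).smX contDiff_fst w] at h
        have h' := hB1' w hw z hz
        show |Dw w (X g) z| ≤ _
        have := abs_sub_abs_le_abs_sub (Dw w (X g) z) (Dw w (fun z : Pl => z.1) z)
        linarith
      · have h := (hcyl g).clY w hw z hz
        rw [Dw_sub (hcyl g).smY contDiff_snd w] at h
        have h' := hB2' w hw z hz
        show |Dw w (Y g) z| ≤ _
        have := abs_sub_abs_le_abs_sub (Dw w (Y g) z) (Dw w (fun z : Pl => z.2) z)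
        linarith
      · have h := (hcyl g).clZ w hw z hz
        have sq2 : Sm (fun z : Pl => z.1 ^ 2 / 2) := (contDiff_fst.pow 2).div_const 2
        have e : (fun z : Pl => Z g z - A g * z.1 ^ 2 / 2) =
            fun z : Pl => Z g z - A g * (z.1 ^ 2 / 2) := by funext z; ring
        rw [e, Dw_sub (hcyl g).smZ (contDiff_const.mul sq2) w] at h
        have h2 : |Dw w (fun z : Pl => A g * (z.1 ^ 2 / 2)) z| ≤ B3 := by
          rw [Dw_cmul sq2 (A g) w z, abs_mul, abs_of_pos (hApos g)]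
          calc A g * |Dw w (fun z : Pl => z.1 ^ 2 / 2) z| ≤ 1 * B3 :=
            mul_le_mul (hA1' g) (hB3' w hw z hz) (abs_nonneg _) (by norm_num)
            _ = B3 := one_mul _
        show |Dw w (Z g) z| ≤ _
        have := abs_sub_abs_le_abs_sub (Dw w (Z g) z) (Dw w (fun z : Pl => A g * (z.1 ^ 2 / 2)) z)
        have h3 : min η1 (1/2) * A g ≤ 1/2 * 1 :=
          mul_le_mul hmin (hA1' g) (hApos g).le (by norm_num)
        linarith)
  have hcardι : Fintype.card (Fin J → Bool) = 2 ^ J := by simp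
  rw [hcardι] at hScard
  have hcount : (K0 * T) ^ (K0 * T ^ 3) < S.card := by
    have := lt_of_lt_of_le e6 hScard
    exact Nat.lt_of_mul_lt_mul_left this
  -- pairs
  have hpair : ∀ i ∈ S, ∀ j ∈ S, ∃ Xa Ya ua : Pl → ℝ, NearCyl (min ηo ηc) Xa Ya ua ∧
      KapClose (min ηo ηc) (δ / A i ^ 2) (kapf Xa Ya ua) ∧
      Strain (sq (9/10)) (fun z => s * pat ξ J (fun k => cf i k - cf j k) z) Xa Ya ua
        (fun z => X i z - X j z) (fun z => Y i z - Y j z)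
        (fun z => A i * (Z i z - Z j z)) := by
    intro i hi j hj
    obtain ⟨Xa, Ya, ua, c1, c2, c3⟩ := havg (A i) (A j) (hA0' i) (hA1' i) (hA0' j) (hA1' j)
      h1 (h2 i) (X i) (Y i) (Z i) (X j) (Y j) (Z j) sh1 (sh2 i)
      (NearCylLoc.mono (hcyl i) (hApos i).le (min_le_left _ _))
      (NearCylLoc.mono (hcyl j) (hApos j).le (min_le_left _ _)) (hiso i)
      (by
        intro w hw z hz
        have hn : sq (97/100) ∈ nhds z := sq_mem_nhds (by norm_num) hz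
        constructor
        · have : (fun z => h1 z - δ * w0 z) =ᶠ[nhds z] fun _ => 0 := by
            filter_upwards [hn] with y hy
            rw [hh1]; simp [hWin y hy]
          rw [Dw_zero_of_ev w this]; simpa using hε1.le
        · have : (fun z => h2 i z - δ * w0 z) =ᶠ[nhds z] fun z => s * pat ξ J (cf i) z := by
            filter_upwards [hn] with y hy
            rw [hh2]; simp [hWin y hy]
          rw [(Dw_congr_ev w this).eq_of_nhds]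
          have hsm : Sm (fun z => s * pat ξ J (cf i) z) := contDiff_const.mul (hps _ _ _)
          exact ((hdw _ hsm w z).trans (hnP (cf i) (cf_abs i) _
            (hw.trans (le_max_right _ _)) z)).trans e3')
      (by
        intro w hw z hz
        refine ⟨?_, ?_, ?_⟩
        · simpa using hS i hi j hj 0 w hw z hz
        · simpa using hS i hi j hj 1 w hw z hz
        · simpa using hS i hi j hj 2 w hw z hz)
    refine ⟨Xa, Ya, ua, c1, c3, ?_⟩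
    have hst := strain_of_pair (hApos i).ne' (hcyl i).smX (hcyl i).smY (hcyl i).smZ (hcyl j).smX
      (hcyl j).smY (hcyl j).smZ (hiso i) (hiso j) c2
    have e : (fun z => h2 i z - h2 j z) =
        fun z => s * pat ξ J (fun k => cf i k - cf j k) z := by
      funext z
      rw [← pat_sub, hh2]; ring
    rwa [e] at hst
  -- comparison of the parameters
  have hδ'pos : ∀ i, 0 < δ / A i ^ 2 := fun i => by have := hApos i; positivity
  have hδ'le : ∀ i, δ / A i ^ 2 ≤ δ / A0 ^ 2 := fun i => by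
    apply div_le_div_of_nonneg_left hδ.le (by positivity)
    exact pow_le_pow_left₀ hA0.le (hA0' i) 2
  have hδ'ge : ∀ i, δ ≤ δ / A i ^ 2 := fun i => by
    rw [le_div_iff₀ (by have := hApos i; positivity)]
    have : A i ^ 2 ≤ 1 := pow_le_one₀ (hApos i).le (hA1' i)
    nlinarith
  have sZd : ∀ i j, Sm (fun z => Z i z - Z j z) := fun i j => (hcyl i).smZ.sub (hcyl j).smZ
  -- apply the pigeonhole
  obtain ⟨i, j, hij, hint⟩ := hK0 T hT1 S (fun i => Z i.1) (fun i => (hcyl i.1).smZ)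
    (by
      intro i z hz
      have h := (hcyl i.1).clZ [] (by simp) z hz
      simp only [Dw] at h
      have hmin : min η1 (1/2) ≤ 1/2 := min_le_right _ _
      have h3 : min η1 (1/2) * A i.1 ≤ 1/2 * 1 :=
        mul_le_mul hmin (hA1' _) (hApos _).le (by norm_num)
      have h4 : |A i.1 * z.1 ^ 2 / 2| ≤ 1 / 2 := by
        have hz1 : z.1 ^ 2 ≤ 1 := by
          have := hz.1
          rw [← sq_abs]; exact pow_le_one₀ (abs_nonneg _) this
        have h5 : 0 ≤ A i.1 * z.1 ^ 2 := by have := hApos i.1; positivity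
        have h6 : A i.1 * z.1 ^ 2 ≤ 1 * 1 :=
          mul_le_mul (hA1' _) hz1 (by positivity) (by norm_num)
        rw [abs_of_nonneg (by positivity)]; linarith
      have := abs_sub_abs_le_abs_sub (Z i.1 z) (A i.1 * z.1 ^ 2 / 2)
      linarith)
    (by
      intro i j χ sχ hχ
      by_cases hij : i = j
      · subst hij
        simp [dx, dy]
      · obtain ⟨Xa, Ya, ua, c1, c2, c3⟩ := hpair i.1 i.2 j.1 j.2
        have hne : i.1 ≠ j.1 := fun h => hij (Subtype.ext h)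
        have hca := hcacc (δ / A i.1 ^ 2) (hδ'pos _) ((hδ'le _).trans hδ_A) _ Xa Ya ua _ _ _
          (NearCyl.mono c1 (min_le_right _ _)) ((hcyl i.1).smX.sub (hcyl j.1).smX)
          ((hcyl i.1).smY.sub (hcyl j.1).smY) (contDiff_const.mul (sZd i.1 j.1))
          (KapClose.mono c2 (hδ'pos _).le (min_le_right _ _)) c3
          (by
            intro z hz
            have : pat ξ J (fun k => cf i.1 k - cf j.1 k) z = 0 := by
              by_contra hne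
              exact hz.2 (hsup _ _ hne)
            rw [this, mul_zero]) χ sχ hχ
        have eL : (fun z => χ z ^ 2 * (dx (fun z => A i.1 * (Z i.1 z - Z j.1 z)) z ^ 2
            + dy (fun z => A i.1 * (Z i.1 z - Z j.1 z)) z ^ 2)) =
            fun z => A i.1 ^ 2 * (χ z ^ 2 * (dx (fun z => Z i.1 z - Z j.1 z) z ^ 2
              + dy (fun z => Z i.1 z - Z j.1 z) z ^ 2)) := by
          funext z
          rw [dx_cmul _ (Sm.diff (sZd i.1 j.1) z), dy_cmul _ (Sm.diff (sZd i.1 j.1) z)]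
          ring
        have eR : (fun z => (dx χ z ^ 2 + dy χ z ^ 2) * (A i.1 * (Z i.1 z - Z j.1 z)) ^ 2) =
            fun z => A i.1 ^ 2 * ((dx χ z ^ 2 + dy χ z ^ 2) * (Z i.1 z - Z j.1 z) ^ 2) := by
          funext z; ring
        rw [eL, eR, integral_const_mul, integral_const_mul] at hca
        have hA2 : 0 < A i.1 ^ 2 := by have := hApos i.1; positivity
        have hRnn : 0 ≤ ∫ z, (dx χ z ^ 2 + dy χ z ^ 2) * (Z i.1 z - Z j.1 z) ^ 2 :=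
          integral_nonneg fun z => by positivity
        have hca2 : ∫ z, χ z ^ 2 * (dx (fun z => Z i.1 z - Z j.1 z) z ^ 2
              + dy (fun z => Z i.1 z - Z j.1 z) z ^ 2) ≤
            (Cc / (δ / A i.1 ^ 2)) * ∫ z, (dx χ z ^ 2 + dy χ z ^ 2) *
              (Z i.1 z - Z j.1 z) ^ 2 := by
          have : A i.1 ^ 2 * ∫ z, χ z ^ 2 * (dx (fun z => Z i.1 z - Z j.1 z) z ^ 2
              + dy (fun z => Z i.1 z - Z j.1 z) z ^ 2) ≤
            A i.1 ^ 2 * ((Cc / (δ / A i.1 ^ 2)) * ∫ z, (dx χ z ^ 2 + dy χ z ^ 2) *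
              (Z i.1 z - Z j.1 z) ^ 2) := by
            refine hca.trans (le_of_eq ?_); ring
          exact le_of_mul_le_mul_left this hA2
        refine hca2.trans (mul_le_mul_of_nonneg_right ?_ hRnn)
        refine le_trans ?_ (le_max_right _ _)
        exact div_le_div_of_nonneg_left hCc.le hδ (hδ'ge _))
    (by simpa using hcount)
  -- final contradiction
  have hne : i.1 ≠ j.1 := fun h => hij (Subtype.ext h)
  obtain ⟨Xa, Ya, ua, c1, c2, c3⟩ := hpair i.1 i.2 j.1 j.2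
  have c4 := Strain.scale c3 ((hcyl i.1).smX.sub (hcyl j.1).smX)
    ((hcyl i.1).smY.sub (hcyl j.1).smY) (contDiff_const.mul (sZd i.1 j.1)) s⁻¹
  have e : (fun z => s⁻¹ * (s * pat ξ J (fun k => cf i.1 k - cf j.1 k) z)) =
      pat ξ J (fun k => cf i.1 k - cf j.1 k) := by
    funext z; field_simp
  rw [e] at c4
  have hfin := hobs (δ / A i.1 ^ 2) ξ hh (hδ'pos _) ((hδ'le _).trans hδ_s) hξ1 hhh
    (by
      have : Real.sqrt δ ≤ Real.sqrt (δ / A i.1 ^ 2) := Real.sqrt_le_sqrt (hδ'ge _)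
      have h2 : c0 * Real.sqrt δ ≤ c0 * Real.sqrt (δ / A i.1 ^ 2) :=
        mul_le_mul_of_nonneg_left this hc0.le
      linarith)
    J _ (fun k => cf_sub_mem i.1 j.1 k) (cf_ne hne) hJ Xa Ya ua _ _ _
    (NearCyl.mono c1 (min_le_left _ _))
    (contDiff_const.mul ((hcyl i.1).smX.sub (hcyl j.1).smX))
    (contDiff_const.mul ((hcyl i.1).smY.sub (hcyl j.1).smY))
    (contDiff_const.mul (contDiff_const.mul (sZd i.1 j.1)))
    (KapClose.mono c2 (hδ'pos _).le (min_le_left _ _)) c4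
  have eF : (fun z => (s⁻¹ * (A i.1 * (Z i.1 z - Z j.1 z))) ^ 2
      + dx (fun z => s⁻¹ * (A i.1 * (Z i.1 z - Z j.1 z))) z ^ 2
      + dy (fun z => s⁻¹ * (A i.1 * (Z i.1 z - Z j.1 z))) z ^ 2) =
      fun z => (s⁻¹ * A i.1) ^ 2 * ((Z i.1 z - Z j.1 z) ^ 2
        + dx (fun z => Z i.1 z - Z j.1 z) z ^ 2 + dy (fun z => Z i.1 z - Z j.1 z) z ^ 2) := by
    funext z
    have e1 : (fun z => s⁻¹ * (A i.1 * (Z i.1 z - Z j.1 z))) =
        fun z => (s⁻¹ * A i.1) * (Z i.1 z - Z j.1 z) := by funext z; ring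
    rw [e1, dx_cmul _ (Sm.diff (sZd i.1 j.1) z), dy_cmul _ (Sm.diff (sZd i.1 j.1) z)]
    ring
  rw [eF, integral_const_mul] at hfin
  have hs2 : (s⁻¹) ^ 2 * (K0 * (1 / 4 : ℝ) ^ T) = K0 * (1/4 : ℝ) ^ n := by
    have h4 : ξ ^ 2 = 4 ^ n := by
      rw [hξdef, ← pow_mul, mul_comm n 2, pow_mul]; norm_num
    have h5 : (s⁻¹) ^ 2 = 4 ^ (m * n) := by
      rw [hsdef, inv_inv, ← pow_mul, mul_comm m 2, pow_mul, h4, ← pow_mul, mul_comm n m]
    rw [h5, hT, add_mul, one_mul, pow_add]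
    have h6 : (4 : ℝ) ^ (m * n) * (1 / 4) ^ (m * n) = 1 := by
      rw [← mul_pow]; norm_num
    linear_combination (K0 : ℝ) * (1/4 : ℝ) ^ n * h6
  have hI : (s⁻¹ * A i.1) ^ 2 * ∫ z in frame (7/10) (8/10), ((Z i.1 z - Z j.1 z) ^ 2
        + dx (fun z => Z i.1 z - Z j.1 z) z ^ 2 + dy (fun z => Z i.1 z - Z j.1 z) z ^ 2)
      ≤ K0 * (1/4 : ℝ) ^ n := by
    rw [← hs2, mul_pow, mul_assoc]
    apply mul_le_mul_of_nonneg_left _ (by positivity)
    have hA2 : A i.1 ^ 2 ≤ 1 := pow_le_one₀ (hApos _).le (hA1' _)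
    have hInn : 0 ≤ ∫ z in frame (7/10) (8/10), ((Z i.1 z - Z j.1 z) ^ 2
        + dx (fun z => Z i.1 z - Z j.1 z) z ^ 2 + dy (fun z => Z i.1 z - Z j.1 z) z ^ 2) :=
      integral_nonneg fun z => by positivity
    calc _ ≤ 1 * ∫ z in frame (7/10) (8/10), ((Z i.1 z - Z j.1 z) ^ 2
        + dx (fun z => Z i.1 z - Z j.1 z) z ^ 2 + dy (fun z => Z i.1 z - Z j.1 z) z ^ 2) :=
          mul_le_mul_of_nonneg_right hA2 hInn
      _ ≤ _ := by rw [one_mul]; exact hint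
  have : c0 * 1 ≤ c0 * ξ := mul_le_mul_of_nonneg_left hξ1 hc0.le
  linarith

end Crest.Agent.R220.CoreAux
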