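import Mathlib

/-!
# Row 220 (S0341): definitions for the top part, in `EuclideanSpace`
(exactly as in `Skeleton.lean`)
-/

set_option autoImplicit false

open scoped ContDiff

namespace Crest.Agent.R220

abbrev E2 : Type := EuclideanSpace ℝ (Fin 2)
abbrev E3 : Type := EuclideanSpace ℝ (Fin 3)

/-- `F` is isometric for the metric `⟪v,w⟫ + h x v w` on `S` -/
def IsoE (S : Set E2) (h : E2 → (E2 →L[ℝ] E2 →L[ℝ] ℝ)) (F : E2 → E3) : Prop :=
  ∀ x ∈ S, ∀ v w : E2, @inner ℝ E3 _ (fderiv ℝ F x v) (fderiv ℝ F x w)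
    = @inner ℝ E2 _ v w + h x v w

/-- second derivative of `F` at `x` in directions `v`, `w` -/
noncomputable def D2 (F : E2 → E3) (x v w : E2) : E3 := fderiv ℝ (fderiv ℝ F) x v w

end Crest.Agent.R220
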