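import Mathlib
import Crest.Agent.R220.TopDefs

/-!
# Row 220 (S0341), top part: geometry of flat points, smooth extension, orthonormal bases of `E3`.

* `exists_global_ext`: a map smooth near a compact set agrees near it with a globally smooth map;
* `flat_normal`, `flat_gauss`: Koszul computation and Gauss equation for a flat metric;
* `principal`: at a point near which `F` is isometric for the flat metric, the second derivative is
  `α ⟪·,w⟫ ⟪·,w⟫ n` with `‖w‖ = ‖n‖ = 1`, `α = ‖D²F‖`.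
-/

set_option autoImplicit false

open scoped ContDiff RealInnerProductSpace Topology
open Filter Set

namespace Crest.Agent.R220.Scale

/-! ### Smooth extension -/

/-- a map smooth on a neighbourhood of a compact set agrees near it with a globally smooth map -/
theorem exists_global_ext {E G : Type*} [NormedAddCommGroup E] [NormedSpace ℝ E]
    [FiniteDimensional ℝ E] [NormedAddCommGroup G] [NormedSpace ℝ G]
    {U K : Set E} (hU : IsOpen U) (hK : IsCompact K) (hKU : K ⊆ U) {f : E → G}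
    (hf : ContDiffOn ℝ ∞ f U) :
    ∃ g : E → G, ContDiff ℝ ∞ g ∧ ∀ᶠ x in 𝓝ˢ K, g x = f x := by
  obtain ⟨t, ht, hKt, htU⟩ : ∃ t : Set E, IsCompact t ∧ K ⊆ interior t ∧ t ⊆ U :=
    exists_compact_between hK hU hKU
  obtain ⟨χ, h1, h0, -⟩ := exists_contMDiffMap_one_nhds_of_subset_interior
    (n := ⊤) (modelWithCornersSelf ℝ E) hK.isClosed hKt
  have hχ : ContDiff ℝ ∞ (χ : E → ℝ) := χ.contMDiff.contDiff
  refine ⟨fun x => χ x • f x, ?_, ?_⟩
  · rw [contDiff_iff_contDiffAt]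
    intro x
    by_cases hx : x ∈ t
    · exact hχ.contDiffAt.smul (hf.contDiffAt (hU.mem_nhds (htU hx)))
    · have : (fun x => χ x • f x) =ᶠ[𝓝 x] fun _ => (0 : G) := by
        filter_upwards [ht.isClosed.isOpen_compl.mem_nhds hx] with y hy
        rw [h0 y hy, zero_smul]
      exact contDiffAt_const.congr_of_eventuallyEq this
  · filter_upwards [h1] with x hx
    rw [hx, one_smul]

/-! ### Flat points -/

theorem fderiv_apply_const {E G H : Type*} [NormedAddCommGroup E] [NormedSpace ℝ E]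
    [NormedAddCommGroup G] [NormedSpace ℝ G] [NormedAddCommGroup H] [NormedSpace ℝ H]
    {L : E → G →L[ℝ] H} {x : E} (hL : DifferentiableAt ℝ L x) (a : G) (c : E) :
    fderiv ℝ (fun y => L y a) x c = fderiv ℝ L x c a := by
  have h := (hL.hasFDerivAt.clm_apply (hasFDerivAt_const a x)).fderiv
  rw [h]
  simp

/-- the Koszul computation: second derivatives of a flat isometric immersion are normal -/
theorem koszul {T : E2 → E2 → E2 → ℝ} (hs : ∀ a b c, T a b c = T b a c)
    (ha : ∀ c a b, T c a b + T c b a = 0) (a b c : E2) : T a b c = 0 := by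
  have h1 := ha a b c
  have h2 := ha b c a
  have h3 := ha c a b
  have e1 := hs a b c
  have e2 := hs b c a
  have e3 := hs c a b
  linarith

variable {F : E2 → E3}

theorem flat_normal (hF : ContDiff ℝ ∞ F) {p : E2}
    (hp : ∀ᶠ x in 𝓝 p, ∀ a b, ⟪fderiv ℝ F x a, fderiv ℝ F x b⟫ = ⟪a, b⟫) :
    ∀ᶠ x in 𝓝 p, ∀ a b c, ⟪fderiv ℝ (fderiv ℝ F) x a b, fderiv ℝ F x c⟫ = 0 := by
  have hF1 : ContDiff ℝ ∞ (fderiv ℝ F) := hF.fderiv_right (by simp)
  filter_upwards [hp.eventually_nhds] with x hx a b c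
  refine koszul (T := fun a b c => ⟪fderiv ℝ (fderiv ℝ F) x a b, fderiv ℝ F x c⟫) ?_ ?_ a b c
  · intro a b c
    have := (hF.contDiffAt (x := x)).isSymmSndFDerivAt (by simp; exact ENat.LEInfty.out) a b
    simp only [this]
  · intro c a b
    have h1 : (fun y => ⟪fderiv ℝ F y a, fderiv ℝ F y b⟫) =ᶠ[𝓝 x] fun _ => ⟪a, b⟫ := by
      filter_upwards [hx] with y hy using hy a b
    have h2 := h1.fderiv_eq (𝕜 := ℝ)
    have hd := hF1.differentiable (by simp) x
    have h3 := fderiv_inner_apply ℝ (f := fun y => fderiv ℝ F y a) (g := fun y => fderiv ℝ F y b)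
      (x := x) (hd.clm_apply (differentiableAt_const a)) (hd.clm_apply (differentiableAt_const b)) c
    rw [h2, fderiv_apply_const hd, fderiv_apply_const hd] at h3
    simp only [fderiv_fun_const, Pi.zero_apply, zero_apply] at h3
    rw [real_inner_comm] at h3
    linarith

theorem flat_gauss (hF : ContDiff ℝ ∞ F) {p : E2}
    (hp : ∀ᶠ x in 𝓝 p, ∀ a b, ⟪fderiv ℝ F x a, fderiv ℝ F x b⟫ = ⟪a, b⟫) (a b : E2) :
    ⟪fderiv ℝ (fderiv ℝ F) p a a, fderiv ℝ (fderiv ℝ F) p b b⟫
      = ⟪fderiv ℝ (fderiv ℝ F) p a b, fderiv ℝ (fderiv ℝ F) p a b⟫ := by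
  have hF1 : ContDiff ℝ ∞ (fderiv ℝ F) := hF.fderiv_right (by simp)
  have hF2 : ContDiff ℝ ∞ (fderiv ℝ (fderiv ℝ F)) := hF1.fderiv_right (by simp)
  have hd1 := hF1.differentiable (by simp) p
  have hd2 := hF2.differentiable (by simp) p
  have hsym : ∀ a b, fderiv ℝ (fderiv ℝ F) p a b = fderiv ℝ (fderiv ℝ F) p b a :=
    (hF.contDiffAt (x := p)).isSymmSndFDerivAt (by simp; exact ENat.LEInfty.out)
  have hsym3 : ∀ a b, fderiv ℝ (fderiv ℝ (fderiv ℝ F)) p a b
      = fderiv ℝ (fderiv ℝ (fderiv ℝ F)) p b a :=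
    (hF1.contDiffAt (x := p)).isSymmSndFDerivAt (by simp; exact ENat.LEInfty.out)
  have key : ∀ a b c d, ⟪fderiv ℝ (fderiv ℝ (fderiv ℝ F)) p d a b, fderiv ℝ F p c⟫
      + ⟪fderiv ℝ (fderiv ℝ F) p a b, fderiv ℝ (fderiv ℝ F) p d c⟫ = 0 := by
    intro a b c d
    have h1 : (fun y => ⟪fderiv ℝ (fderiv ℝ F) y a b, fderiv ℝ F y c⟫) =ᶠ[𝓝 p]
        fun _ => (0 : ℝ) := by
      filter_upwards [flat_normal hF hp] with y hy using hy a b c
    have h2 := h1.fderiv_eq (𝕜 := ℝ)
    have hda : DifferentiableAt ℝ (fun y => fderiv ℝ (fderiv ℝ F) y a) p :=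
      hd2.clm_apply (differentiableAt_const a)
    have h3 := fderiv_inner_apply ℝ (f := fun y => fderiv ℝ (fderiv ℝ F) y a b)
      (g := fun y => fderiv ℝ F y c) (x := p)
      (hda.clm_apply (differentiableAt_const b)) (hd1.clm_apply (differentiableAt_const c)) d
    rw [h2, fderiv_apply_const hd1, fderiv_apply_const hda, fderiv_apply_const hd2] at h3
    simp only [fderiv_fun_const, Pi.zero_apply, zero_apply] at h3
    linarith
  have k1 := key a a b b
  have k2 := key b a b a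
  rw [hsym3 b a] at k1
  rw [hsym b a] at k2
  have : ⟪fderiv ℝ (fderiv ℝ F) p b b, fderiv ℝ (fderiv ℝ F) p a a⟫
    = ⟪fderiv ℝ (fderiv ℝ F) p a a, fderiv ℝ (fderiv ℝ F) p b b⟫ := real_inner_comm _ _
  linarith

theorem rank1 {L00 L01 L11 : ℝ} (h : L00 * L11 = L01 ^ 2) :
    ∃ w0 w1 τ : ℝ, w0 ^ 2 + w1 ^ 2 = 1 ∧ L00 = τ * w0 ^ 2 ∧ L01 = τ * (w0 * w1) ∧
      L11 = τ * w1 ^ 2 := by
  by_cases h0 : L00 = 0
  · refine ⟨0, 1, L11, by norm_num, by simp [h0], ?_, by ring⟩
    have : L01 ^ 2 = 0 := by rw [← h, h0, zero_mul]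
    simp [pow_eq_zero_iff] at this
    simp [this]
  · have hpos : 0 < L00 ^ 2 + L01 ^ 2 := by positivity
    set s := Real.sqrt (L00 ^ 2 + L01 ^ 2) with hs
    have hs2 : s ^ 2 = L00 ^ 2 + L01 ^ 2 := Real.sq_sqrt hpos.le
    have hs0 : s ≠ 0 := (Real.sqrt_pos.2 hpos).ne'
    have hs2' : s ^ 2 ≠ 0 := pow_ne_zero 2 hs0
    refine ⟨L00 / s, L01 / s, L00 + L11, ?_, ?_, ?_, ?_⟩
    · rw [div_pow, div_pow, ← add_div, hs2, div_self hpos.ne']
    · rw [div_pow, ← mul_div_assoc, eq_div_iff hs2', hs2]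
      linear_combination L00 * (-1) * h
    · rw [div_mul_div_comm, ← pow_two s, ← mul_div_assoc, eq_div_iff hs2', hs2]
      linear_combination L01 * (-1) * h
    · rw [div_pow, ← mul_div_assoc, eq_div_iff hs2', hs2]
      linear_combination L00 * h

theorem e2_expand (a : E2) : a = a 0 • EuclideanSpace.single (0 : Fin 2) (1 : ℝ)
    + a 1 • EuclideanSpace.single (1 : Fin 2) (1 : ℝ) := by
  ext i; fin_cases i <;> simp

theorem e2_inner (a b : E2) : ⟪a, b⟫ = a 0 * b 0 + a 1 * b 1 := by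
  simp [PiLp.inner_apply, Fin.sum_univ_two]; ring

/-- orthonormal pair in `E3` extends to an orthonormal basis -/
theorem exists_onb {u v : E3} (hu : ⟪u, u⟫ = 1) (hv : ⟪v, v⟫ = 1) (huv : ⟪u, v⟫ = 0) :
    ∃ b : OrthonormalBasis (Fin 3) ℝ E3, b 0 = u ∧ b 1 = v := by
  have hu' : ‖u‖ = 1 := by
    rw [real_inner_self_eq_norm_sq] at hu
    nlinarith [norm_nonneg u]
  have hv' : ‖v‖ = 1 := by
    rw [real_inner_self_eq_norm_sq] at hv
    nlinarith [norm_nonneg v]
  have hvu : ⟪v, u⟫ = 0 := by rw [real_inner_comm]; exact huv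
  have hon : Orthonormal ℝ (({0, 1} : Set (Fin 3)).domRestrict (![u, v, 0] : Fin 3 → E3)) := by
    constructor
    · rintro ⟨i, hi⟩
      rcases hi with rfl | hi
      · simpa using hu'
      · rw [Set.mem_singleton_iff] at hi
        subst hi
        simpa using hv'
    · rintro ⟨i, hi⟩ ⟨j, hj⟩ hij
      rcases hi with rfl | hi <;> rcases hj with rfl | hj
      · exact absurd rfl hij
      · rw [Set.mem_singleton_iff] at hj
        subst hj
        simpa using huv
      · rw [Set.mem_singleton_iff] at hi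
        subst hi
        simpa using hvu
      · rw [Set.mem_singleton_iff] at hi hj
        subst hi; subst hj
        exact absurd rfl hij
  obtain ⟨b, hb⟩ := hon.exists_orthonormalBasis_extension_of_card_eq (by simp)
  exact ⟨b, by simpa using hb 0 (by simp), by simpa using hb 1 (by simp)⟩

theorem principal (hF : ContDiff ℝ ∞ F) {p : E2}
    (hp : ∀ᶠ x in 𝓝 p, ∀ a b, ⟪fderiv ℝ F x a, fderiv ℝ F x b⟫ = ⟪a, b⟫) :
    ∃ (w : E2) (n : E3) (α : ℝ), ‖w‖ = 1 ∧ ‖n‖ = 1 ∧ α = ‖iteratedFDeriv ℝ 2 F p‖ ∧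
      (∀ a, ⟪fderiv ℝ F p a, n⟫ = 0) ∧
      ∀ a b, fderiv ℝ (fderiv ℝ F) p a b = (α * (⟪a, w⟫ * ⟪b, w⟫)) • n := by
  set e0 : E2 := EuclideanSpace.single (0 : Fin 2) (1 : ℝ) with he0
  set e1 : E2 := EuclideanSpace.single (1 : Fin 2) (1 : ℝ) with he1
  have hp0 := hp.self_of_nhds
  have hN := (flat_normal hF hp).self_of_nhds
  obtain ⟨b, hb0, hb1⟩ := exists_onb (u := fderiv ℝ F p e0) (v := fderiv ℝ F p e1)
    (by rw [hp0, e2_inner]; simp [he0]) (by rw [hp0, e2_inner]; simp [he1])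
    (by rw [hp0, e2_inner]; simp [he0, he1])
  set D2 := fderiv ℝ (fderiv ℝ F) p with hD2
  set L : E2 → E2 → ℝ := fun x y => ⟪D2 x y, b 2⟫ with hL
  have hD2L : ∀ x y, D2 x y = L x y • b 2 := by
    intro x y
    rw [← b.sum_repr' (D2 x y)]
    simp only [Fin.sum_univ_three]
    rw [hb0, hb1]
    have h0 : ⟪fderiv ℝ F p e0, D2 x y⟫ = 0 := by rw [real_inner_comm]; exact hN x y e0
    have h1 : ⟪fderiv ℝ F p e1, D2 x y⟫ = 0 := by rw [real_inner_comm]; exact hN x y e1
    rw [h0, h1]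
    simp only [zero_smul, zero_add, hL]
    rw [real_inner_comm]
  have hbn : ‖b 2‖ = 1 := b.orthonormal.1 2
  have hb22 : ⟪b 2, b 2⟫ = 1 := by rw [real_inner_self_eq_norm_sq, hbn]; norm_num
  have hG : L e0 e0 * L e1 e1 = L e0 e1 ^ 2 := by
    have := flat_gauss hF hp e0 e1
    rw [← hD2, hD2L e0 e0, hD2L e1 e1, hD2L e0 e1] at this
    simp only [inner_smul_left, inner_smul_right, hb22] at this
    simp at this
    rw [pow_two]; linarith
  have hsym : ∀ x y, L x y = L y x := by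
    intro x y
    have : D2 x y = D2 y x :=
      (hF.contDiffAt (x := p)).isSymmSndFDerivAt (by simp; exact ENat.LEInfty.out) x y
    simp only [hL, this]
  obtain ⟨w0, w1, τ, hw, h00, h01, h11⟩ := rank1 hG
  have hLform : ∀ x y, L x y = τ * ((x 0 * w0 + x 1 * w1) * (y 0 * w0 + y 1 * w1)) := by
    intro x y
    have hx := e2_expand x
    have hy := e2_expand y
    have : L x y = x 0 * (y 0 * L e0 e0 + y 1 * L e0 e1) + x 1 * (y 0 * L e1 e0 + y 1 * L e1 e1) := by
      conv_lhs => rw [hx, hy]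
      simp only [hL, map_add, map_smul, add_apply,
        smul_apply, inner_add_left, inner_smul_left, smul_add]
      simp
      ring
    rw [this, hsym e1 e0, h00, h01, h11]
    ring
  set w : E2 := !₂[w0, w1] with hwdef
  have hwn : ‖w‖ = 1 := by
    rw [EuclideanSpace.norm_eq]
    simp [hwdef, Fin.sum_univ_two, hw]
  have hwi : ∀ x : E2, ⟪x, w⟫ = x 0 * w0 + x 1 * w1 := by
    intro x; rw [e2_inner]; simp [hwdef]
  obtain ⟨n, α, hn, hα, hnα, hnb⟩ : ∃ (n : E3) (α : ℝ), ‖n‖ = 1 ∧ 0 ≤ α ∧ τ • b 2 = α • n ∧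
      (∀ x : E3, ⟪x, b 2⟫ = 0 → ⟪x, n⟫ = 0) := by
    rcases le_total 0 τ with h | h
    · exact ⟨b 2, τ, hbn, h, rfl, fun x hx => hx⟩
    · exact ⟨-b 2, -τ, by rw [norm_neg]; exact hbn, by linarith, by simp, fun x hx => by
        rw [inner_neg_right, hx, neg_zero]⟩
  have hform : ∀ x y, D2 x y = (α * (⟪x, w⟫ * ⟪y, w⟫)) • n := by
    intro x y
    rw [hD2L, hLform, ← hwi, ← hwi, mul_comm τ, mul_smul, hnα, smul_smul]
    ring_nf
  refine ⟨w, n, α, hwn, hn, ?_, ?_, hform⟩
  · apply le_antisymm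
    · have h1 := (iteratedFDeriv ℝ 2 F p).le_opNorm ![w, w]
      rw [iteratedFDeriv_two_apply] at h1
      simp only [Matrix.cons_val_zero, Matrix.cons_val_one] at h1
      rw [← hD2, hform, norm_smul, hn] at h1
      simp [Fin.prod_univ_two, hwn] at h1
      calc α ≤ |α| := le_abs_self _
        _ ≤ _ := h1
    · refine ContinuousMultilinearMap.opNorm_le_bound hα ?_
      intro m
      rw [iteratedFDeriv_two_apply, ← hD2, hform, norm_smul, hn, Fin.prod_univ_two, mul_one,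
        Real.norm_eq_abs, abs_mul, abs_mul, abs_of_nonneg hα]
      have h0 := abs_real_inner_le_norm (m 0) w
      have h1 := abs_real_inner_le_norm (m 1) w
      rw [hwn, mul_one] at h0 h1
      gcongr
  · intro a
    apply hnb
    have h3 : fderiv ℝ F p a = a 0 • b 0 + a 1 • b 1 := by
      conv_lhs => rw [e2_expand a]
      rw [map_add, map_smul, map_smul, hb0, hb1]
    rw [h3, inner_add_left, inner_smul_left, inner_smul_left]
    have h02 : ⟪b 0, b 2⟫ = 0 := b.orthonormal.2 (by decide)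
    have h12 : ⟪b 1, b 2⟫ = 0 := b.orthonormal.2 (by decide)
    rw [h02, h12]; simp

end Crest.Agent.R220.Scale
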