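import Mathlib
import Crest.Agent.R220.TopDefs
import Crest.Agent.R220.ScaleNF

/-!
# Row 220 (S0341): `coreGadget` from `core`.
-/

set_option autoImplicit false

open scoped ContDiff RealInnerProductSpace Topology
open Filter Set

namespace Crest.Agent.R220

/-- the statement of `core` -/
def CoreStmt : Prop := ∃ η : ℝ, 0 < η ∧ ∀ A0 : ℝ, 0 < A0 → ∀ (N : ℕ) (ε : ℝ), 0 < ε →
    ∃ h1 h2 : Pl → ℝ, Sm h1 ∧ Sm h2 ∧
      (∀ z, z ∉ sq (99/100) → h1 z = 0 ∧ h2 z = 0) ∧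
      (∀ k ≤ N, ∀ z, ‖iteratedFDeriv ℝ k h1 z‖ ≤ ε ∧ ‖iteratedFDeriv ℝ k h2 z‖ ≤ ε) ∧
      ∀ (A : ℝ) (X Y Z : Pl → ℝ), A0 ≤ A → A ≤ 1 → NearCylLoc η A X Y Z →
        ¬ IsoOn (sq 1) h1 h2 X Y Z

namespace Scale

/-- the rank one symmetric tensor `⟪e,·⟫ ⟪e,·⟫` -/
noncomputable def tens (e : E2) : E2 →L[ℝ] E2 →L[ℝ] ℝ := (innerSL ℝ e).smulRight (innerSL ℝ e)

theorem tens_apply (e v w : E2) : tens e v w = ⟪e, v⟫ * ⟪e, w⟫ := by
  simp [tens]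

theorem norm_tens_le {e : E2} (he : ‖e‖ = 1) : ‖tens e‖ ≤ 1 := by
  refine ContinuousLinearMap.opNorm_le_bound _ zero_le_one fun v => ?_
  refine ContinuousLinearMap.opNorm_le_bound _ (by positivity) fun w => ?_
  rw [tens_apply, Real.norm_eq_abs, abs_mul]
  have h1 := abs_real_inner_le_norm e v
  have h2 := abs_real_inner_le_norm e w
  rw [he, one_mul] at h1 h2
  rw [one_mul]
  gcongr

/-- the linear part of the inverse chart -/
noncomputable def coL (r : ℝ) (e1 e2 : E2) : E2 →L[ℝ] Pl :=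
  (r⁻¹ • (innerSL ℝ e1)).prod (r⁻¹ • (innerSL ℝ e2))

theorem coL_apply (r : ℝ) (e1 e2 x : E2) : coL r e1 e2 x = (r⁻¹ * ⟪e1, x⟫, r⁻¹ * ⟪e2, x⟫) := by
  simp [coL]

theorem norm_coL_le {r : ℝ} (hr : 0 < r) {e1 e2 : E2} (he1 : ‖e1‖ = 1) (he2 : ‖e2‖ = 1) :
    ‖coL r e1 e2‖ ≤ r⁻¹ := by
  refine ContinuousLinearMap.opNorm_le_bound _ (by positivity) fun v => ?_
  rw [coL_apply, Prod.norm_def]
  have h1 := abs_real_inner_le_norm e1 v
  have h2 := abs_real_inner_le_norm e2 v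
  rw [he1, one_mul] at h1
  rw [he2, one_mul] at h2
  have hr' : 0 < r⁻¹ := inv_pos.2 hr
  refine max_le ?_ ?_
  · simp only [Real.norm_eq_abs, abs_mul, abs_of_pos hr']
    gcongr
  · simp only [Real.norm_eq_abs, abs_mul, abs_of_pos hr']
    gcongr

/-- the inverse chart -/
noncomputable def co (z0 : E2) (r : ℝ) (e1 e2 : E2) (x : E2) : Pl := coL r e1 e2 (x - z0)

theorem co_pt {z0 : E2} {r : ℝ} (hr : 0 < r) {e1 e2 : E2} (he1 : ‖e1‖ = 1) (he2 : ‖e2‖ = 1)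
    (h12 : ⟪e1, e2⟫ = 0) (s : Pl) : co z0 r e1 e2 (pt z0 r e1 e2 s) = s := by
  have h11 : ⟪e1, e1⟫ = 1 := by rw [real_inner_self_eq_norm_sq, he1]; norm_num
  have h22 : ⟪e2, e2⟫ = 1 := by rw [real_inner_self_eq_norm_sq, he2]; norm_num
  have h21 : ⟪e2, e1⟫ = 0 := by rw [real_inner_comm]; exact h12
  rw [co, pt, add_sub_cancel_left, coL_apply]
  ext
  · simp only [inner_smul_right, inner_add_right, h11, h12]
    field_simp; ring
  · simp only [inner_smul_right, inner_add_right, h21, h22]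
    field_simp; ring

theorem pt_co {z0 : E2} {r : ℝ} (hr : 0 < r) {e1 e2 : E2} (he1 : ‖e1‖ = 1) (he2 : ‖e2‖ = 1)
    (h12 : ⟪e1, e2⟫ = 0) (x : E2) : pt z0 r e1 e2 (co z0 r e1 e2 x) = x := by
  have hon : Orthonormal ℝ ![e1, e2] := by
    constructor
    · intro i; fin_cases i <;> simp [he1, he2]
    · intro i j hij
      fin_cases i <;> fin_cases j
      · exact absurd rfl hij
      · simpa using h12
      · simpa [real_inner_comm] using h12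
      · exact absurd rfl hij
  obtain ⟨b, hb⟩ : ∃ b : OrthonormalBasis (Fin 2) ℝ E2, ⇑b = ![e1, e2] := by
    have hspan : ⊤ ≤ Submodule.span ℝ (Set.range ![e1, e2]) := by
      have := hon.linearIndependent.span_eq_top_of_card_eq_finrank (by simp)
      exact this.ge
    exact ⟨OrthonormalBasis.mk hon hspan, OrthonormalBasis.coe_mk hon hspan⟩
  have h := b.sum_repr' (x - z0)
  rw [Fin.sum_univ_two, hb] at h
  simp only [Matrix.cons_val_zero, Matrix.cons_val_one] at h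
  rw [pt, co, coL_apply]
  simp only [smul_add, smul_smul, ← mul_assoc, mul_inv_cancel₀ hr.ne', one_mul]
  rw [h]; abel

theorem contDiff_co (z0 : E2) (r : ℝ) (e1 e2 : E2) : ContDiff ℝ ∞ (co z0 r e1 e2) :=
  (coL r e1 e2).contDiff.comp (contDiff_id.sub contDiff_const)

section generic

variable {V : Type*} [NormedAddCommGroup V] [NormedSpace ℝ V]

theorem contDiff_tfg (z0 : E2) (r : ℝ) (e1 e2 : E2) {h1 h2 : Pl → ℝ} (s1 : Sm h1) (s2 : Sm h2)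
    (T1 T2 : V) :
    ContDiff ℝ ∞ (fun x => h1 (co z0 r e1 e2 x) • T1 + h2 (co z0 r e1 e2 x) • T2) :=
  ((s1.comp (contDiff_co z0 r e1 e2)).smul contDiff_const).add
    ((s2.comp (contDiff_co z0 r e1 e2)).smul contDiff_const)

theorem norm_iter_le {z0 : E2} {r : ℝ} (hr : 0 < r) {e1 e2 : E2} (he1 : ‖e1‖ = 1)
    (he2 : ‖e2‖ = 1) {T : V} (hT : ‖T‖ ≤ 1) {g : Pl → ℝ} (hg : Sm g) {k : ℕ} {ε : ℝ}
    (hk : ∀ z, ‖iteratedFDeriv ℝ k g z‖ ≤ ε) (x : E2) :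
    ‖iteratedFDeriv ℝ k (fun x => g (co z0 r e1 e2 x) • T) x‖ ≤ ε * r⁻¹ ^ k := by
  have hε : 0 ≤ ε := (norm_nonneg _).trans (hk 0)
  have h1 : (fun x => g (co z0 r e1 e2 x) • T) =
      ((ContinuousLinearMap.id ℝ ℝ).smulRight T) ∘ (fun x => g (co z0 r e1 e2 x)) := by
    funext x; simp
  have hgc : ContDiff ℝ ∞ (fun x => g (co z0 r e1 e2 x)) := hg.comp (contDiff_co z0 r e1 e2)
  have hk' : (k : WithTop ℕ∞) ≤ ∞ := by exact_mod_cast le_top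
  rw [h1, ContinuousLinearMap.iteratedFDeriv_comp_left _ hgc.contDiffAt hk']
  refine (ContinuousLinearMap.norm_compContinuousMultilinearMap_le _ _).trans ?_
  have h2 : (fun x => g (co z0 r e1 e2 x)) =
      (fun x => (g ∘ (coL r e1 e2)) (x - z0)) := rfl
  have h3 : ‖iteratedFDeriv ℝ k (fun x => g (co z0 r e1 e2 x)) x‖ ≤ ε * r⁻¹ ^ k := by
    rw [h2, iteratedFDeriv_comp_sub, ContinuousLinearMap.iteratedFDeriv_comp_right _ hg _ hk']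
    refine (ContinuousMultilinearMap.norm_compContinuousLinearMap_le _ _).trans ?_
    rw [Finset.prod_const, Finset.card_univ, Fintype.card_fin]
    have := norm_coL_le hr he1 he2
    gcongr
    exact hk _
  have h4 : ‖(ContinuousLinearMap.id ℝ ℝ).smulRight T‖ ≤ 1 := by
    rw [ContinuousLinearMap.norm_smulRight_apply]
    calc ‖ContinuousLinearMap.id ℝ ℝ‖ * ‖T‖ ≤ 1 * 1 := by
          gcongr
          exact ContinuousLinearMap.norm_id_le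
      _ = 1 := one_mul 1
  calc _ ≤ 1 * (ε * r⁻¹ ^ k) := by gcongr
    _ = _ := one_mul _

theorem norm_iter_tfg_le {z0 : E2} {r : ℝ} (hr : 0 < r) {e1 e2 : E2} (he1 : ‖e1‖ = 1)
    (he2 : ‖e2‖ = 1) {T1 T2 : V} (hT1 : ‖T1‖ ≤ 1) (hT2 : ‖T2‖ ≤ 1)
    {h1 h2 : Pl → ℝ} (s1 : Sm h1) (s2 : Sm h2) {k : ℕ} {ε : ℝ}
    (hk : ∀ z, ‖iteratedFDeriv ℝ k h1 z‖ ≤ ε ∧ ‖iteratedFDeriv ℝ k h2 z‖ ≤ ε) (x : E2) :
    ‖iteratedFDeriv ℝ k (fun x => h1 (co z0 r e1 e2 x) • T1 + h2 (co z0 r e1 e2 x) • T2) x‖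
      ≤ 2 * (ε * r⁻¹ ^ k) := by
  have hk' : (k : WithTop ℕ∞) ≤ ∞ := by exact_mod_cast le_top
  have c1 : ContDiff ℝ ∞ (fun x => h1 (co z0 r e1 e2 x) • T1) :=
    (s1.comp (contDiff_co z0 r e1 e2)).smul contDiff_const
  have c2 : ContDiff ℝ ∞ (fun x => h2 (co z0 r e1 e2 x) • T2) :=
    (s2.comp (contDiff_co z0 r e1 e2)).smul contDiff_const
  have h : iteratedFDeriv ℝ k
      (fun x => h1 (co z0 r e1 e2 x) • T1 + h2 (co z0 r e1 e2 x) • T2) x =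
      iteratedFDeriv ℝ k (fun x => h1 (co z0 r e1 e2 x) • T1) x +
      iteratedFDeriv ℝ k (fun x => h2 (co z0 r e1 e2 x) • T2) x :=
    iteratedFDeriv_add_apply (c1.of_le hk').contDiffAt (c2.of_le hk').contDiffAt
  rw [h]
  refine (norm_add_le _ _).trans ?_
  have a1 := norm_iter_le (z0 := z0) hr he1 he2 hT1 s1 (fun z => (hk z).1) x
  have a2 := norm_iter_le (z0 := z0) hr he1 he2 hT2 s2 (fun z => (hk z).2) x
  linarith

end generic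

/-- the tensor field -/
noncomputable def tf (z0 : E2) (r : ℝ) (e1 e2 : E2) (h1 h2 : Pl → ℝ) :
    E2 → (E2 →L[ℝ] E2 →L[ℝ] ℝ) := fun x =>
  h1 (co z0 r e1 e2 x) • tens e1 + h2 (co z0 r e1 e2 x) • tens e2

theorem tf_apply (z0 : E2) (r : ℝ) (e1 e2 : E2) (h1 h2 : Pl → ℝ) (x v w : E2) :
    tf z0 r e1 e2 h1 h2 x v w = h1 (co z0 r e1 e2 x) * (⟪e1, v⟫ * ⟪e1, w⟫) +
      h2 (co z0 r e1 e2 x) * (⟪e2, v⟫ * ⟪e2, w⟫) := by
  have : tf z0 r e1 e2 h1 h2 x v w = h1 (co z0 r e1 e2 x) * tens e1 v w +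
      h2 (co z0 r e1 e2 x) * tens e2 v w := rfl
  rw [this, tens_apply, tens_apply]

end Scale

open Scale in
theorem coreGadget_of (hcore : CoreStmt) (c M : ℝ) (hc : 0 < c) (hM : 0 < M) :
    ∃ r0 τ : ℝ, 0 < r0 ∧ 0 < τ ∧
    ∀ r : ℝ, 0 < r → r ≤ r0 → ∀ z0 e1 e2 : E2, ‖e1‖ = 1 → ‖e2‖ = 1 → @inner ℝ E2 _ e1 e2 = 0 →
    ∀ (N : ℕ) (ε : ℝ), 0 < ε → ∃ h : E2 → (E2 →L[ℝ] E2 →L[ℝ] ℝ),
      ContDiff ℝ ∞ h ∧ (∀ x, x ∉ Metric.closedBall z0 (2 * r) → h x = 0) ∧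
      (∀ x v w, h x v w = h x w v) ∧
      (∀ k ≤ N, ∀ x, ‖iteratedFDeriv ℝ k h x‖ ≤ ε) ∧
      ∀ F : E2 → E3, ContDiff ℝ ∞ F →
        (∀ k : ℕ, 1 ≤ k → k ≤ 4 → ∀ x ∈ Metric.closedBall z0 (2 * r),
          ‖iteratedFDeriv ℝ k F x‖ ≤ M) →
        IsoE (Metric.closedBall z0 (2 * r)) h F →
        c ≤ ‖D2 F z0 e1 e1‖ →
        ‖D2 F z0 e1 e2‖ ≤ τ * ‖D2 F z0 e1 e1‖ →
        ‖D2 F z0 e2 e2‖ ≤ τ * ‖D2 F z0 e1 e1‖ → False := by
  obtain ⟨η, hη, hcore⟩ := hcore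
  obtain ⟨r0, τ, κ, hr0, hτ, hκ, hnf⟩ := normal_form η c M hη hc hM
  refine ⟨min r0 1, τ, by positivity, hτ, ?_⟩
  intro r hr hrr z0 e1 e2 he1 he2 h12 N ε hε
  have hrr0 : r ≤ r0 := hrr.trans (min_le_left _ _)
  have hr1 : r ≤ 1 := hrr.trans (min_le_right _ _)
  set ε' := min (ε / 2 * r ^ N) (κ * r) with hε'
  have hε0 : 0 < ε' := by positivity
  have hε1 : ε' ≤ ε / 2 * r ^ N := min_le_left _ _
  have hε2 : ε' ≤ κ * r := min_le_right _ _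
  have hε3 : ε' ≤ κ := hε2.trans (by nlinarith)
  obtain ⟨h1, h2, s1, s2, hsupp, hbd, hno⟩ :=
    hcore (r * c / 2) (by positivity) (max N 1) ε' hε0
  have h11 : ⟪e1, e1⟫ = 1 := by rw [real_inner_self_eq_norm_sq, he1]; norm_num
  have h22 : ⟪e2, e2⟫ = 1 := by rw [real_inner_self_eq_norm_sq, he2]; norm_num
  have h21 : ⟪e2, e1⟫ = 0 := by rw [real_inner_comm]; exact h12
  refine ⟨tf z0 r e1 e2 h1 h2, contDiff_tfg z0 r e1 e2 s1 s2 (tens e1) (tens e2), ?_, ?_, ?_, ?_⟩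
  · intro x hx
    have : co z0 r e1 e2 x ∉ sq (99 / 100) := by
      intro h
      apply hx
      have h' : co z0 r e1 e2 x ∈ sq 1 := ⟨h.1.trans (by norm_num), h.2.trans (by norm_num)⟩
      have := pt_mem (z0 := z0) hr.le he1 he2 h'
      rwa [pt_co hr he1 he2 h12] at this
    obtain ⟨a1, a2⟩ := hsupp _ this
    ext v w
    rw [tf_apply, a1, a2]
    simp
  · intro x v w
    rw [tf_apply, tf_apply]
    ring
  · intro k hk x
    refine (norm_iter_tfg_le hr he1 he2 (norm_tens_le he1) (norm_tens_le he2) s1 s2 (hbd k (hk.trans (le_max_left _ _))) x).trans ?_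
    have hinv : 1 ≤ r⁻¹ := (one_le_inv₀ hr).2 hr1
    have e1 : r⁻¹ ^ k ≤ r⁻¹ ^ N := pow_le_pow_right₀ hinv hk
    calc 2 * (ε' * r⁻¹ ^ k) ≤ 2 * ((ε / 2 * r ^ N) * r⁻¹ ^ N) := by gcongr
      _ = ε := by
          rw [mul_assoc, ← mul_pow, mul_inv_cancel₀ hr.ne', one_pow]; ring
  · intro F hF hFM hiso hG hG12 hG22
    have hb : ∀ (g : Pl → ℝ), Sm g → (∀ k ≤ max N 1, ∀ z, ‖iteratedFDeriv ℝ k g z‖ ≤ ε') →
        |g 0| ≤ κ ∧ |dx g 0| ≤ κ * r ∧ |dy g 0| ≤ κ * r := by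
      intro g hg hk
      refine ⟨?_, ?_, ?_⟩
      · exact ((Conv.abs_Dw_le_norm_iteratedFDeriv hg [] 0).trans
          (hk 0 (Nat.zero_le _) 0)).trans hε3
      · exact ((Conv.abs_Dw_le_norm_iteratedFDeriv hg [true] 0).trans
          (hk 1 (le_max_right _ _) 0)).trans hε2
      · exact ((Conv.abs_Dw_le_norm_iteratedFDeriv hg [false] 0).trans
          (hk 1 (le_max_right _ _) 0)).trans hε2
    obtain ⟨b1, b1x, b1y⟩ := hb h1 s1 (fun k hk z => (hbd k hk z).1)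
    obtain ⟨b2, -, -⟩ := hb h2 s2 (fun k hk z => (hbd k hk z).2)
    obtain ⟨A, X, Y, Z, hA0, hA1, hnc, hio⟩ := hnf r hr hrr0 z0 e1 e2 he1 he2 h1 h2 b1 b2 b1x b1y
      F hF hFM (by
        intro s hs
        have hm := pt_mem (z0 := z0) hr.le he1 he2 hs
        have key : ∀ v w : E2, ⟪fderiv ℝ F (pt z0 r e1 e2 s) v, fderiv ℝ F (pt z0 r e1 e2 s) w⟫
            = ⟪v, w⟫ + (h1 s * (⟪e1, v⟫ * ⟪e1, w⟫) + h2 s * (⟪e2, v⟫ * ⟪e2, w⟫)) := by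
          intro v w
          rw [hiso _ hm v w]
          rw [tf_apply, co_pt hr he1 he2 h12]
        refine ⟨?_, ?_, ?_⟩
        · rw [key, h11, h21]; ring
        · rw [key, h11, h21, h12]; ring
        · rw [key, h22, h12]; ring) hG hG12 hG22
    exact hno A X Y Z hA0 hA1 hnc hio

end Crest.Agent.R220
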