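import Crest.Agent.R220.Core
import Crest.Agent.R220.CoreGadgetAux

/-!
# Row 220 (S0341): the localised gadget at a point with prescribed principal direction
-/

set_option autoImplicit false

open scoped ContDiff

namespace Crest.Agent.R220

/-- **coreGadget** (from `core` by scaling and rigid motions). -/
theorem coreGadget (c M : ℝ) (hc : 0 < c) (hM : 0 < M) : ∃ r0 τ : ℝ, 0 < r0 ∧ 0 < τ ∧
    ∀ r : ℝ, 0 < r → r ≤ r0 → ∀ z0 e1 e2 : E2, ‖e1‖ = 1 → ‖e2‖ = 1 → @inner ℝ E2 _ e1 e2 = 0 →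
    ∀ (N : ℕ) (ε : ℝ), 0 < ε → ∃ h : E2 → (E2 →L[ℝ] E2 →L[ℝ] ℝ),
      ContDiff ℝ ∞ h ∧ (∀ x, x ∉ Metric.closedBall z0 (2 * r) → h x = 0) ∧
      (∀ x v w, h x v w = h x w v) ∧
      (∀ k ≤ N, ∀ x, ‖iteratedFDeriv ℝ k h x‖ ≤ ε) ∧
      ∀ F : E2 → E3, ContDiff ℝ ∞ F →
        (∀ k : ℕ, 1 ≤ k → k ≤ 4 → ∀ x ∈ Metric.closedBall z0 (2 * r),
          ‖iteratedFDeriv ℝ k F x‖ ≤ M) →
        IsoE (Metric.closedBall z0 (2 * r)) h F →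
        c ≤ ‖D2 F z0 e1 e1‖ →
        ‖D2 F z0 e1 e2‖ ≤ τ * ‖D2 F z0 e1 e1‖ →
        ‖D2 F z0 e2 e2‖ ≤ τ * ‖D2 F z0 e1 e1‖ → False :=
  coreGadget_of core c M hc hM

end Crest.Agent.R220
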