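import Crest.Agent.R220.TopDefs

/-! # Row 220 (S0341), Step 0: from the gadgets to the metric. -/

set_option autoImplicit false

open scoped ContDiff
open Metric Set

namespace Crest.Agent.R220

/-- the statement of `gadget` -/
def GadgetStmt : Prop :=
  ∀ (z : E2) (R M : ℝ), 0 < R → 0 < M → ∀ (N : ℕ) (ε : ℝ), 0 < ε →
    ∃ h : E2 → (E2 →L[ℝ] E2 →L[ℝ] ℝ),
      ContDiff ℝ ∞ h ∧ (∀ x, x ∉ Metric.closedBall z R → h x = 0) ∧
      (∀ x v w, h x v w = h x w v) ∧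
      (∀ k ≤ N, ∀ x, ‖iteratedFDeriv ℝ k h x‖ ≤ ε) ∧
      ∀ F : E2 → E3, ContDiff ℝ ∞ F →
        (∀ k : ℕ, 1 ≤ k → k ≤ 4 → ∀ x ∈ Metric.closedBall z R, ‖iteratedFDeriv ℝ k F x‖ ≤ M) →
        ¬ IsoE (Metric.closedBall z R) h F

namespace Final

abbrev BF := E2 →L[ℝ] E2 →L[ℝ] ℝ

/-- the Euclidean metric as a bilinear form -/
noncomputable def gE : BF := innerSL ℝ

lemma gE_apply (v w : E2) : gE v w = @inner ℝ E2 _ v w := rfl

/-- centres -/
noncomputable def cen (n : ℕ) : E2 := (1 / 2 : ℝ) ^ (n + 2) • EuclideanSpace.single 0 1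

/-- radii -/
noncomputable def rad (n : ℕ) : ℝ := (1 / 2 : ℝ) ^ (n + 5)

lemma rad_pos (n : ℕ) : 0 < rad n := by unfold rad; positivity

lemma norm_e : ‖(EuclideanSpace.single 0 1 : E2)‖ = 1 := by simp

lemma norm_cen (n : ℕ) : ‖cen n‖ = (1 / 2 : ℝ) ^ (n + 2) := by
  unfold cen
  rw [norm_smul, norm_e]
  simp

lemma dist_cen (n m : ℕ) : dist (cen n) (cen m) = |(1 / 2 : ℝ) ^ (n + 2) - (1 / 2 : ℝ) ^ (m + 2)| := by
  rw [dist_eq_norm]
  unfold cen
  rw [← sub_smul, norm_smul, norm_e]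
  simp

lemma dist_cen_aux {n m : ℕ} (h : n < m) :
    2 * rad n + 2 * rad m ≤ (1 / 2 : ℝ) ^ (n + 2) - (1 / 2 : ℝ) ^ (m + 2) := by
  obtain ⟨k, rfl⟩ := Nat.exists_eq_add_of_lt h
  have hp : (0 : ℝ) < (1 / 2) ^ n := by positivity
  have hk : (1 / 2 : ℝ) ^ k ≤ 1 := pow_le_one₀ (by norm_num) (by norm_num)
  have hk0 : (0 : ℝ) < (1 / 2) ^ k := by positivity
  unfold rad
  have e1 : (1 / 2 : ℝ) ^ (n + 2) = (1 / 2) ^ n * (1 / 4) := by rw [pow_add]; norm_num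
  have e2 : (1 / 2 : ℝ) ^ (n + 5) = (1 / 2) ^ n * (1 / 32) := by rw [pow_add]; norm_num
  have e3 : (1 / 2 : ℝ) ^ (n + k + 1 + 2) = (1 / 2) ^ n * ((1 / 2) ^ k * (1 / 8)) := by
    rw [show n + k + 1 + 2 = n + (k + 3) by ring, pow_add, pow_add]; norm_num
  have e4 : (1 / 2 : ℝ) ^ (n + k + 1 + 5) = (1 / 2) ^ n * ((1 / 2) ^ k * (1 / 64)) := by
    rw [show n + k + 1 + 5 = n + (k + 6) by ring, pow_add, pow_add]; norm_num
  rw [e1, e2, e3, e4]
  nlinarith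

lemma dist_cen_ge {n m : ℕ} (h : n ≠ m) : 2 * rad n + 2 * rad m ≤ dist (cen n) (cen m) := by
  rw [dist_cen]
  rcases lt_or_gt_of_ne h with h | h
  · exact (dist_cen_aux h).trans (le_abs_self _)
  · rw [abs_sub_comm, add_comm]
    exact (dist_cen_aux h).trans (le_abs_self _)

/-- the closed discs are disjoint -/
lemma notMem_of_ne {n m : ℕ} (h : n ≠ m) {x : E2} (hx : x ∈ closedBall (cen n) (rad n)) :
    x ∉ closedBall (cen m) (rad m) := by
  intro hm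
  rw [mem_closedBall] at hx hm
  have h1 := dist_cen_ge h
  have h2 := dist_triangle (cen n) x (cen m)
  rw [dist_comm (cen n) x] at h2
  have := rad_pos n
  have := rad_pos m
  linarith

lemma summable_w : Summable (fun n : ℕ => (1 / 2 : ℝ) ^ (n + 2)) := by
  have := (summable_geometric_of_lt_one (r := (1 / 2 : ℝ)) (by norm_num) (by norm_num)).mul_right
    ((1 / 2) ^ 2)
  simpa [pow_add] using this

lemma tsum_w : ∑' n : ℕ, (1 / 2 : ℝ) ^ (n + 2) = 1 / 2 := by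
  have : ∑' n : ℕ, (1 / 2 : ℝ) ^ (n + 2) = (∑' n : ℕ, (1 / 2 : ℝ) ^ n) * (1 / 2) ^ 2 := by
    rw [← tsum_mul_right]; simp [pow_add]
  rw [this, tsum_geometric_of_lt_one (by norm_num) (by norm_num)]; norm_num

lemma summable_aux {G : Type*} [NormedAddCommGroup G] [CompleteSpace G] (h : ℕ → G)
    (hb : ∀ n, ‖h n‖ ≤ (1 / 2) ^ (n + 2)) : Summable fun n => h n :=
  Summable.of_norm_bounded summable_w hb

/-- the metric -/
noncomputable def met (h : ℕ → E2 → BF) (x : E2) : BF := gE + ∑' n, h n x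

section met

variable (h : ℕ → E2 → BF) (hb : ∀ n k x, k ≤ n → ‖iteratedFDeriv ℝ k (h n) x‖ ≤ (1 / 2) ^ (n + 2))

include hb

lemma hb0 (n : ℕ) (x : E2) : ‖h n x‖ ≤ (1 / 2) ^ (n + 2) := by
  have := hb n 0 x (Nat.zero_le _)
  rwa [norm_iteratedFDeriv_zero] at this

lemma hS (x : E2) : Summable fun n => h n x :=
  summable_aux (fun n => h n x) (fun n => hb0 h hb n x)

lemma met_apply (x v w : E2) : met h x v w = @inner ℝ E2 _ v w + ∑' n, h n x v w := by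
  unfold met
  have h0 : (gE + ∑' n, h n x) v w = gE v w + (∑' n, h n x) v w := rfl
  rw [h0, gE_apply]
  congr 1
  have h1 := (hS h hb x).hasSum
  have h2 := h1.mapL (ContinuousLinearMap.apply ℝ (E2 →L[ℝ] ℝ) v)
  have h3 := h2.mapL (ContinuousLinearMap.apply ℝ ℝ w)
  exact h3.tsum_eq.symm

lemma met_contDiff (hsm : ∀ n, ContDiff ℝ ∞ (h n)) : ContDiff ℝ ∞ (met h) := by
  unfold met
  refine contDiff_const.add ?_
  refine contDiff_tsum_of_eventually (v := fun _ n => (1 / 2 : ℝ) ^ (n + 2)) hsm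
    (fun _ _ => summable_w) ?_
  intro k _
  rw [Nat.cofinite_eq_atTop]
  filter_upwards [Filter.eventually_ge_atTop k] with n hn x
  exact hb n k x hn

lemma met_symm (hsy : ∀ n x v w, h n x v w = h n x w v) (x v w : E2) :
    met h x v w = met h x w v := by
  rw [met_apply h hb, met_apply h hb, real_inner_comm]
  congr 1
  exact tsum_congr fun n => hsy n _ v w

lemma met_pos (x v : E2) (hv : v ≠ 0) : 0 < met h x v v := by
  rw [met_apply h hb]
  have hvp : 0 < ‖v‖ := norm_pos_iff.mpr hv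
  have hterm : ∀ n, ‖h n x v v‖ ≤ (1 / 2) ^ (n + 2) * (‖v‖ * ‖v‖) := by
    intro n
    calc ‖h n x v v‖ ≤ ‖h n x‖ * ‖v‖ * ‖v‖ := ContinuousLinearMap.le_opNorm₂ _ _ _
      _ ≤ (1 / 2) ^ (n + 2) * ‖v‖ * ‖v‖ := by
          gcongr; exact hb0 h hb n x
      _ = _ := by ring
  have h1 : ‖∑' n, h n x v v‖ ≤ (1 / 2) * (‖v‖ * ‖v‖) := by
    have := tsum_of_norm_bounded (f := fun n => h n x v v)
      ((summable_w.mul_right (‖v‖ * ‖v‖)).hasSum) hterm
    rwa [tsum_mul_right, tsum_w] at this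
  rw [real_inner_self_eq_norm_sq]
  have h2 := neg_abs_le (∑' n, h n x v v)
  rw [Real.norm_eq_abs] at h1
  nlinarith

lemma met_at (hsp : ∀ n x, x ∉ closedBall (cen n) (rad n) → h n x = 0) (n : ℕ) (x : E2)
    (hx : x ∈ closedBall (cen n) (rad n)) (v w : E2) :
    met h x v w = @inner ℝ E2 _ v w + h n x v w := by
  rw [met_apply h hb]
  congr 1
  rw [tsum_eq_single n]
  intro m hm
  rw [hsp m x (notMem_of_ne (Ne.symm hm) hx)]
  rfl

end met

/-- globalisation of a locally smooth map -/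
lemma exists_global (U : Set E2) (hU : IsOpen U) (δ : ℝ) (hδ : 0 < δ)
    (hδU : closedBall (0 : E2) δ ⊆ U) (F : E2 → E3) (hF : ContDiffOn ℝ ∞ F U) :
    ∃ G : E2 → E3, ContDiff ℝ ∞ G ∧ ∀ x ∈ ball (0 : E2) (δ / 2), G =ᶠ[nhds x] F := by
  let χ : ContDiffBump (0 : E2) := ⟨δ / 2, δ, by positivity, by linarith⟩
  refine ⟨fun x => χ x • F x, ?_, ?_⟩
  · rw [contDiff_iff_contDiffAt]
    intro x
    by_cases hx : x ∈ U
    · exact (χ.contDiff.contDiffAt).smul (hF.contDiffAt (hU.mem_nhds hx))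
    · have h1 : (fun x => χ x • F x) =ᶠ[nhds x] fun _ => 0 := by
        have hx2 : x ∈ (tsupport χ)ᶜ := by
          intro hx3
          rw [χ.tsupport_eq] at hx3
          exact hx (hδU hx3)
        filter_upwards [(isClosed_tsupport χ).isOpen_compl.mem_nhds hx2] with y hy
        rw [image_eq_zero_of_notMem_tsupport hy, zero_smul]
      exact contDiffAt_const.congr_of_eventuallyEq h1
  · intro x hx
    filter_upwards [isOpen_ball.mem_nhds hx] with y hy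
    have : χ y = 1 := χ.one_of_mem_closedBall (ball_subset_closedBall hy)
    simp only [this, one_smul]

lemma exists_bound (U : Set E2) (hU : IsOpen U) (δ : ℝ)
    (hδU : closedBall (0 : E2) δ ⊆ U) (F : E2 → E3) (hF : ContDiffOn ℝ ∞ F U) :
    ∃ M : ℝ, ∀ j : ℕ, j ≤ 4 → ∀ x ∈ closedBall (0 : E2) δ, ‖iteratedFDeriv ℝ j F x‖ ≤ M := by
  have hbound : ∀ j : ℕ, ∃ C : ℝ, ∀ x ∈ closedBall (0 : E2) δ, ‖iteratedFDeriv ℝ j F x‖ ≤ C := by
    intro j
    have hc : ContinuousOn (iteratedFDeriv ℝ j F) U := by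
      have h1 : ContinuousOn (iteratedFDerivWithin ℝ j F U) U :=
        hF.continuousOn_iteratedFDerivWithin (by exact_mod_cast le_top) hU.uniqueDiffOn
      refine h1.congr fun x hx => ?_
      exact (iteratedFDerivWithin_of_isOpen j hU hx).symm
    exact (isCompact_closedBall (0 : E2) δ).exists_bound_of_continuousOn (hc.mono hδU)
  choose C hC using hbound
  refine ⟨∑ j ∈ Finset.range 5, |C j|, fun j hj x hx => ?_⟩
  refine (hC j x hx).trans ((le_abs_self _).trans ?_)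
  exact Finset.single_le_sum (f := fun j => |C j|) (fun i _ => abs_nonneg _)
    (Finset.mem_range.mpr (by omega))

lemma exists_n (M δ : ℝ) (hδ : 0 < δ) : ∃ n : ℕ, M ≤ n + 1 ∧
    closedBall (cen n) (rad n) ⊆ ball (0 : E2) δ := by
  obtain ⟨a, ha⟩ := exists_nat_ge M
  obtain ⟨b, hb⟩ := exists_pow_lt_of_lt_one hδ (by norm_num : (1 / 2 : ℝ) < 1)
  refine ⟨max a b, ?_, ?_⟩
  · have : (a : ℝ) ≤ (max a b : ℕ) := by exact_mod_cast le_max_left a b
    linarith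
  · set n := max a b with hn
    have hn2 : (1 / 2 : ℝ) ^ n < δ :=
      (pow_le_pow_of_le_one (by norm_num) (by norm_num) (le_max_right a b)).trans_lt hb
    intro x hx
    rw [mem_closedBall, dist_eq_norm] at hx
    rw [mem_ball, dist_zero_right]
    have h1 : ‖x‖ ≤ ‖x - cen n‖ + ‖cen n‖ := by
      have := norm_add_le (x - cen n) (cen n)
      rwa [sub_add_cancel] at this
    rw [norm_cen] at h1
    have e1 : (1 / 2 : ℝ) ^ (n + 2) = (1 / 2) ^ n * (1 / 4) := by rw [pow_add]; norm_num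
    have e2 : rad n = (1 / 2) ^ n * (1 / 32) := by unfold rad; rw [pow_add]; norm_num
    have hp : (0 : ℝ) < (1 / 2) ^ n := by positivity
    rw [e2] at hx
    rw [e1] at h1
    linarith

/-- no local immersion -/
lemma no_immersion (h : ℕ → E2 → BF)
    (hb : ∀ n k x, k ≤ n → ‖iteratedFDeriv ℝ k (h n) x‖ ≤ (1 / 2) ^ (n + 2))
    (hsp : ∀ n x, x ∉ closedBall (cen n) (rad n) → h n x = 0)
    (hno : ∀ n, ∀ F : E2 → E3, ContDiff ℝ ∞ F →
        (∀ k : ℕ, 1 ≤ k → k ≤ 4 → ∀ x ∈ closedBall (cen n) (rad n),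
          ‖iteratedFDeriv ℝ k F x‖ ≤ (n : ℝ) + 1) →
        ¬ IsoE (closedBall (cen n) (rad n)) (h n) F)
    (U : Set E2) (hU : IsOpen U) (h0 : (0 : E2) ∈ U) (F : E2 → E3) (hF : ContDiffOn ℝ ∞ F U)
    (hFg : ∀ x ∈ U, ∀ v w, @inner ℝ E3 _ (fderiv ℝ F x v) (fderiv ℝ F x w) = met h x v w) :
    False := by
  obtain ⟨δ, hδ, hδU⟩ : ∃ δ > 0, closedBall (0 : E2) δ ⊆ U := by
    obtain ⟨δ, hδ, hb⟩ := Metric.isOpen_iff.mp hU 0 h0
    exact ⟨δ / 2, by positivity, (closedBall_subset_ball (by linarith)).trans hb⟩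
  obtain ⟨M, hM⟩ := exists_bound U hU δ hδU F hF
  obtain ⟨G, hG, hGF⟩ := exists_global U hU δ hδ hδU F hF
  obtain ⟨n, hn1, hn2⟩ := exists_n M (δ / 2) (by positivity)
  have hin : ∀ x ∈ closedBall (cen n) (rad n), x ∈ closedBall (0 : E2) δ := fun x hx =>
    closedBall_subset_closedBall (by linarith) (ball_subset_closedBall (hn2 hx))
  refine hno n G hG ?_ ?_
  · intro k _ hk4 x hx
    have h1 : iteratedFDeriv ℝ k G x = iteratedFDeriv ℝ k F x :=
      (hGF x (hn2 hx)).iteratedFDeriv ℝ k |>.eq_of_nhds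
    rw [h1]
    exact (hM k hk4 x (hin x hx)).trans hn1
  · intro x hx v w
    have h1 : fderiv ℝ G x = fderiv ℝ F x := (hGF x (hn2 hx)).fderiv_eq
    rw [h1, hFg x (hδU (hin x hx)), met_at h hb hsp n x hx]

end Final

/-- **final**, from the gadget statement. -/
theorem final_of_gadget (hG : GadgetStmt) :
    ∃ g : EuclideanSpace ℝ (Fin 2) →
        (EuclideanSpace ℝ (Fin 2) →L[ℝ] EuclideanSpace ℝ (Fin 2) →L[ℝ] ℝ),
      ContDiffOn ℝ ∞ g {x : EuclideanSpace ℝ (Fin 2) | ∀ i, x i ∈ Set.Ioo (-1 : ℝ) 1} ∧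
      (∀ x ∈ {x : EuclideanSpace ℝ (Fin 2) | ∀ i, x i ∈ Set.Ioo (-1 : ℝ) 1}, ∀ v w, g x v w = g x w v) ∧
      (∀ x ∈ {x : EuclideanSpace ℝ (Fin 2) | ∀ i, x i ∈ Set.Ioo (-1 : ℝ) 1}, ∀ v, v ≠ 0 → 0 < g x v v) ∧
      ∀ U : Set (EuclideanSpace ℝ (Fin 2)), IsOpen U → (0 : EuclideanSpace ℝ (Fin 2)) ∈ U →
        U ⊆ {x : EuclideanSpace ℝ (Fin 2) | ∀ i, x i ∈ Set.Ioo (-1 : ℝ) 1} →
        ¬ ∃ F : EuclideanSpace ℝ (Fin 2) → EuclideanSpace ℝ (Fin 3), ContDiffOn ℝ ∞ F U ∧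
          ∀ x ∈ U, ∀ v w, @inner ℝ (EuclideanSpace ℝ (Fin 3)) _ (fderiv ℝ F x v) (fderiv ℝ F x w)
            = g x v w := by
  have key : ∃ h : ℕ → E2 → Final.BF, (∀ n, ContDiff ℝ ∞ (h n)) ∧
      (∀ n x v w, h n x v w = h n x w v) ∧
      (∀ n x, x ∉ closedBall (Final.cen n) (Final.rad n) → h n x = 0) ∧
      (∀ n k x, k ≤ n → ‖iteratedFDeriv ℝ k (h n) x‖ ≤ (1 / 2) ^ (n + 2)) ∧
      (∀ n, ∀ F : E2 → E3, ContDiff ℝ ∞ F →
        (∀ k : ℕ, 1 ≤ k → k ≤ 4 → ∀ x ∈ closedBall (Final.cen n) (Final.rad n),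
          ‖iteratedFDeriv ℝ k F x‖ ≤ (n : ℝ) + 1) →
        ¬ IsoE (closedBall (Final.cen n) (Final.rad n)) (h n) F) := by
    have h1 : ∀ n : ℕ, _ := fun n : ℕ =>
      hG (Final.cen n) (Final.rad n) ((n : ℝ) + 1) (Final.rad_pos n) (by positivity) n
        ((1 / 2) ^ (n + 2)) (by positivity)
    choose h a1 a2 a3 a4 a5 using h1
    exact ⟨h, a1, a3, a2, fun n k x hk => a4 n k hk x, a5⟩
  obtain ⟨h, hsm, hsy, hsp, hb, hno⟩ := key
  refine ⟨Final.met h, (Final.met_contDiff h hb hsm).contDiffOn,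
    fun x _ v w => Final.met_symm h hb hsy x v w, fun x _ v hv => Final.met_pos h hb x v hv, ?_⟩
  rintro U hU h0 - ⟨F, hF, hFg⟩
  exact Final.no_immersion h hb hsp hno U hU h0 F hF hFg

end Crest.Agent.R220
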