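import Crest.Agent.R220.Basic

/-!
# Row 220: the frame operators `Pop p Y = ∂/∂p|_Y`, `Top p Y = ∂/∂Y|_p`
-/

set_option autoImplicit false

open scoped ContDiff
open MeasureTheory

namespace Crest.Agent.R220

section rules

variable {p Y f g : Pl → ℝ} {z : Pl}

/-! ### brackets are derivations -/

theorem br_add_left (hf : DifferentiableAt ℝ f z) (hg : DifferentiableAt ℝ g z) (k : Pl → ℝ) :
    br (fun z => f z + g z) k z = br f k z + br g k z := by
  unfold br; rw [dx_add_at hf hg, dy_add_at hf hg]; ring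

theorem br_add_right (k : Pl → ℝ) (hf : DifferentiableAt ℝ f z) (hg : DifferentiableAt ℝ g z) :
    br k (fun z => f z + g z) z = br k f z + br k g z := by
  unfold br; rw [dx_add_at hf hg, dy_add_at hf hg]; ring

theorem br_sub_left (hf : DifferentiableAt ℝ f z) (hg : DifferentiableAt ℝ g z) (k : Pl → ℝ) :
    br (fun z => f z - g z) k z = br f k z - br g k z := by
  unfold br; rw [dx_sub_at hf hg, dy_sub_at hf hg]; ring

theorem br_sub_right (k : Pl → ℝ) (hf : DifferentiableAt ℝ f z) (hg : DifferentiableAt ℝ g z) :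
    br k (fun z => f z - g z) z = br k f z - br k g z := by
  unfold br; rw [dx_sub_at hf hg, dy_sub_at hf hg]; ring

theorem br_mul_left (hf : DifferentiableAt ℝ f z) (hg : DifferentiableAt ℝ g z) (k : Pl → ℝ) :
    br (fun z => f z * g z) k z = f z * br g k z + g z * br f k z := by
  unfold br; rw [dx_mul_at hf hg, dy_mul_at hf hg]; ring

theorem br_mul_right (k : Pl → ℝ) (hf : DifferentiableAt ℝ f z) (hg : DifferentiableAt ℝ g z) :
    br k (fun z => f z * g z) z = f z * br k g z + g z * br k f z := by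
  unfold br; rw [dx_mul_at hf hg, dy_mul_at hf hg]; ring

theorem br_neg_left (k : Pl → ℝ) : br (fun z => - f z) k z = - br f k z := by
  unfold br; rw [dx_neg_at, dy_neg_at]; ring

theorem br_neg_right (k : Pl → ℝ) : br k (fun z => - f z) z = - br k f z := by
  unfold br; rw [dx_neg_at, dy_neg_at]; ring

theorem br_const_left (c : ℝ) (k : Pl → ℝ) : br (fun _ => c) k z = 0 := by
  unfold br; rw [dx_const, dy_const]; ring

theorem br_const_right (c : ℝ) (k : Pl → ℝ) : br k (fun _ => c) z = 0 := by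
  unfold br; rw [dx_const, dy_const]; ring

theorem br_const_mul_left (c : ℝ) (hf : DifferentiableAt ℝ f z) (k : Pl → ℝ) :
    br (fun z => c * f z) k z = c * br f k z := by
  unfold br; rw [dx_const_mul_at c hf, dy_const_mul_at c hf]; ring

theorem br_const_mul_right (c : ℝ) (k : Pl → ℝ) (hf : DifferentiableAt ℝ f z) :
    br k (fun z => c * f z) z = c * br k f z := by
  unfold br; rw [dx_const_mul_at c hf, dy_const_mul_at c hf]; ring

theorem br_pow_left (hf : DifferentiableAt ℝ f z) (n : ℕ) (k : Pl → ℝ) :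
    br (fun z => f z ^ n) k z = n * f z ^ (n - 1) * br f k z := by
  unfold br; rw [dx_pow_at hf, dy_pow_at hf]; ring

theorem br_pow_right (hf : DifferentiableAt ℝ f z) (n : ℕ) (k : Pl → ℝ) :
    br k (fun z => f z ^ n) z = n * f z ^ (n - 1) * br k f z := by
  unfold br; rw [dx_pow_at hf, dy_pow_at hf]; ring

theorem br_comp_left {φ : ℝ → ℝ} (hφ : DifferentiableAt ℝ φ (f z)) (hf : DifferentiableAt ℝ f z)
    (k : Pl → ℝ) : br (fun z => φ (f z)) k z = deriv φ (f z) * br f k z := by
  unfold br; rw [dx_comp_at hφ hf, dy_comp_at hφ hf]; ring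

theorem br_comp_right {φ : ℝ → ℝ} (hφ : DifferentiableAt ℝ φ (f z))
    (hf : DifferentiableAt ℝ f z)
    (k : Pl → ℝ) : br k (fun z => φ (f z)) z = deriv φ (f z) * br k f z := by
  unfold br; rw [dx_comp_at hφ hf, dy_comp_at hφ hf]; ring

/-! ### `Pop` and `Top` are derivations -/

theorem Pop_eq_coeff (p Y f : Pl → ℝ) (z : Pl) :
    Pop p Y f z = (dy Y z / br p Y z) * dx f z - (dx Y z / br p Y z) * dy f z := by
  unfold Pop; rw [show br f Y z = dx f z * dy Y z - dy f z * dx Y z from rfl]; ring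

theorem Top_eq_coeff (p Y f : Pl → ℝ) (z : Pl) :
    Top p Y f z = (dx p z / br p Y z) * dy f z - (dy p z / br p Y z) * dx f z := by
  unfold Top; rw [show br p f z = dx p z * dy f z - dy p z * dx f z from rfl]; ring

theorem Pop_mul_J (p Y f : Pl → ℝ) (hJ : br p Y z ≠ 0) : Pop p Y f z * br p Y z = br f Y z := by
  unfold Pop; field_simp

theorem Top_mul_J (p Y f : Pl → ℝ) (hJ : br p Y z ≠ 0) : Top p Y f z * br p Y z = br p f z := by
  unfold Top; field_simp

/-- inverse chain rule -/
theorem dx_eq_frame (p Y f : Pl → ℝ) (z : Pl) (hJ : br p Y z ≠ 0) :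
    dx f z = Pop p Y f z * dx p z + Top p Y f z * dx Y z := by
  have h : br p Y z = dx p z * dy Y z - dy p z * dx Y z := rfl
  rw [Pop_eq_coeff, Top_eq_coeff]
  field_simp
  rw [h]; ring

/-- inverse chain rule -/
theorem dy_eq_frame (p Y f : Pl → ℝ) (z : Pl) (hJ : br p Y z ≠ 0) :
    dy f z = Pop p Y f z * dy p z + Top p Y f z * dy Y z := by
  have h : br p Y z = dx p z * dy Y z - dy p z * dx Y z := rfl
  rw [Pop_eq_coeff, Top_eq_coeff]
  field_simp
  rw [h]; ring

theorem Pop_add_at (hf : DifferentiableAt ℝ f z) (hg : DifferentiableAt ℝ g z) :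
    Pop p Y (fun z => f z + g z) z = Pop p Y f z + Pop p Y g z := by
  unfold Pop; rw [br_add_left hf hg]; ring

theorem Top_add_at (hf : DifferentiableAt ℝ f z) (hg : DifferentiableAt ℝ g z) :
    Top p Y (fun z => f z + g z) z = Top p Y f z + Top p Y g z := by
  unfold Top; rw [br_add_right _ hf hg]; ring

theorem Pop_sub_at (hf : DifferentiableAt ℝ f z) (hg : DifferentiableAt ℝ g z) :
    Pop p Y (fun z => f z - g z) z = Pop p Y f z - Pop p Y g z := by
  unfold Pop; rw [br_sub_left hf hg]; ring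

theorem Top_sub_at (hf : DifferentiableAt ℝ f z) (hg : DifferentiableAt ℝ g z) :
    Top p Y (fun z => f z - g z) z = Top p Y f z - Top p Y g z := by
  unfold Top; rw [br_sub_right _ hf hg]; ring

theorem Pop_mul_at (hf : DifferentiableAt ℝ f z) (hg : DifferentiableAt ℝ g z) :
    Pop p Y (fun z => f z * g z) z = f z * Pop p Y g z + g z * Pop p Y f z := by
  unfold Pop; rw [br_mul_left hf hg]; ring

theorem Top_mul_at (hf : DifferentiableAt ℝ f z) (hg : DifferentiableAt ℝ g z) :
    Top p Y (fun z => f z * g z) z = f z * Top p Y g z + g z * Top p Y f z := by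
  unfold Top; rw [br_mul_right _ hf hg]; ring

theorem Pop_neg : Pop p Y (fun z => - f z) z = - Pop p Y f z := by
  unfold Pop; rw [br_neg_left]; ring

theorem Top_neg : Top p Y (fun z => - f z) z = - Top p Y f z := by
  unfold Top; rw [br_neg_right]; ring

theorem Pop_const (c : ℝ) : Pop p Y (fun _ => c) z = 0 := by
  unfold Pop; rw [br_const_left]; simp

theorem Top_const (c : ℝ) : Top p Y (fun _ => c) z = 0 := by
  unfold Top; rw [br_const_right]; simp

theorem Pop_const_mul_at (c : ℝ) (hf : DifferentiableAt ℝ f z) :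
    Pop p Y (fun z => c * f z) z = c * Pop p Y f z := by
  unfold Pop; rw [br_const_mul_left c hf]; ring

theorem Top_const_mul_at (c : ℝ) (hf : DifferentiableAt ℝ f z) :
    Top p Y (fun z => c * f z) z = c * Top p Y f z := by
  unfold Top; rw [br_const_mul_right c _ hf]; ring

theorem Pop_pow_at (hf : DifferentiableAt ℝ f z) (n : ℕ) :
    Pop p Y (fun z => f z ^ n) z = n * f z ^ (n - 1) * Pop p Y f z := by
  unfold Pop; rw [br_pow_left hf]; ring

theorem Top_pow_at (hf : DifferentiableAt ℝ f z) (n : ℕ) :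
    Top p Y (fun z => f z ^ n) z = n * f z ^ (n - 1) * Top p Y f z := by
  unfold Top; rw [br_pow_right hf]; ring

theorem Pop_comp_at {φ : ℝ → ℝ} (hφ : DifferentiableAt ℝ φ (f z)) (hf : DifferentiableAt ℝ f z) :
    Pop p Y (fun z => φ (f z)) z = deriv φ (f z) * Pop p Y f z := by
  unfold Pop; rw [br_comp_left hφ hf]; ring

theorem Top_comp_at {φ : ℝ → ℝ} (hφ : DifferentiableAt ℝ φ (f z)) (hf : DifferentiableAt ℝ f z) :
    Top p Y (fun z => φ (f z)) z = deriv φ (f z) * Top p Y f z := by
  unfold Top; rw [br_comp_right hφ hf]; ring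

theorem Pop_p (hJ : br p Y z ≠ 0) : Pop p Y p z = 1 := by
  unfold Pop; exact div_self hJ

theorem Pop_Y : Pop p Y Y z = 0 := by
  unfold Pop; rw [br_self]; simp

theorem Top_p : Top p Y p z = 0 := by
  unfold Top; rw [br_self]; simp

theorem Top_Y (hJ : br p Y z ≠ 0) : Top p Y Y z = 1 := by
  unfold Top; exact div_self hJ

theorem Pop_congr (h : f =ᶠ[nhds z] g) : Pop p Y f z = Pop p Y g z := by
  rw [Pop_eq_coeff, Pop_eq_coeff, dx_congr h, dy_congr h]

theorem Top_congr (h : f =ᶠ[nhds z] g) : Top p Y f z = Top p Y g z := by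
  rw [Top_eq_coeff, Top_eq_coeff, dx_congr h, dy_congr h]

/-! ### chain rule, and rules for smooth functions with explicit arguments -/

/-- chain rule: `P f = (P x) f_x + (P y) f_y` -/
theorem Pop_eq (p Y f : Pl → ℝ) (z : Pl) :
    Pop p Y f z = Pop p Y (fun z => z.1) z * dx f z + Pop p Y (fun z => z.2) z * dy f z := by
  rw [Pop_eq_coeff, Pop_eq_coeff, Pop_eq_coeff, dx_fst, dx_snd, dy_fst, dy_snd]; ring

theorem Top_eq (p Y f : Pl → ℝ) (z : Pl) :
    Top p Y f z = Top p Y (fun z => z.1) z * dx f z + Top p Y (fun z => z.2) z * dy f z := by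
  rw [Top_eq_coeff, Top_eq_coeff, Top_eq_coeff, dx_fst, dx_snd, dy_fst, dy_snd]; ring

theorem Pop_fst (p Y : Pl → ℝ) (z : Pl) : Pop p Y (fun z => z.1) z = dy Y z / br p Y z := by
  rw [Pop_eq_coeff, dx_fst, dy_fst]; ring

theorem Pop_snd (p Y : Pl → ℝ) (z : Pl) : Pop p Y (fun z => z.2) z = - dx Y z / br p Y z := by
  rw [Pop_eq_coeff, dx_snd, dy_snd]; ring

theorem Top_fst (p Y : Pl → ℝ) (z : Pl) : Top p Y (fun z => z.1) z = - dy p z / br p Y z := by
  rw [Top_eq_coeff, dx_fst, dy_fst]; ring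

theorem Top_snd (p Y : Pl → ℝ) (z : Pl) : Top p Y (fun z => z.2) z = dx p z / br p Y z := by
  rw [Top_eq_coeff, dx_snd, dy_snd]; ring

theorem Pop_mul (p Y f g : Pl → ℝ) (hf : Sm f) (hg : Sm g) (z : Pl) :
    Pop p Y (fun z => f z * g z) z = Pop p Y f z * g z + f z * Pop p Y g z := by
  rw [Pop_mul_at hf.differentiableAt hg.differentiableAt]; ring

theorem Top_mul (p Y f g : Pl → ℝ) (hf : Sm f) (hg : Sm g) (z : Pl) :
    Top p Y (fun z => f z * g z) z = Top p Y f z * g z + f z * Top p Y g z := by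
  rw [Top_mul_at hf.differentiableAt hg.differentiableAt]; ring

theorem Pop_add (p Y f g : Pl → ℝ) (hf : Sm f) (hg : Sm g) (z : Pl) :
    Pop p Y (fun z => f z + g z) z = Pop p Y f z + Pop p Y g z :=
  Pop_add_at hf.differentiableAt hg.differentiableAt

theorem Top_add (p Y f g : Pl → ℝ) (hf : Sm f) (hg : Sm g) (z : Pl) :
    Top p Y (fun z => f z + g z) z = Top p Y f z + Top p Y g z :=
  Top_add_at hf.differentiableAt hg.differentiableAt

theorem Pop_sub (p Y f g : Pl → ℝ) (hf : Sm f) (hg : Sm g) (z : Pl) :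
    Pop p Y (fun z => f z - g z) z = Pop p Y f z - Pop p Y g z :=
  Pop_sub_at hf.differentiableAt hg.differentiableAt

theorem Top_sub (p Y f g : Pl → ℝ) (hf : Sm f) (hg : Sm g) (z : Pl) :
    Top p Y (fun z => f z - g z) z = Top p Y f z - Top p Y g z :=
  Top_sub_at hf.differentiableAt hg.differentiableAt

theorem Pop_const_mul (p Y : Pl → ℝ) (c : ℝ) (f : Pl → ℝ) (hf : Sm f) (z : Pl) :
    Pop p Y (fun z => c * f z) z = c * Pop p Y f z :=
  Pop_const_mul_at c hf.differentiableAt

theorem Top_const_mul (p Y : Pl → ℝ) (c : ℝ) (f : Pl → ℝ) (hf : Sm f) (z : Pl) :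
    Top p Y (fun z => c * f z) z = c * Top p Y f z :=
  Top_const_mul_at c hf.differentiableAt

theorem Pop_pow (p Y f : Pl → ℝ) (hf : Sm f) (n : ℕ) (z : Pl) :
    Pop p Y (fun z => f z ^ n) z = n * f z ^ (n - 1) * Pop p Y f z :=
  Pop_pow_at hf.differentiableAt n

theorem Top_pow (p Y f : Pl → ℝ) (hf : Sm f) (n : ℕ) (z : Pl) :
    Top p Y (fun z => f z ^ n) z = n * f z ^ (n - 1) * Top p Y f z :=
  Top_pow_at hf.differentiableAt n

theorem Pop_smooth (p Y f : Pl → ℝ) (hp : Sm p) (hY : Sm Y) (hf : Sm f)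
    (hJ : ∀ z, br p Y z ≠ 0) : Sm (Pop p Y f) := Sm.Pop hp hY hf hJ

theorem Top_smooth (p Y f : Pl → ℝ) (hp : Sm p) (hY : Sm Y) (hf : Sm f)
    (hJ : ∀ z, br p Y z ≠ 0) : Sm (Top p Y f) := Sm.Top hp hY hf hJ

/-! ### commutation -/

theorem dx_br (hf : Sm f) (hg : Sm g) :
    dx (br f g) z = dx (dx f) z * dy g z + dx f z * dx (dy g) z
      - dx (dy f) z * dx g z - dy f z * dx (dx g) z := by
  have : br f g = fun z => dx f z * dy g z - dy f z * dx g z := rfl
  rw [this, dx_sub (hf.dx.mul' hg.dy) (hf.dy.mul' hg.dx), dx_mul hf.dx hg.dy,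
    dx_mul hf.dy hg.dx]
  ring

theorem dy_br (hf : Sm f) (hg : Sm g) :
    dy (br f g) z = dx (dy f) z * dy g z + dx f z * dy (dy g) z
      - dy (dy f) z * dx g z - dy f z * dx (dy g) z := by
  have : br f g = fun z => dx f z * dy g z - dy f z * dx g z := rfl
  rw [this, dy_sub (hf.dx.mul' hg.dy) (hf.dy.mul' hg.dx), dy_mul hf.dx hg.dy,
    dy_mul hf.dy hg.dx]
  simp only [dy_dx_at hf, dy_dx_at hg]
  ring

/-- Jacobi identity -/
theorem br_jacobi {k : Pl → ℝ} (hf : Sm f) (hg : Sm g) (hk : Sm k) :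
    br (br f g) k z + br (br g k) f z + br (br k f) g z = 0 := by
  rw [show br (br f g) k z = dx (br f g) z * dy k z - dy (br f g) z * dx k z from rfl,
    show br (br g k) f z = dx (br g k) z * dy f z - dy (br g k) z * dx f z from rfl,
    show br (br k f) g z = dx (br k f) z * dy g z - dy (br k f) z * dx g z from rfl,
    dx_br hf hg, dy_br hf hg, dx_br hg hk, dy_br hg hk, dx_br hk hf, dy_br hk hf]
  ring

theorem Pop_Top_comm_at (hp : Sm p) (hY : Sm Y) (hf : Sm f) (hJ : br p Y z ≠ 0) :
    Pop p Y (Top p Y f) z = Top p Y (Pop p Y f) z := by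
  have hT : Top p Y f = fun z => br p f z / br p Y z := rfl
  have hP : Pop p Y f = fun z => br f Y z / br p Y z := rfl
  rw [Pop_eq_coeff p Y (Top p Y f), Top_eq_coeff p Y (Pop p Y f), hT, hP,
    dx_div_at (hp.br hf).differentiableAt (hp.br hY).differentiableAt hJ,
    dy_div_at (hp.br hf).differentiableAt (hp.br hY).differentiableAt hJ,
    dx_div_at (hf.br hY).differentiableAt (hp.br hY).differentiableAt hJ,
    dy_div_at (hf.br hY).differentiableAt (hp.br hY).differentiableAt hJ,
    dx_br hp hf, dy_br hp hf, dx_br hf hY, dy_br hf hY, dx_br hp hY, dy_br hp hY]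
  have hJ' : dx p z * dy Y z - dy p z * dx Y z ≠ 0 := hJ
  simp only [show br p Y z = dx p z * dy Y z - dy p z * dx Y z from rfl,
    show br p f z = dx p z * dy f z - dy p z * dx f z from rfl,
    show br f Y z = dx f z * dy Y z - dy f z * dx Y z from rfl]
  field_simp
  ring

theorem Pop_Top_comm (p Y f : Pl → ℝ) (hp : Sm p) (hY : Sm Y) (hf : Sm f)
    (hJ : ∀ z, br p Y z ≠ 0) (z : Pl) : Pop p Y (Top p Y f) z = Top p Y (Pop p Y f) z :=
  Pop_Top_comm_at hp hY hf (hJ z)

theorem Pop_Top_comm_fun (p Y f : Pl → ℝ) (hp : Sm p) (hY : Sm Y) (hf : Sm f)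
    (hJ : ∀ z, br p Y z ≠ 0) : Pop p Y (Top p Y f) = Top p Y (Pop p Y f) :=
  funext fun z => Pop_Top_comm_at hp hY hf (hJ z)

end rules

/-! ### supports -/

theorem support_Pop_subset (p Y f : Pl → ℝ) : Function.support (Pop p Y f) ⊆ tsupport f := by
  intro z hz
  by_contra h
  apply hz
  have h1 : dx f z = 0 := by
    by_contra h'
    exact h (support_dx_subset f h')
  have h2 : dy f z = 0 := by
    by_contra h'
    exact h (support_dy_subset f h')
  rw [Pop_eq_coeff, h1, h2]; simp

theorem support_Top_subset (p Y f : Pl → ℝ) : Function.support (Top p Y f) ⊆ tsupport f := by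
  intro z hz
  by_contra h
  apply hz
  have h1 : dx f z = 0 := by
    by_contra h'
    exact h (support_dx_subset f h')
  have h2 : dy f z = 0 := by
    by_contra h'
    exact h (support_dy_subset f h')
  rw [Top_eq_coeff, h1, h2]; simp

theorem Pop_eq_zero_of_notMem {p Y f : Pl → ℝ} {z : Pl} (h : z ∉ tsupport f) :
    Pop p Y f z = 0 := by
  by_contra h'
  exact h (support_Pop_subset p Y f h')

theorem Top_eq_zero_of_notMem {p Y f : Pl → ℝ} {z : Pl} (h : z ∉ tsupport f) :
    Top p Y f z = 0 := by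
  by_contra h'
  exact h (support_Top_subset p Y f h')

protected theorem HasCompactSupport.Pop {p Y f : Pl → ℝ} (hf : HasCompactSupport f) :
    HasCompactSupport (Pop p Y f) :=
  hf.mono' (support_Pop_subset p Y f)

protected theorem HasCompactSupport.Top {p Y f : Pl → ℝ} (hf : HasCompactSupport f) :
    HasCompactSupport (Top p Y f) :=
  hf.mono' (support_Top_subset p Y f)

/-! ### integration by parts with weight `J = br p Y` -/

section integral

variable {p Y f g : Pl → ℝ}

theorem integral_Pop (p Y f : Pl → ℝ) (_hp : Sm p) (hY : Sm Y) (hf : Sm f)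
    (hJ : ∀ z, br p Y z ≠ 0) (hc : HasCompactSupport f) :
    ∫ z, Pop p Y f z * br p Y z = 0 := by
  simp_rw [fun z => Pop_mul_J (z := z) p Y f (hJ z)]
  exact integral_br_left hf hY hc

theorem integral_Top (p Y f : Pl → ℝ) (hp : Sm p) (_hY : Sm Y) (hf : Sm f)
    (hJ : ∀ z, br p Y z ≠ 0) (hc : HasCompactSupport f) :
    ∫ z, Top p Y f z * br p Y z = 0 := by
  simp_rw [fun z => Top_mul_J (z := z) p Y f (hJ z)]
  exact integral_br_right hp hf hc

theorem integral_mul_Pop (hp : Sm p) (hY : Sm Y) (hf : Sm f) (hg : Sm g)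
    (hJ : ∀ z, br p Y z ≠ 0) (hc : HasCompactSupport f ∨ HasCompactSupport g) :
    ∫ z, f z * Pop p Y g z * br p Y z = - ∫ z, Pop p Y f z * g z * br p Y z := by
  have hc1 : HasCompactSupport (fun z => f z * g z) := by
    rcases hc with h | h
    · exact h.mul_right
    · exact h.mul_left
  have h := integral_Pop p Y _ hp hY (hf.mul' hg) hJ hc1
  have e : ∀ z, Pop p Y (fun z => f z * g z) z * br p Y z
      = f z * Pop p Y g z * br p Y z + Pop p Y f z * g z * br p Y z := by
    intro z
    rw [Pop_mul_at hf.differentiableAt hg.differentiableAt]; ring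
  simp_rw [e] at h
  rw [integral_add] at h
  · linarith
  · have hc2 : HasCompactSupport (fun z => f z * Pop p Y g z * br p Y z) := by
      rcases hc with h | h
      · exact (h.mul_right).mul_right
      · exact (HasCompactSupport.mul_left (HasCompactSupport.Pop h)).mul_right
    exact ((hf.mul' (Sm.Pop hp hY hg hJ)).mul' (hp.br hY)).integrable hc2
  · have hc2 : HasCompactSupport (fun z => Pop p Y f z * g z * br p Y z) := by
      rcases hc with h | h
      · exact (HasCompactSupport.mul_right (HasCompactSupport.Pop h)).mul_right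
      · exact (h.mul_left).mul_right
    exact (((Sm.Pop hp hY hf hJ).mul' hg).mul' (hp.br hY)).integrable hc2

theorem integral_mul_Top (hp : Sm p) (hY : Sm Y) (hf : Sm f) (hg : Sm g)
    (hJ : ∀ z, br p Y z ≠ 0) (hc : HasCompactSupport f ∨ HasCompactSupport g) :
    ∫ z, f z * Top p Y g z * br p Y z = - ∫ z, Top p Y f z * g z * br p Y z := by
  have hc1 : HasCompactSupport (fun z => f z * g z) := by
    rcases hc with h | h
    · exact h.mul_right
    · exact h.mul_left
  have h := integral_Top p Y _ hp hY (hf.mul' hg) hJ hc1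
  have e : ∀ z, Top p Y (fun z => f z * g z) z * br p Y z
      = f z * Top p Y g z * br p Y z + Top p Y f z * g z * br p Y z := by
    intro z
    rw [Top_mul_at hf.differentiableAt hg.differentiableAt]; ring
  simp_rw [e] at h
  rw [integral_add] at h
  · linarith
  · have hc2 : HasCompactSupport (fun z => f z * Top p Y g z * br p Y z) := by
      rcases hc with h | h
      · exact (h.mul_right).mul_right
      · exact (HasCompactSupport.mul_left (HasCompactSupport.Top h)).mul_right
    exact ((hf.mul' (Sm.Top hp hY hg hJ)).mul' (hp.br hY)).integrable hc2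
  · have hc2 : HasCompactSupport (fun z => Top p Y f z * g z * br p Y z) := by
      rcases hc with h | h
      · exact (HasCompactSupport.mul_right (HasCompactSupport.Top h)).mul_right
      · exact (h.mul_left).mul_right
    exact (((Sm.Top hp hY hf hJ).mul' hg).mul' (hp.br hY)).integrable hc2

end integral

/-! ### a small tactic proving `Sm` goals -/

syntax "sm_tac" : tactic
macro_rules
  | `(tactic| sm_tac) => `(tactic| first
    | assumption
    | exact Sm.const _
    | exact Sm.fst
    | exact Sm.snd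
    | (refine Sm.add' ?_ ?_ <;> sm_tac)
    | (refine Sm.sub' ?_ ?_ <;> sm_tac)
    | (refine Sm.mul' ?_ ?_ <;> sm_tac)
    | (refine Sm.neg' ?_ <;> sm_tac)
    | (refine Sm.pow' ?_ _ <;> sm_tac)
    | (refine Sm.div' ?_ (Sm.const _) (fun _ => by norm_num) <;> sm_tac)
    | (refine Sm.dx ?_ <;> sm_tac)
    | (refine Sm.dy ?_ <;> sm_tac)
    | (refine Sm.br ?_ ?_ <;> sm_tac)
    | (refine Sm.Pop ?_ ?_ ?_ ?_ <;> sm_tac)
    | (refine Sm.Top ?_ ?_ ?_ ?_ <;> sm_tac))

end Crest.Agent.R220
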