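import Crest.Agent.R220.Frame

/-!
# Row 220: the general multiplier identity and the Caccioppoli identity for
`L V = T T V + P (κ P V)` in the commuting frame `P = Pop p Y`, `T = Top p Y`.
-/

set_option autoImplicit false

open scoped ContDiff
open MeasureTheory

namespace Crest.Agent.R220

theorem Lop_eq {p Y κ V : Pl → ℝ} (hp : Sm p) (hY : Sm Y) (hκ : Sm κ) (hV : Sm V)
    (hJ : ∀ z, br p Y z ≠ 0) (z : Pl) :
    Lop p Y κ V z = Top p Y (Top p Y V) z + κ z * Pop p Y (Pop p Y V) z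
      + Pop p Y V z * Pop p Y κ z := by
  unfold Lop
  rw [Pop_mul_at hκ.differentiableAt (Sm.Pop hp hY hV hJ).differentiableAt]; ring

protected theorem Sm.Lop {p Y κ V : Pl → ℝ} (hp : Sm p) (hY : Sm Y) (hκ : Sm κ) (hV : Sm V)
    (hJ : ∀ z, br p Y z ≠ 0) : Sm (Lop p Y κ V) := by
  unfold Crest.Agent.R220.Lop
  exact (Sm.Top hp hY (Sm.Top hp hY hV hJ) hJ).add'
    (Sm.Pop hp hY (hκ.mul' (Sm.Pop hp hY hV hJ)) hJ)

theorem support_Lop_subset (p Y κ V : Pl → ℝ) : Function.support (Lop p Y κ V) ⊆ tsupport V := by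
  intro z hz
  by_contra h
  apply hz
  unfold Lop
  have h1 : z ∉ tsupport (Top p Y V) := fun h' =>
    h (closure_minimal (support_Top_subset p Y V) (isClosed_tsupport V) h')
  have h2 : z ∉ tsupport (fun z => κ z * Pop p Y V z) := by
    intro h'
    apply h
    refine closure_minimal ?_ (isClosed_tsupport V) h'
    intro w hw
    apply support_Pop_subset p Y V
    intro h0
    apply hw
    simp [h0]
  rw [Top_eq_zero_of_notMem h1, Pop_eq_zero_of_notMem h2, add_zero]

section gmi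

variable {p Y κ V C1 C2 b : Pl → ℝ}

/-- the `P`-flux of the multiplier identity -/
noncomputable def fluxP (p Y κ V C1 C2 b : Pl → ℝ) (z : Pl) : ℝ :=
  C1 z * κ z * Pop p Y V z ^ 2 / 2 - C1 z * Top p Y V z ^ 2 / 2
    + C2 z * κ z * Top p Y V z * Pop p Y V z - b z * V z * κ z * Pop p Y V z
    + κ z * Pop p Y b z * V z ^ 2 / 2

/-- the `T`-flux of the multiplier identity -/
noncomputable def fluxT (p Y κ V C1 C2 b : Pl → ℝ) (z : Pl) : ℝ :=
  C1 z * Pop p Y V z * Top p Y V z + C2 z * Top p Y V z ^ 2 / 2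
    - C2 z * κ z * Pop p Y V z ^ 2 / 2 - b z * V z * Top p Y V z
    + Top p Y b z * V z ^ 2 / 2

/-- the quadratic form of the multiplier identity -/
noncomputable def gmiQ (p Y κ V C1 C2 b : Pl → ℝ) (z : Pl) : ℝ :=
  ((Pop p Y C1 z - Top p Y C2 z) / 2 + b z) * Top p Y V z ^ 2
    + ((C1 z * Pop p Y κ z + C2 z * Top p Y κ z) / 2
        + κ z * (b z - (Pop p Y C1 z - Top p Y C2 z) / 2)) * Pop p Y V z ^ 2
    - (Top p Y C1 z + κ z * Pop p Y C2 z) * Pop p Y V z * Top p Y V z
    - Lop p Y κ b z * V z ^ 2 / 2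

/-- pointwise multiplier identity -/
theorem gmi_pointwise (hp : Sm p) (hY : Sm Y) (hκ : Sm κ) (hV : Sm V) (hC1 : Sm C1)
    (hC2 : Sm C2) (hb : Sm b) (hJ : ∀ z, br p Y z ≠ 0) (z : Pl) :
    (C1 z * Pop p Y V z + C2 z * Top p Y V z - b z * V z) * Lop p Y κ V z
      = gmiQ p Y κ V C1 C2 b z + Pop p Y (fluxP p Y κ V C1 C2 b) z
        + Top p Y (fluxT p Y κ V C1 C2 b) z := by
  have sP := Sm.Pop hp hY hV hJ
  have sT := Sm.Top hp hY hV hJ
  have sPb := Sm.Pop hp hY hb hJ
  have sTb := Sm.Top hp hY hb hJ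
  have comm : Top p Y (Pop p Y V) z = Pop p Y (Top p Y V) z :=
    (Pop_Top_comm_at hp hY hV (hJ z)).symm
  have e1 : Pop p Y (fluxP p Y κ V C1 C2 b) z =
      Pop p Y (fun z => (1/2) * (C1 z * (κ z * (Pop p Y V z * Pop p Y V z)))) z
      - Pop p Y (fun z => (1/2) * (C1 z * (Top p Y V z * Top p Y V z))) z
      + Pop p Y (fun z => C2 z * (κ z * (Top p Y V z * Pop p Y V z))) z
      - Pop p Y (fun z => b z * (V z * (κ z * Pop p Y V z))) z
      + Pop p Y (fun z => (1/2) * (κ z * (Pop p Y b z * (V z * V z)))) z := by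
    have a1 : Sm (fun z => (1/2) * (C1 z * (κ z * (Pop p Y V z * Pop p Y V z)))) :=
      (Sm.const _).mul' (hC1.mul' (hκ.mul' (sP.mul' sP)))
    have a2 : Sm (fun z => (1/2) * (C1 z * (Top p Y V z * Top p Y V z))) :=
      (Sm.const _).mul' (hC1.mul' (sT.mul' sT))
    have a3 : Sm (fun z => C2 z * (κ z * (Top p Y V z * Pop p Y V z))) :=
      hC2.mul' (hκ.mul' (sT.mul' sP))
    have a4 : Sm (fun z => b z * (V z * (κ z * Pop p Y V z))) :=
      hb.mul' (hV.mul' (hκ.mul' sP))
    have a5 : Sm (fun z => (1/2) * (κ z * (Pop p Y b z * (V z * V z)))) :=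
      (Sm.const _).mul' (hκ.mul' (sPb.mul' (hV.mul' hV)))
    have : fluxP p Y κ V C1 C2 b = fun z =>
        (((1/2) * (C1 z * (κ z * (Pop p Y V z * Pop p Y V z)))
        - (1/2) * (C1 z * (Top p Y V z * Top p Y V z)))
        + C2 z * (κ z * (Top p Y V z * Pop p Y V z))
        - b z * (V z * (κ z * Pop p Y V z)))
        + (1/2) * (κ z * (Pop p Y b z * (V z * V z))) := by
      funext z; unfold fluxP; ring
    rw [this,
      Pop_add_at (((a1.sub' a2).add' a3).sub' a4).differentiableAt a5.differentiableAt,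
      Pop_sub_at ((a1.sub' a2).add' a3).differentiableAt a4.differentiableAt,
      Pop_add_at (a1.sub' a2).differentiableAt a3.differentiableAt,
      Pop_sub_at a1.differentiableAt a2.differentiableAt]
  have e2 : Top p Y (fluxT p Y κ V C1 C2 b) z =
      Top p Y (fun z => C1 z * (Pop p Y V z * Top p Y V z)) z
      + Top p Y (fun z => (1/2) * (C2 z * (Top p Y V z * Top p Y V z))) z
      - Top p Y (fun z => (1/2) * (C2 z * (κ z * (Pop p Y V z * Pop p Y V z)))) z
      - Top p Y (fun z => b z * (V z * Top p Y V z)) z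
      + Top p Y (fun z => (1/2) * (Top p Y b z * (V z * V z))) z := by
    have a1 : Sm (fun z => C1 z * (Pop p Y V z * Top p Y V z)) :=
      hC1.mul' (sP.mul' sT)
    have a2 : Sm (fun z => (1/2) * (C2 z * (Top p Y V z * Top p Y V z))) :=
      (Sm.const _).mul' (hC2.mul' (sT.mul' sT))
    have a3 : Sm (fun z => (1/2) * (C2 z * (κ z * (Pop p Y V z * Pop p Y V z)))) :=
      (Sm.const _).mul' (hC2.mul' (hκ.mul' (sP.mul' sP)))
    have a4 : Sm (fun z => b z * (V z * Top p Y V z)) :=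
      hb.mul' (hV.mul' sT)
    have a5 : Sm (fun z => (1/2) * (Top p Y b z * (V z * V z))) :=
      (Sm.const _).mul' (sTb.mul' (hV.mul' hV))
    have : fluxT p Y κ V C1 C2 b = fun z =>
        (((C1 z * (Pop p Y V z * Top p Y V z))
        + (1/2) * (C2 z * (Top p Y V z * Top p Y V z)))
        - (1/2) * (C2 z * (κ z * (Pop p Y V z * Pop p Y V z)))
        - b z * (V z * Top p Y V z))
        + (1/2) * (Top p Y b z * (V z * V z)) := by
      funext z; unfold fluxT; ring
    rw [this,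
      Top_add_at (((a1.add' a2).sub' a3).sub' a4).differentiableAt a5.differentiableAt,
      Top_sub_at ((a1.add' a2).sub' a3).differentiableAt a4.differentiableAt,
      Top_sub_at (a1.add' a2).differentiableAt a3.differentiableAt,
      Top_add_at a1.differentiableAt a2.differentiableAt]
  rw [e1, e2, Lop_eq hp hY hκ hV hJ, gmiQ, Lop_eq hp hY hκ hb hJ]
  rw [Pop_const_mul_at _ (hC1.mul' (hκ.mul' (sP.mul' sP))).differentiableAt,
    Pop_mul_at hC1.differentiableAt (hκ.mul' (sP.mul' sP)).differentiableAt,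
    Pop_mul_at hκ.differentiableAt (sP.mul' sP).differentiableAt,
    Pop_mul_at sP.differentiableAt sP.differentiableAt,
    Pop_const_mul_at _ (hC1.mul' (sT.mul' sT)).differentiableAt,
    Pop_mul_at hC1.differentiableAt (sT.mul' sT).differentiableAt,
    Pop_mul_at sT.differentiableAt sT.differentiableAt,
    Pop_mul_at hC2.differentiableAt (hκ.mul' (sT.mul' sP)).differentiableAt,
    Pop_mul_at hκ.differentiableAt (sT.mul' sP).differentiableAt,
    Pop_mul_at sT.differentiableAt sP.differentiableAt,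
    Pop_mul_at hb.differentiableAt (hV.mul' (hκ.mul' sP)).differentiableAt,
    Pop_mul_at hV.differentiableAt (hκ.mul' sP).differentiableAt,
    Pop_mul_at hκ.differentiableAt sP.differentiableAt,
    Pop_const_mul_at _ (hκ.mul' (sPb.mul' (hV.mul' hV))).differentiableAt,
    Pop_mul_at hκ.differentiableAt (sPb.mul' (hV.mul' hV)).differentiableAt,
    Pop_mul_at sPb.differentiableAt (hV.mul' hV).differentiableAt,
    Pop_mul_at hV.differentiableAt hV.differentiableAt,
    Top_mul_at hC1.differentiableAt (sP.mul' sT).differentiableAt,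
    Top_mul_at sP.differentiableAt sT.differentiableAt,
    Top_const_mul_at _ (hC2.mul' (sT.mul' sT)).differentiableAt,
    Top_mul_at hC2.differentiableAt (sT.mul' sT).differentiableAt,
    Top_mul_at sT.differentiableAt sT.differentiableAt,
    Top_const_mul_at _ (hC2.mul' (hκ.mul' (sP.mul' sP))).differentiableAt,
    Top_mul_at hC2.differentiableAt (hκ.mul' (sP.mul' sP)).differentiableAt,
    Top_mul_at hκ.differentiableAt (sP.mul' sP).differentiableAt,
    Top_mul_at sP.differentiableAt sP.differentiableAt,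
    Top_mul_at hb.differentiableAt (hV.mul' sT).differentiableAt,
    Top_mul_at hV.differentiableAt sT.differentiableAt,
    Top_const_mul_at _ (sTb.mul' (hV.mul' hV)).differentiableAt,
    Top_mul_at sTb.differentiableAt (hV.mul' hV).differentiableAt,
    Top_mul_at hV.differentiableAt hV.differentiableAt, comm]
  ring

theorem support_fluxP_subset : Function.support (fluxP p Y κ V C1 C2 b) ⊆ tsupport V := by
  intro z hz
  by_contra h
  apply hz
  have hV : V z = 0 := image_eq_zero_of_notMem_tsupport h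
  unfold fluxP
  rw [Pop_eq_zero_of_notMem h, Top_eq_zero_of_notMem h, hV]; simp

theorem support_fluxT_subset : Function.support (fluxT p Y κ V C1 C2 b) ⊆ tsupport V := by
  intro z hz
  by_contra h
  apply hz
  have hV : V z = 0 := image_eq_zero_of_notMem_tsupport h
  unfold fluxT
  rw [Pop_eq_zero_of_notMem h, Top_eq_zero_of_notMem h, hV]; simp

theorem support_gmiQ_subset : Function.support (gmiQ p Y κ V C1 C2 b) ⊆ tsupport V := by
  intro z hz
  by_contra h
  apply hz
  have hV : V z = 0 := image_eq_zero_of_notMem_tsupport h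
  unfold gmiQ
  rw [Pop_eq_zero_of_notMem h, Top_eq_zero_of_notMem h, hV]; simp

theorem sm_fluxP (hp : Sm p) (hY : Sm Y) (hκ : Sm κ) (hV : Sm V) (hC1 : Sm C1)
    (hC2 : Sm C2) (hb : Sm b) (hJ : ∀ z, br p Y z ≠ 0) : Sm (fluxP p Y κ V C1 C2 b) := by
  have sP := Sm.Pop hp hY hV hJ
  have sT := Sm.Top hp hY hV hJ
  have sPb := Sm.Pop hp hY hb hJ
  unfold fluxP
  sm_tac

theorem sm_fluxT (hp : Sm p) (hY : Sm Y) (hκ : Sm κ) (hV : Sm V) (hC1 : Sm C1)
    (hC2 : Sm C2) (hb : Sm b) (hJ : ∀ z, br p Y z ≠ 0) : Sm (fluxT p Y κ V C1 C2 b) := by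
  have sP := Sm.Pop hp hY hV hJ
  have sT := Sm.Top hp hY hV hJ
  have sTb := Sm.Top hp hY hb hJ
  unfold fluxT
  sm_tac

theorem sm_gmiQ (hp : Sm p) (hY : Sm Y) (hκ : Sm κ) (hV : Sm V) (hC1 : Sm C1)
    (hC2 : Sm C2) (hb : Sm b) (hJ : ∀ z, br p Y z ≠ 0) : Sm (gmiQ p Y κ V C1 C2 b) := by
  have sP := Sm.Pop hp hY hV hJ
  have sT := Sm.Top hp hY hV hJ
  have s1 := Sm.Pop hp hY hC1 hJ
  have s2 := Sm.Top hp hY hC2 hJ
  have s3 := Sm.Pop hp hY hκ hJ
  have s4 := Sm.Top hp hY hκ hJ
  have s5 := Sm.Top hp hY hC1 hJ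
  have s6 := Sm.Pop hp hY hC2 hJ
  have s7 := Sm.Lop hp hY hκ hb hJ
  unfold gmiQ
  sm_tac

/-- general multiplier identity, from compactness of the supports of the fluxes -/
theorem gmi_aux (hp : Sm p) (hY : Sm Y) (hκ : Sm κ) (hV : Sm V) (hC1 : Sm C1)
    (hC2 : Sm C2) (hb : Sm b) (hJ : ∀ z, br p Y z ≠ 0)
    (hcP : HasCompactSupport (fluxP p Y κ V C1 C2 b))
    (hcT : HasCompactSupport (fluxT p Y κ V C1 C2 b))
    (hcQ : HasCompactSupport (gmiQ p Y κ V C1 C2 b)) :
    ∫ z, (C1 z * Pop p Y V z + C2 z * Top p Y V z - b z * V z) * Lop p Y κ V z * br p Y z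
      = ∫ z, gmiQ p Y κ V C1 C2 b z * br p Y z := by
  have sP := sm_fluxP hp hY hκ hV hC1 hC2 hb hJ
  have sT := sm_fluxT hp hY hκ hV hC1 hC2 hb hJ
  have sQ := sm_gmiQ hp hY hκ hV hC1 hC2 hb hJ
  have iQ : Integrable (fun z => gmiQ p Y κ V C1 C2 b z * br p Y z) :=
    (sQ.mul' (hp.br hY)).integrable hcQ.mul_right
  have iP : Integrable (fun z => Pop p Y (fluxP p Y κ V C1 C2 b) z * br p Y z) :=
    ((Sm.Pop hp hY sP hJ).mul' (hp.br hY)).integrable
      (HasCompactSupport.mul_right (HasCompactSupport.Pop hcP))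
  have iT : Integrable (fun z => Top p Y (fluxT p Y κ V C1 C2 b) z * br p Y z) :=
    ((Sm.Top hp hY sT hJ).mul' (hp.br hY)).integrable
      (HasCompactSupport.mul_right (HasCompactSupport.Top hcT))
  have e : ∀ z, (C1 z * Pop p Y V z + C2 z * Top p Y V z - b z * V z) * Lop p Y κ V z * br p Y z
      = gmiQ p Y κ V C1 C2 b z * br p Y z + Pop p Y (fluxP p Y κ V C1 C2 b) z * br p Y z
        + Top p Y (fluxT p Y κ V C1 C2 b) z * br p Y z := by
    intro z
    rw [gmi_pointwise hp hY hκ hV hC1 hC2 hb hJ z]; ring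
  simp_rw [e]
  have iQP : Integrable (fun z => gmiQ p Y κ V C1 C2 b z * br p Y z
      + Pop p Y (fluxP p Y κ V C1 C2 b) z * br p Y z) := iQ.add iP
  rw [integral_add iQP iT, integral_add iQ iP, integral_Pop p Y _ hp hY sP hJ hcP,
    integral_Top p Y _ hp hY sT hJ hcT]
  ring

theorem gmiQ_eq (z : Pl) : gmiQ p Y κ V C1 C2 b z * br p Y z =
    (((Pop p Y C1 z - Top p Y C2 z) / 2 + b z) * Top p Y V z ^ 2
      + ((C1 z * Pop p Y κ z + C2 z * Top p Y κ z) / 2
          + κ z * (b z - (Pop p Y C1 z - Top p Y C2 z) / 2)) * Pop p Y V z ^ 2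
      - (Top p Y C1 z + κ z * Pop p Y C2 z) * Pop p Y V z * Top p Y V z
      - (1 / 2) * Lop p Y κ b z * V z ^ 2) * br p Y z := by
  unfold gmiQ; ring

/-- **general multiplier identity** -/
theorem GMI (p Y κ V C1 C2 b : Pl → ℝ) (hp : Sm p) (hY : Sm Y) (hk : Sm κ) (hV : Sm V)
    (h1 : Sm C1) (h2 : Sm C2) (hb : Sm b) (hJ : ∀ z, br p Y z ≠ 0) (hc : HasCompactSupport V) :
    ∫ z, (C1 z * Pop p Y V z + C2 z * Top p Y V z - b z * V z) * Lop p Y κ V z * br p Y z =
    ∫ z, (((Pop p Y C1 z - Top p Y C2 z) / 2 + b z) * Top p Y V z ^ 2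
      + ((C1 z * Pop p Y κ z + C2 z * Top p Y κ z) / 2
          + κ z * (b z - (Pop p Y C1 z - Top p Y C2 z) / 2)) * Pop p Y V z ^ 2
      - (Top p Y C1 z + κ z * Pop p Y C2 z) * Pop p Y V z * Top p Y V z
      - (1 / 2) * Lop p Y κ b z * V z ^ 2) * br p Y z := by
  rw [gmi_aux hp hY hk hV h1 h2 hb hJ (hc.mono' support_fluxP_subset)
    (hc.mono' support_fluxT_subset) (hc.mono' support_gmiQ_subset)]
  simp_rw [gmiQ_eq]

/-- variant of **GMI** for `V` not compactly supported but multipliers compactly supported -/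
theorem GMI' (p Y κ V C1 C2 b : Pl → ℝ) (hp : Sm p) (hY : Sm Y) (hk : Sm κ) (hV : Sm V)
    (h1 : Sm C1) (h2 : Sm C2) (hb : Sm b) (hJ : ∀ z, br p Y z ≠ 0)
    (hc1 : HasCompactSupport C1) (hc2 : HasCompactSupport C2) (hcb : HasCompactSupport b) :
    ∫ z, (C1 z * Pop p Y V z + C2 z * Top p Y V z - b z * V z) * Lop p Y κ V z * br p Y z =
    ∫ z, (((Pop p Y C1 z - Top p Y C2 z) / 2 + b z) * Top p Y V z ^ 2
      + ((C1 z * Pop p Y κ z + C2 z * Top p Y κ z) / 2
          + κ z * (b z - (Pop p Y C1 z - Top p Y C2 z) / 2)) * Pop p Y V z ^ 2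
      - (Top p Y C1 z + κ z * Pop p Y C2 z) * Pop p Y V z * Top p Y V z
      - (1 / 2) * Lop p Y κ b z * V z ^ 2) * br p Y z := by
  have hK : IsCompact (tsupport C1 ∪ tsupport C2 ∪ tsupport b) :=
    (hc1.isCompact.union hc2.isCompact).union hcb.isCompact
  have key : ∀ f : Pl → ℝ, (∀ z, z ∉ tsupport C1 → z ∉ tsupport C2 → z ∉ tsupport b → f z = 0) →
      HasCompactSupport f := by
    intro f hf
    refine HasCompactSupport.of_support_subset_isCompact hK ?_
    intro z hz
    by_contra h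
    simp only [Set.mem_union, not_or] at h
    exact hz (hf z h.1.1 h.1.2 h.2)
  rw [gmi_aux hp hY hk hV h1 h2 hb hJ (key _ ?_) (key _ ?_) (key _ ?_)]
  · simp_rw [gmiQ_eq]
  · intro z a1 a2 a3
    unfold fluxP
    rw [image_eq_zero_of_notMem_tsupport a1, image_eq_zero_of_notMem_tsupport a2,
      image_eq_zero_of_notMem_tsupport a3, Pop_eq_zero_of_notMem a3]
    ring
  · intro z a1 a2 a3
    unfold fluxT
    rw [image_eq_zero_of_notMem_tsupport a1, image_eq_zero_of_notMem_tsupport a2,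
      image_eq_zero_of_notMem_tsupport a3, Top_eq_zero_of_notMem a3]
    ring
  · intro z a1 a2 a3
    unfold gmiQ
    have hL : Lop p Y κ b z = 0 := by
      by_contra h'
      exact a3 (support_Lop_subset p Y κ b h')
    rw [image_eq_zero_of_notMem_tsupport a1, image_eq_zero_of_notMem_tsupport a2,
      image_eq_zero_of_notMem_tsupport a3, Pop_eq_zero_of_notMem a1, Top_eq_zero_of_notMem a1,
      Pop_eq_zero_of_notMem a2, Top_eq_zero_of_notMem a2, hL]
    ring

/-- **weak form**: `∫ ψ L V J = - ∫ (Tψ TV + κ Pψ PV) J` -/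
theorem weak_form {ψ : Pl → ℝ} (hp : Sm p) (hY : Sm Y) (hκ : Sm κ) (hV : Sm V) (hψ : Sm ψ)
    (hJ : ∀ z, br p Y z ≠ 0) (hc : HasCompactSupport ψ ∨ HasCompactSupport V) :
    ∫ z, ψ z * Lop p Y κ V z * br p Y z
      = - ∫ z, (Top p Y ψ z * Top p Y V z + κ z * Pop p Y ψ z * Pop p Y V z) * br p Y z := by
  have sP := Sm.Pop hp hY hV hJ
  have sT := Sm.Top hp hY hV hJ
  have tP := Sm.Pop hp hY hψ hJ
  have tT := Sm.Top hp hY hψ hJ
  have sκ := hκ.mul' sP
  have h1 := integral_mul_Top (f := ψ) (g := Top p Y V) hp hY hψ sT hJ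
    (hc.imp id HasCompactSupport.Top)
  have h2 := integral_mul_Pop (f := ψ) (g := fun z => κ z * Pop p Y V z) hp hY hψ sκ hJ
    (hc.imp id fun h => HasCompactSupport.mul_left (HasCompactSupport.Pop h))
  have cs : ∀ (f g : Pl → ℝ), (Function.support f ⊆ tsupport ψ) →
      (Function.support g ⊆ tsupport V) → HasCompactSupport (fun z => f z * g z) := by
    intro f g hf hg
    rcases hc with h | h
    · exact (h.mono' hf).mul_right
    · exact (h.mono' hg).mul_left
  have i1 : Integrable (fun z => ψ z * Top p Y (Top p Y V) z * br p Y z) := by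
    refine ((hψ.mul' (Sm.Top hp hY sT hJ)).mul' (hp.br hY)).integrable ?_
    refine (cs ψ _ subset_closure ?_).mul_right
    exact (support_Top_subset _ _ _).trans
      (closure_minimal (support_Top_subset _ _ _) (isClosed_tsupport _))
  have i2 : Integrable (fun z => ψ z * Pop p Y (fun z => κ z * Pop p Y V z) z * br p Y z) := by
    refine ((hψ.mul' (Sm.Pop hp hY sκ hJ)).mul' (hp.br hY)).integrable ?_
    refine (cs ψ _ subset_closure ?_).mul_right
    refine (support_Pop_subset _ _ _).trans (closure_minimal ?_ (isClosed_tsupport _))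
    intro w hw
    apply support_Pop_subset p Y V
    intro h0
    apply hw
    simp [h0]
  have i3 : Integrable (fun z => Top p Y ψ z * Top p Y V z * br p Y z) :=
    ((tT.mul' sT).mul' (hp.br hY)).integrable
      (cs _ _ (support_Top_subset _ _ _) (support_Top_subset _ _ _)).mul_right
  have i4 : Integrable (fun z => Pop p Y ψ z * (κ z * Pop p Y V z) * br p Y z) := by
    refine ((tP.mul' sκ).mul' (hp.br hY)).integrable
      (cs _ _ (support_Pop_subset _ _ _) ?_).mul_right
    intro w hw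
    apply support_Pop_subset p Y V
    intro h0
    apply hw
    simp [h0]
  have e1 : ∀ z, ψ z * Lop p Y κ V z * br p Y z = ψ z * Top p Y (Top p Y V) z * br p Y z
      + ψ z * Pop p Y (fun z => κ z * Pop p Y V z) z * br p Y z := by
    intro z; unfold Lop; ring
  have e2 : ∀ z, (Top p Y ψ z * Top p Y V z + κ z * Pop p Y ψ z * Pop p Y V z) * br p Y z
      = Top p Y ψ z * Top p Y V z * br p Y z
        + Pop p Y ψ z * (κ z * Pop p Y V z) * br p Y z := by
    intro z; ring
  simp_rw [e1, e2]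
  rw [integral_add i1 i2, integral_add i3 i4, h1, h2]
  ring

/-- weak form of `L` (one of `ψ`, `V` compactly supported) -/
theorem Lop_weak (p Y κ V ψ : Pl → ℝ) (hp : Sm p) (hY : Sm Y) (hk : Sm κ) (hV : Sm V)
    (hψ : Sm ψ) (hJ : ∀ z, br p Y z ≠ 0) (hc : HasCompactSupport V ∨ HasCompactSupport ψ) :
    ∫ z, ψ z * Lop p Y κ V z * br p Y z =
      - ∫ z, (Top p Y ψ z * Top p Y V z + κ z * Pop p Y ψ z * Pop p Y V z) * br p Y z :=
  weak_form hp hY hk hV hψ hJ hc.symm

/-- **Caccioppoli inequality**, weight form -/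
theorem caccioppoli {χ : Pl → ℝ} (hp : Sm p) (hY : Sm Y) (hκ : Sm κ) (hV : Sm V) (hχ : Sm χ)
    (hJ : ∀ z, 0 < br p Y z) (hc : HasCompactSupport χ)
    (hk : ∀ z, χ z ≠ 0 → 0 ≤ κ z) (hL : ∀ z, χ z ≠ 0 → Lop p Y κ V z = 0) :
    ∫ z, χ z ^ 2 * (Top p Y V z ^ 2 + κ z * Pop p Y V z ^ 2) * br p Y z
      ≤ 4 * ∫ z, V z ^ 2 * (Top p Y χ z ^ 2 + κ z * Pop p Y χ z ^ 2) * br p Y z := by
  have hJ' : ∀ z, br p Y z ≠ 0 := fun z => (hJ z).ne'
  have sP := Sm.Pop hp hY hV hJ'
  have sT := Sm.Top hp hY hV hJ'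
  have tP := Sm.Pop hp hY hχ hJ'
  have tT := Sm.Top hp hY hχ hJ'
  have sJ := hp.br hY
  have hψ : Sm (fun z => χ z ^ 2 * V z) := (hχ.pow' 2).mul' hV
  have hχ2c : HasCompactSupport (fun z => χ z ^ 2) := by
    refine hc.mono ?_
    intro z hz h0
    apply hz
    simp [h0]
  have hψc : HasCompactSupport (fun z => χ z ^ 2 * V z) := hχ2c.mul_right
  have h := weak_form (p := p) (Y := Y) (κ := κ) (V := V) hp hY hκ hV hψ hJ' (Or.inl hψc)
  have h0 : ∫ z, (fun z => χ z ^ 2 * V z) z * Lop p Y κ V z * br p Y z = 0 := by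
    rw [← integral_zero Pl ℝ (μ := volume)]
    congr 1
    funext z
    by_cases hz : χ z = 0
    · simp [hz]
    · simp [hL z hz]
  rw [h0] at h
  have hT : ∀ z, Top p Y (fun z => χ z ^ 2 * V z) z
      = χ z ^ 2 * Top p Y V z + 2 * χ z * V z * Top p Y χ z := by
    intro z
    rw [Top_mul_at (hχ.pow' 2).differentiableAt hV.differentiableAt,
      Top_pow_at hχ.differentiableAt]
    simp; ring
  have hP : ∀ z, Pop p Y (fun z => χ z ^ 2 * V z) z
      = χ z ^ 2 * Pop p Y V z + 2 * χ z * V z * Pop p Y χ z := by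
    intro z
    rw [Pop_mul_at (hχ.pow' 2).differentiableAt hV.differentiableAt,
      Pop_pow_at hχ.differentiableAt]
    simp; ring
  simp_rw [hT, hP] at h
  have hsT : HasCompactSupport (Top p Y χ) := HasCompactSupport.Top hc
  have hsP : HasCompactSupport (Pop p Y χ) := HasCompactSupport.Pop hc
  have iA : Integrable (fun z => χ z ^ 2 * (Top p Y V z ^ 2 + κ z * Pop p Y V z ^ 2)
      * br p Y z) := by
    have sm : Sm (fun z => χ z ^ 2 * (Top p Y V z ^ 2 + κ z * Pop p Y V z ^ 2) * br p Y z) := by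
      sm_tac
    exact sm.integrable (HasCompactSupport.mul_right (hχ2c.mul_right))
  have iB : Integrable (fun z => V z ^ 2 * (Top p Y χ z ^ 2 + κ z * Pop p Y χ z ^ 2)
      * br p Y z) := by
    have sm : Sm (fun z => V z ^ 2 * (Top p Y χ z ^ 2 + κ z * Pop p Y χ z ^ 2) * br p Y z) := by
      sm_tac
    refine sm.integrable ?_
    refine hc.mono' ?_
    intro z hz
    by_contra hn
    apply hz
    show V z ^ 2 * (Top p Y χ z ^ 2 + κ z * Pop p Y χ z ^ 2) * br p Y z = 0
    rw [Top_eq_zero_of_notMem hn, Pop_eq_zero_of_notMem hn]; ring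
  have iC : Integrable (fun z => ((χ z ^ 2 * Top p Y V z + 2 * χ z * V z * Top p Y χ z)
      * Top p Y V z + κ z * (χ z ^ 2 * Pop p Y V z + 2 * χ z * V z * Pop p Y χ z)
      * Pop p Y V z) * br p Y z) := by
    have sm : Sm (fun z => ((χ z ^ 2 * Top p Y V z + 2 * χ z * V z * Top p Y χ z)
      * Top p Y V z + κ z * (χ z ^ 2 * Pop p Y V z + 2 * χ z * V z * Pop p Y χ z)
      * Pop p Y V z) * br p Y z) := by
      sm_tac
    refine sm.integrable ?_
    refine hc.mono ?_
    intro z hz h0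
    apply hz
    simp [h0]
  -- pointwise: A/2 ≤ (integrand of h) + 2 B
  have key : ∀ z, (1/2) * (χ z ^ 2 * (Top p Y V z ^ 2 + κ z * Pop p Y V z ^ 2) * br p Y z)
      ≤ ((χ z ^ 2 * Top p Y V z + 2 * χ z * V z * Top p Y χ z)
      * Top p Y V z + κ z * (χ z ^ 2 * Pop p Y V z + 2 * χ z * V z * Pop p Y χ z)
      * Pop p Y V z) * br p Y z
      + 2 * (V z ^ 2 * (Top p Y χ z ^ 2 + κ z * Pop p Y χ z ^ 2) * br p Y z) := by
    intro z
    by_cases hz : z ∈ tsupport χ
    · have hk' : 0 ≤ κ z := by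
        have hcl : tsupport χ ⊆ {z | 0 ≤ κ z} := by
          apply closure_minimal
          · intro w hw; exact hk w hw
          · exact isClosed_le continuous_const hκ.continuous'
        exact hcl hz
      have h1 := sq_nonneg (χ z * Top p Y V z + 2 * V z * Top p Y χ z)
      have h2 := mul_nonneg hk' (sq_nonneg (χ z * Pop p Y V z + 2 * V z * Pop p Y χ z))
      have h3 := mul_nonneg (add_nonneg h1 h2) (hJ z).le
      nlinarith [h3]
    · have : χ z = 0 := image_eq_zero_of_notMem_tsupport hz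
      rw [Top_eq_zero_of_notMem hz, Pop_eq_zero_of_notMem hz, this]
      simp
  have hle := integral_mono (iA.const_mul (1/2)) (iC.add (iB.const_mul 2)) key
  simp only [Pi.add_apply] at hle
  rw [integral_const_mul, integral_add iC (iB.const_mul 2), integral_const_mul] at hle
  linarith

end gmi

end Crest.Agent.R220
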