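import Crest.Agent.R220.GadgetMain
import Crest.Agent.R220.CoreGadget

/-!
# Row 220 (S0341): the gadget
-/

set_option autoImplicit false

open scoped ContDiff

namespace Crest.Agent.R220

/-- **gadget** (from `coreGadget`). -/
theorem gadget (z : E2) (R M : ℝ) (hR : 0 < R) (hM : 0 < M) (N : ℕ) (ε : ℝ) (hε : 0 < ε) :
    ∃ h : E2 → (E2 →L[ℝ] E2 →L[ℝ] ℝ),
      ContDiff ℝ ∞ h ∧ (∀ x, x ∉ Metric.closedBall z R → h x = 0) ∧
      (∀ x v w, h x v w = h x w v) ∧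
      (∀ k ≤ N, ∀ x, ‖iteratedFDeriv ℝ k h x‖ ≤ ε) ∧
      ∀ F : E2 → E3, ContDiff ℝ ∞ F →
        (∀ k : ℕ, 1 ≤ k → k ≤ 4 → ∀ x ∈ Metric.closedBall z R, ‖iteratedFDeriv ℝ k F x‖ ≤ M) →
        ¬ IsoE (Metric.closedBall z R) h F :=
  GadgetMain.gadget_of coreGadget z R M hR hM N ε hε

end Crest.Agent.R220
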