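import Crest.Agent.R220.TopDefs

/-!
# Row 220 (S0341): at a flat point the second fundamental form is degenerate
-/

set_option autoImplicit false

open scoped ContDiff Topology

namespace Crest.Agent.R220.GadgetFlat

local notation "⟪" x ", " y "⟫" => inner ℝ x y

/-- first basis vector -/
noncomputable def a1 : E2 := EuclideanSpace.single 0 1
/-- second basis vector -/
noncomputable def a2 : E2 := EuclideanSpace.single 1 1

lemma a1_norm : ‖a1‖ = 1 := by simp [a1]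
lemma a2_norm : ‖a2‖ = 1 := by simp [a2]
lemma inner_a1 (v : E2) : ⟪v, a1⟫ = v 0 := by
  rw [a1, EuclideanSpace.inner_single_right]; simp
lemma inner_a2 (v : E2) : ⟪v, a2⟫ = v 1 := by
  rw [a2, EuclideanSpace.inner_single_right]; simp

lemma two_le_inf : minSmoothness ℝ 2 ≤ (∞ : WithTop ℕ∞) := by
  rw [minSmoothness_of_isRCLikeNormedField]
  exact WithTop.coe_le_coe.2 (le_top : (2 : ℕ∞) ≤ ⊤)
lemma a1_0 : a1 0 = 1 := by simp [a1]
lemma a1_1 : a1 1 = 0 := by simp [a1]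
lemma a2_0 : a2 0 = 0 := by simp [a2]
lemma a2_1 : a2 1 = 1 := by simp [a2]

lemma expand (v : E2) : v = v 0 • a1 + v 1 • a2 := by
  ext i
  fin_cases i <;> simp [a1, a2]

lemma D2_symm {f : E2 → E3} (hf : ContDiff ℝ ∞ f) (x u v : E2) : D2 f x u v = D2 f x v u := by
  have h : IsSymmSndFDerivAt ℝ f x :=
    hf.contDiffAt.isSymmSndFDerivAt two_le_inf
  exact h u v

lemma smooth_fderiv {f : E2 → E3} (hf : ContDiff ℝ ∞ f) : ContDiff ℝ ∞ (fderiv ℝ f) :=
  hf.fderiv_right (m := ∞) (by simp)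

lemma smooth_D2 {f : E2 → E3} (hf : ContDiff ℝ ∞ f) (u v : E2) :
    ContDiff ℝ ∞ (fun x => D2 f x u v) := by
  have h1 : ContDiff ℝ ∞ (fderiv ℝ (fderiv ℝ f)) :=
    (smooth_fderiv hf).fderiv_right (m := ∞) (by simp)
  exact (h1.clm_apply contDiff_const).clm_apply contDiff_const

lemma hasFDerivAt_Df {f : E2 → E3} (hf : ContDiff ℝ ∞ f) (x v : E2) :
    HasFDerivAt (fun y => fderiv ℝ f y v) ((fderiv ℝ (fderiv ℝ f) x).flip v) x := by
  have h := ((smooth_fderiv hf).differentiable (by simp) x).hasFDerivAt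
  simpa using h.clm_apply (hasFDerivAt_const v x)

lemma koszul {f : E2 → E3} (hf : ContDiff ℝ ∞ f) (x : E2)
    (hflat : ∀ᶠ y in 𝓝 x, ∀ v w : E2, ⟪fderiv ℝ f y v, fderiv ℝ f y w⟫ = ⟪v, w⟫) (u v w : E2) :
    ⟪D2 f x u v, fderiv ℝ f x w⟫ = 0 := by
  have key : ∀ u v w : E2, ⟪D2 f x u v, fderiv ℝ f x w⟫ + ⟪D2 f x u w, fderiv ℝ f x v⟫ = 0 := by
    intro u v w
    have h1 := (hasFDerivAt_Df hf x v).inner ℝ (hasFDerivAt_Df hf x w)
    have h2 : (fun y => ⟪fderiv ℝ f y v, fderiv ℝ f y w⟫) =ᶠ[𝓝 x] fun _ => ⟪v, w⟫ := by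
      filter_upwards [hflat] with y hy
      exact hy v w
    have h3 := (hasFDerivAt_const (𝕜 := ℝ) (⟪v, w⟫ : ℝ) x).congr_of_eventuallyEq h2
    have h4 := h1.unique h3
    have h5 := congrArg (fun L => L u) h4
    simp only [ContinuousLinearMap.comp_apply, ContinuousLinearMap.prod_apply,
      fderivInnerCLM_apply, ContinuousLinearMap.flip_apply, zero_apply] at h5
    rw [real_inner_comm (fderiv ℝ f x v)]
    unfold D2
    linarith [h5]
  have s1 := key u v w
  have s2 := key u w v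
  have s3 := key v u w
  have s4 := key w u v
  have s5 := key w v u
  have s6 := key v w u
  rw [D2_symm hf x v u] at s3
  rw [D2_symm hf x w u] at s4 
  rw [D2_symm hf x w v, D2_symm hf x w u] at s5
  linarith

lemma gauss {f : E2 → E3} (hf : ContDiff ℝ ∞ f) (x : E2)
    (hflat : ∀ᶠ y in 𝓝 x, ∀ v w : E2, ⟪fderiv ℝ f y v, fderiv ℝ f y w⟫ = ⟪v, w⟫) :
    ⟪D2 f x a1 a1, D2 f x a2 a2⟫ = ⟪D2 f x a1 a2, D2 f x a1 a2⟫ := by
  have hev : ∀ u v w : E2, (fun y => ⟪D2 f y u v, fderiv ℝ f y w⟫) =ᶠ[𝓝 x] fun _ => 0 := by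
    intro u v w
    filter_upwards [hflat.eventually_nhds] with y hy
    exact koszul hf y hy u v w
  have hD : ∀ u v : E2, HasFDerivAt (fun y => D2 f y u v)
      (((fderiv ℝ (fderiv ℝ (fderiv ℝ f)) x).flip u).flip v) x := by
    intro u v
    have h1 : ContDiff ℝ ∞ (fderiv ℝ (fderiv ℝ f)) :=
      (smooth_fderiv hf).fderiv_right (m := ∞) (by simp)
    have h := (h1.differentiable (by simp) x).hasFDerivAt
    have h2 : HasFDerivAt (fun y => fderiv ℝ (fderiv ℝ f) y u)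
        ((fderiv ℝ (fderiv ℝ (fderiv ℝ f)) x).flip u) x := by
      simpa using h.clm_apply (hasFDerivAt_const u x)
    have h3 : HasFDerivAt (fun y => fderiv ℝ (fderiv ℝ f) y u v)
        (((fderiv ℝ (fderiv ℝ (fderiv ℝ f)) x).flip u).flip v) x := by
      simpa using h2.clm_apply (hasFDerivAt_const v x)
    exact h3
  have key : ∀ t u v w : E2,
      ⟪fderiv ℝ (fderiv ℝ (fderiv ℝ f)) x t u v, fderiv ℝ f x w⟫ +
        ⟪D2 f x u v, D2 f x t w⟫ = 0 := by
    intro t u v w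
    have h1 := (hD u v).inner ℝ (hasFDerivAt_Df hf x w)
    have h3 := (hasFDerivAt_const (𝕜 := ℝ) (0:ℝ) x).congr_of_eventuallyEq (hev u v w)
    have h4 := h1.unique h3
    have h5 := congrArg (fun L => L t) h4
    simp only [ContinuousLinearMap.comp_apply, ContinuousLinearMap.prod_apply,
      fderivInnerCLM_apply, ContinuousLinearMap.flip_apply, zero_apply] at h5
    unfold D2
    unfold D2 at h5
    linarith [h5]
  have sym : ∀ t u v : E2, fderiv ℝ (fderiv ℝ (fderiv ℝ f)) x t u v =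
      fderiv ℝ (fderiv ℝ (fderiv ℝ f)) x u t v := by
    intro t u v
    have h : IsSymmSndFDerivAt ℝ (fderiv ℝ f) x :=
      (smooth_fderiv hf).contDiffAt.isSymmSndFDerivAt two_le_inf
    have := h t u
    rw [this]
  have k1 := key a2 a1 a1 a2
  have k2 := key a1 a2 a1 a2
  rw [sym a1 a2 a1] at k2
  rw [D2_symm hf x a2 a1] at k2
  linarith

/-- in `E3`, two vectors orthogonal to an orthonormal pair are parallel -/
lemma parallel (b1 b2 x y : E3) (n1 : ‖b1‖ = 1) (n2 : ‖b2‖ = 1) (h12 : ⟪b1, b2⟫ = 0)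
    (hx1 : ⟪x, b1⟫ = 0) (hx2 : ⟪x, b2⟫ = 0) (hy1 : ⟪y, b1⟫ = 0) (hy2 : ⟪y, b2⟫ = 0)
    (hx : x ≠ 0) : ∃ t : ℝ, y = t • x := by
  set n : E3 := (‖x‖)⁻¹ • x with hn
  have hxn : ‖x‖ ≠ 0 := norm_ne_zero_iff.2 hx
  have nn : ‖n‖ = 1 := by
    rw [hn, norm_smul, norm_inv, norm_norm]; field_simp
  have hn1 : ⟪n, b1⟫ = 0 := by rw [hn, real_inner_smul_left, hx1, mul_zero]
  have hn2 : ⟪n, b2⟫ = 0 := by rw [hn, real_inner_smul_left, hx2, mul_zero]
  have hon : Orthonormal ℝ ![b1, b2, n] := by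
    constructor
    · intro i
      fin_cases i <;> simp [n1, n2, nn]
    · intro i j hij
      fin_cases i <;> fin_cases j <;>
        simp_all [real_inner_comm]
  have hcard : Fintype.card (Fin 3) = Module.finrank ℝ E3 := by simp
  have hspan : (⊤ : Submodule ℝ E3) ≤ Submodule.span ℝ (Set.range ![b1, b2, n]) :=
    (hon.linearIndependent.span_eq_top_of_card_eq_finrank' hcard).ge
  let B := OrthonormalBasis.mk hon hspan
  have hsum := B.sum_repr' y
  simp only [Fin.sum_univ_three] at hsum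
  have hB : ∀ i, B i = ![b1, b2, n] i := by
    intro i
    simp [B]
  rw [hB, hB, hB] at hsum
  simp only [Matrix.cons_val_zero, Matrix.cons_val_one, Matrix.cons_val_two, Matrix.tail_cons,
    Matrix.head_cons] at hsum
  rw [real_inner_comm, hy1, real_inner_comm, hy2, zero_smul, zero_smul, zero_add, zero_add] at hsum
  refine ⟨⟪n, y⟫ * (‖x‖)⁻¹, ?_⟩
  rw [mul_smul, ← hn]
  exact hsum.symm

/-- at a flat point, there is a unit vector in the kernel of the second fundamental form -/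
lemma flat_kernel {f : E2 → E3} (hf : ContDiff ℝ ∞ f) (p : E2)
    (hflat : ∀ᶠ y in 𝓝 p, ∀ v w : E2, ⟪fderiv ℝ f y v, fderiv ℝ f y w⟫ = ⟪v, w⟫) :
    ∃ k : E2, ‖k‖ = 1 ∧ ∀ v, D2 f p k v = 0 := by
  have hg := gauss hf p hflat
  have hk := koszul hf p hflat
  have hp := hflat.self_of_nhds
  have m1 : ‖fderiv ℝ f p a1‖ = 1 := by
    have h := hp a1 a1
    rw [real_inner_self_eq_norm_sq, real_inner_self_eq_norm_sq, a1_norm] at h
    nlinarith [norm_nonneg (fderiv ℝ f p a1)]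
  have m2 : ‖fderiv ℝ f p a2‖ = 1 := by
    have h := hp a2 a2
    rw [real_inner_self_eq_norm_sq, real_inner_self_eq_norm_sq, a2_norm] at h
    nlinarith [norm_nonneg (fderiv ℝ f p a2)]
  have m12 : ⟪fderiv ℝ f p a1, fderiv ℝ f p a2⟫ = 0 := by
    rw [hp, inner_a2, a1_1]
  have hbil : ∀ k v : E2, D2 f p k v = (k 0 * v 0) • D2 f p a1 a1 + (k 0 * v 1 + k 1 * v 0) •
      D2 f p a1 a2 + (k 1 * v 1) • D2 f p a2 a2 := by
    intro k v
    have hs := D2_symm hf p a2 a1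
    conv_lhs => rw [expand k, expand v]
    unfold D2 at hs ⊢
    simp only [map_add, map_smul, add_apply, smul_apply, hs]
    module
  by_cases hx : D2 f p a1 a1 = 0
  · have hy : D2 f p a1 a2 = 0 := by
      rw [hx, inner_zero_left] at hg
      exact inner_self_eq_zero.1 hg.symm
    refine ⟨a1, a1_norm, fun v => ?_⟩
    rw [hbil, hx, hy, a1_1]
    simp
  · obtain ⟨t, ht⟩ := parallel _ _ (D2 f p a1 a1) (D2 f p a1 a2) m1 m2 m12 (hk _ _ _) (hk _ _ _)
      (hk _ _ _) (hk _ _ _) hx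
    obtain ⟨s, hs⟩ := parallel _ _ (D2 f p a1 a1) (D2 f p a2 a2) m1 m2 m12 (hk _ _ _) (hk _ _ _)
      (hk _ _ _) (hk _ _ _) hx
    have hst : s = t ^ 2 := by
      rw [ht, hs, real_inner_smul_right, real_inner_smul_left, real_inner_smul_right] at hg
      have hne : ⟪D2 f p a1 a1, D2 f p a1 a1⟫ ≠ 0 := inner_self_ne_zero.2 hx
      have : (s - t ^ 2) * ⟪D2 f p a1 a1, D2 f p a1 a1⟫ = 0 := by linarith [hg]
      rcases mul_eq_zero.1 this with h | h
      · linarith
      · exact absurd h hne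
    set k0 : E2 := t • a1 - a2 with hk0
    have hk01 : k0 1 = -1 := by rw [hk0]; simp [a1_1, a2_1]
    have hk00 : k0 0 = t := by rw [hk0]; simp [a1_0, a2_0]
    have hne : ‖k0‖ ≠ 0 := by
      intro h
      have : k0 = 0 := norm_eq_zero.1 h
      rw [this] at hk01
      simp at hk01
    refine ⟨(‖k0‖)⁻¹ • k0, ?_, fun v => ?_⟩
    · rw [norm_smul, norm_inv, norm_norm]; field_simp
    · have : D2 f p ((‖k0‖)⁻¹ • k0) v = (‖k0‖)⁻¹ • D2 f p k0 v := by
        unfold D2; simp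
      rw [this, hbil, hk01, hk00, ht, hs, hst]
      module

end Crest.Agent.R220.GadgetFlat
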