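import Crest.Agent.R220.GadgetPrep

/-!
# Row 220 (S0341): the gadget from the core gadget
-/

set_option autoImplicit false

open scoped ContDiff Topology

namespace Crest.Agent.R220.GadgetMain

open GadgetFlat GadgetRing GadgetPrep

local notation "⟪" x ", " y "⟫" => inner ℝ x y

/-- the statement of `coreGadget` -/
def CoreGadgetStmt : Prop := ∀ (c M : ℝ), 0 < c → 0 < M → ∃ r0 τ : ℝ, 0 < r0 ∧ 0 < τ ∧
    ∀ r : ℝ, 0 < r → r ≤ r0 → ∀ z0 e1 e2 : E2, ‖e1‖ = 1 → ‖e2‖ = 1 → @inner ℝ E2 _ e1 e2 = 0 →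
    ∀ (N : ℕ) (ε : ℝ), 0 < ε → ∃ h : E2 → (E2 →L[ℝ] E2 →L[ℝ] ℝ),
      ContDiff ℝ ∞ h ∧ (∀ x, x ∉ Metric.closedBall z0 (2 * r) → h x = 0) ∧
      (∀ x v w, h x v w = h x w v) ∧
      (∀ k ≤ N, ∀ x, ‖iteratedFDeriv ℝ k h x‖ ≤ ε) ∧
      ∀ F : E2 → E3, ContDiff ℝ ∞ F →
        (∀ k : ℕ, 1 ≤ k → k ≤ 4 → ∀ x ∈ Metric.closedBall z0 (2 * r),
          ‖iteratedFDeriv ℝ k F x‖ ≤ M) →
        IsoE (Metric.closedBall z0 (2 * r)) h F →
        c ≤ ‖D2 F z0 e1 e1‖ →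
        ‖D2 F z0 e1 e2‖ ≤ τ * ‖D2 F z0 e1 e1‖ →
        ‖D2 F z0 e2 e2‖ ≤ τ * ‖D2 F z0 e1 e1‖ → False

/-- the inner product as a continuous bilinear form -/
noncomputable def B0 : E2 →L[ℝ] E2 →L[ℝ] ℝ :=
  (isBoundedBilinearMap_inner (𝕜 := ℝ) (E := E2)).toContinuousLinearMap

lemma B0_apply (v w : E2) : B0 v w = ⟪v, w⟫ := rfl

/-- coordinates of the points of the detour -/
lemma path_coord {z : E2} {R : ℝ} (hR : 0 < R) {x : E2} (hx : x ∈ path z a1 a2 R) :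
    R / 2 ≤ ‖x - z‖ ∧ ‖x - z‖ ≤ 3 * R / 4 ∧ z 1 ≤ x 1 := by
  have key : ∀ s t : ℝ, x = z + s • a1 + t • a2 → |s| ≤ R / 2 → 0 ≤ t → t ≤ R / 2 →
      (|s| = R / 2 ∨ t = R / 2) → R / 2 ≤ ‖x - z‖ ∧ ‖x - z‖ ≤ 3 * R / 4 ∧ z 1 ≤ x 1 := by
    intro s t hxe hs ht0 ht hor
    have h0 : (x - z) 0 = s := by rw [hxe]; simp [a1_0, a2_0]
    have h1 : (x - z) 1 = t := by rw [hxe]; simp [a1_1, a2_1]
    have hn : ‖x - z‖ ^ 2 = s ^ 2 + t ^ 2 := by rw [norm_sq_E2, h0, h1]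
    have hs2 : s ^ 2 = |s| ^ 2 := (sq_abs s).symm
    have hnn := norm_nonneg (x - z)
    have habs := abs_nonneg s
    refine ⟨?_, ?_, ?_⟩
    · rcases hor with h | h
      · rw [hs2, h] at hn
        by_contra hcon
        push Not at hcon
        nlinarith [sq_nonneg t]
      · rw [h] at hn
        by_contra hcon
        push Not at hcon
        nlinarith [sq_nonneg s]
    · by_contra hcon
      push Not at hcon
      nlinarith
    · have : x 1 - z 1 = t := h1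
      linarith
  rcases hx with hx | hx | hx
  · rw [segment_eq_image'] at hx
    obtain ⟨θ, hθ, rfl⟩ := hx
    refine key (R / 2) (θ * (R / 2)) ?_ ?_ ?_ ?_ (Or.inl ?_)
    · module
    · rw [abs_of_pos (by positivity)]
    · exact mul_nonneg hθ.1 (by positivity)
    · nlinarith [hθ.2]
    · rw [abs_of_pos (by positivity)]
  · rw [segment_eq_image'] at hx
    obtain ⟨θ, hθ, rfl⟩ := hx
    refine key (R / 2 - θ * R) (R / 2) ?_ ?_ ?_ ?_ (Or.inr rfl)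
    · module
    · rw [abs_le]; constructor <;> nlinarith [hθ.1, hθ.2]
    · positivity
    · exact le_rfl
  · rw [segment_eq_image'] at hx
    obtain ⟨θ, hθ, rfl⟩ := hx
    refine key (-(R / 2)) ((1 - θ) * (R / 2)) ?_ ?_ ?_ ?_ (Or.inl ?_)
    · module
    · rw [abs_neg, abs_of_pos (by positivity)]
    · exact mul_nonneg (by linarith [hθ.2]) (by positivity)
    · nlinarith [hθ.1]
    · rw [abs_neg, abs_of_pos (by positivity)]

/-- points of the chord have second coordinate `z 1` -/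
lemma chord_coord {z : E2} {s : ℝ} {x : E2}
    (hx : x ∈ segment ℝ (z + s • a1) (z - s • a1)) (hs : 0 ≤ s) : x 1 = z 1 ∧ ‖x - z‖ ≤ s := by
  rw [segment_eq_image'] at hx
  obtain ⟨θ, hθ, rfl⟩ := hx
  constructor
  · simp [a1_1]
  · have : z + s • a1 + θ • (z - s • a1 - (z + s • a1)) - z = (s * (1 - 2 * θ)) • a1 := by module
    rw [this, norm_smul, a1_norm, mul_one, Real.norm_eq_abs, abs_mul, abs_of_nonneg hs]
    have : |1 - 2 * θ| ≤ 1 := by rw [abs_le]; constructor <;> linarith [hθ.1, hθ.2]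
    nlinarith

lemma norm_fderiv_succ (f : E2 → E3) (x : E2) :
    ‖fderiv ℝ (fderiv ℝ f) x‖ = ‖iteratedFDeriv ℝ 2 f x‖ := by
  rw [← norm_iteratedFDeriv_fderiv, ← norm_iteratedFDeriv_one]

lemma D2_lipschitz {f : E2 → E3} (hf : ContDiff ℝ ∞ f) {M : ℝ} {S : Set E2} (hS : Convex ℝ S)
    (hM : ∀ x ∈ S, ‖iteratedFDeriv ℝ 3 f x‖ ≤ M) {x y : E2} (hx : x ∈ S) (hy : y ∈ S) :
    ‖fderiv ℝ (fderiv ℝ f) y - fderiv ℝ (fderiv ℝ f) x‖ ≤ M * ‖y - x‖ := by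
  have hdiff : Differentiable ℝ (iteratedFDeriv ℝ 2 f) := by
    apply ContDiff.differentiable_iteratedFDeriv (m := 2) _ hf
    exact WithTop.coe_lt_coe.2 (ENat.natCast_lt_top 2)
  have h1 : ‖iteratedFDeriv ℝ 2 f y - iteratedFDeriv ℝ 2 f x‖ ≤ M * ‖y - x‖ := by
    refine hS.norm_image_sub_le_of_norm_fderiv_le (𝕜 := ℝ) (f := iteratedFDeriv ℝ 2 f) (C := M)
      (fun u _ => hdiff u) (fun u hu => ?_) hx hy
    rw [norm_fderiv_iteratedFDeriv]
    exact hM u hu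
  have hM0 : 0 ≤ M := (norm_nonneg _).trans (hM x hx)
  refine ContinuousLinearMap.opNorm_le_bound₂ _ (by positivity) fun v w => ?_
  have h2 := (iteratedFDeriv ℝ 2 f y - iteratedFDeriv ℝ 2 f x).le_opNorm ![v, w]
  have h3 : (iteratedFDeriv ℝ 2 f y - iteratedFDeriv ℝ 2 f x) ![v, w] =
      (fderiv ℝ (fderiv ℝ f) y - fderiv ℝ (fderiv ℝ f) x) v w := by
    simp [iteratedFDeriv_two_apply]
  rw [h3] at h2
  simp only [Fin.prod_univ_two, Matrix.cons_val_zero, Matrix.cons_val_one] at h2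
  refine h2.trans ?_
  rw [← mul_assoc]
  gcongr

/-- operator norm bound from a conformal relation -/
lemma opNorm_le_of_sq (L : E2 →L[ℝ] E3) (s : ℝ) (hs : 0 ≤ s)
    (h : ∀ v, ⟪L v, L v⟫ ≤ s ^ 2 * ⟪v, v⟫) : ‖L‖ ≤ s := by
  refine L.opNorm_le_bound hs fun v => ?_
  have := h v
  rw [real_inner_self_eq_norm_sq, real_inner_self_eq_norm_sq, ← mul_pow] at this
  exact le_of_sq_le_sq this (by positivity)

/-- placement of the cores -/
lemma geom (z : E2) (R : ℝ) (hR : 0 < R) (T : Finset E2) (hTp : ∀ p ∈ T, p ∈ path z a1 a2 R)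
    (m : ℕ) (ρ r0 : ℝ) (hρ : 0 < ρ) (hr0 : 0 < r0) :
    ∃ r : ℝ, 0 < r ∧ r ≤ r0 ∧ ∃ q : {x // x ∈ T} × Fin m → E2,
      (∀ j, ‖q j - j.1‖ ≤ ρ) ∧
      (∀ j x, x ∈ Metric.closedBall (q j) (2 * r) → R / 4 ≤ ‖x - z‖ ∧ ‖x - z‖ ≤ R) ∧
      (∀ j j' x, x ∈ Metric.closedBall (q j) (2 * r) →
        x ∈ Metric.closedBall (q j') (2 * r) → j = j') ∧
      (∀ p ∈ T, ∀ j, p ∉ Metric.closedBall (q j) (2 * r)) ∧
      (∀ x : E2, x 1 = z 1 → ∀ j, x ∉ Metric.closedBall (q j) (2 * r)) := by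
  obtain ⟨D, hD, hDB, hDT⟩ := choose_D T (min (R / 8) (min ρ r0)) (by positivity)
  have hDR : D ≤ R / 8 := hDB.trans (min_le_left _ _)
  have hDρ : D ≤ ρ := hDB.trans ((min_le_right _ _).trans (min_le_left _ _))
  have hDr : D ≤ r0 := hDB.trans ((min_le_right _ _).trans (min_le_right _ _))
  obtain ⟨r, hrp, hrD⟩ : ∃ r : ℝ, 0 < r ∧ 5 * ((m : ℝ) + 2) * r = D :=
    ⟨D / (5 * (m + 2)), by positivity, by field_simp⟩
  have hm0 : (0 : ℝ) ≤ m := Nat.cast_nonneg m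
  have hmr : 0 ≤ (m : ℝ) * r := by positivity
  have hrr0 : r ≤ r0 := by linarith
  have hjm : ∀ j : {x // x ∈ T} × Fin m, (0 : ℝ) ≤ ((j.2 : ℕ) : ℝ) ∧ ((j.2 : ℕ) : ℝ) + 1 ≤ m := by
    intro j
    refine ⟨Nat.cast_nonneg _, ?_⟩
    have := j.2.2
    exact_mod_cast this
  obtain ⟨q, hq⟩ : ∃ q : {x // x ∈ T} × Fin m → E2,
      ∀ j, q j = (j.1 : E2) + (5 * (((j.2 : ℕ) : ℝ) + 1) * r) • a2 := ⟨_, fun j => rfl⟩
  have hqp : ∀ j, ‖q j - j.1‖ = 5 * (((j.2 : ℕ) : ℝ) + 1) * r := by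
    intro j
    have h1 : q j - j.1 = (5 * (((j.2 : ℕ) : ℝ) + 1) * r) • a2 := by rw [hq]; abel
    rw [h1, norm_smul, a2_norm, mul_one, Real.norm_of_nonneg]
    have := (hjm j).1
    positivity
  have hqD : ∀ j, ‖q j - j.1‖ + 2 * r ≤ D := by
    intro j
    rw [hqp, ← hrD]
    have h1 := (hjm j).2
    have h2 : (((j.2 : ℕ) : ℝ) + 1) * r ≤ m * r := mul_le_mul_of_nonneg_right h1 hrp.le
    linarith
  have hq1 : ∀ j, (q j) 1 = (j.1 : E2) 1 + 5 * (((j.2 : ℕ) : ℝ) + 1) * r := by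
    intro j
    rw [hq, PiLp.add_apply, PiLp.smul_apply, a2_1, smul_eq_mul, mul_one]
  -- geometry of the cores
  have hballD : ∀ j x, x ∈ Metric.closedBall (q j) (2 * r) → ‖x - j.1‖ ≤ D := by
    intro j x hx
    rw [Metric.mem_closedBall, dist_eq_norm] at hx
    have : x - (j.1 : E2) = (x - q j) + (q j - j.1) := by abel
    rw [this]
    have := norm_add_le (x - q j) (q j - j.1)
    linarith [hqD j]
  have hpz : ∀ p ∈ T, R / 2 ≤ ‖p - z‖ ∧ ‖p - z‖ ≤ 3 * R / 4 ∧ z 1 ≤ p 1 :=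
    fun p hp => path_coord hR (hTp p hp)
  refine ⟨r, hrp, hrr0, q, ?_, ?_, ?_, ?_, ?_⟩
  · intro j
    linarith [hqD j]
  · intro j x hx
    have h1 := hballD j x hx
    have h2 := hpz j.1 j.1.2
    have h3 : ‖(j.1 : E2) - z‖ ≤ ‖x - j.1‖ + ‖x - z‖ := by
      have : (j.1 : E2) - z = (x - z) - (x - j.1) := by abel
      rw [this]
      linarith [norm_sub_le (x - z) (x - (j.1 : E2))]
    have h5 : ‖x - z‖ ≤ ‖x - j.1‖ + ‖(j.1 : E2) - z‖ := by
      have : x - z = (x - j.1) + ((j.1 : E2) - z) := by abel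
      rw [this]
      exact norm_add_le _ _
    constructor <;> linarith [h2.1, h2.2.1]
  · intro j j' x hx hx'
    have h1 := hballD j x hx
    have h2 := hballD j' x hx'
    have h11 : (j.1 : E2) = j'.1 := by
      by_contra hne
      have h3 := hDT j.1 j.1.2 j'.1 j'.1.2 hne
      have h5 : dist (j.1 : E2) j'.1 ≤ ‖x - j.1‖ + ‖x - j'.1‖ := by
        rw [dist_eq_norm]
        have : (j.1 : E2) - j'.1 = (x - j'.1) - (x - j.1) := by abel
        rw [this]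
        linarith [norm_sub_le (x - (j'.1 : E2)) (x - (j.1 : E2))]
      linarith
    have h22 : (j.2 : ℕ) = (j'.2 : ℕ) := by
      by_contra hne
      rw [Metric.mem_closedBall, dist_eq_norm] at hx hx'
      have h3 : ‖q j - q j'‖ ≤ 4 * r := by
        have : q j - q j' = (x - q j') - (x - q j) := by abel
        rw [this]
        linarith [norm_sub_le (x - q j') (x - q j)]
      have h5 : q j - q j' = (5 * (((j.2 : ℕ) : ℝ) - ((j'.2 : ℕ) : ℝ)) * r) • a2 := by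
        rw [hq, hq, h11]
        module
      rw [h5, norm_smul, a2_norm, mul_one, Real.norm_eq_abs, abs_mul, abs_mul,
        abs_of_pos hrp, abs_of_pos (by norm_num : (0:ℝ) < 5)] at h3
      have h6 : (1 : ℝ) ≤ |((j.2 : ℕ) : ℝ) - ((j'.2 : ℕ) : ℝ)| := by
        have h7 : ((j.2 : ℕ) : ℤ) - ((j'.2 : ℕ) : ℤ) ≠ 0 := by omega
        have h8 : (1 : ℤ) ≤ |((j.2 : ℕ) : ℤ) - ((j'.2 : ℕ) : ℤ)| := Int.one_le_abs h7
        exact_mod_cast h8
      nlinarith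
    exact Prod.ext (Subtype.ext h11) (Fin.ext h22)
  · intro p hp j hx
    have h1 := hballD j p hx
    by_cases hpj : p = j.1
    · rw [Metric.mem_closedBall, dist_eq_norm, hpj, norm_sub_rev, hqp] at hx
      have := (hjm j).1
      nlinarith
    · have := hDT p hp j.1 j.1.2 hpj
      rw [dist_eq_norm] at this
      linarith
  · intro x hx1 j hx
    rw [Metric.mem_closedBall, dist_eq_norm, norm_sub_rev] at hx
    have h1 : |(q j - x) 1| ≤ ‖q j - x‖ := by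
      have := norm_sq_E2 (q j - x)
      exact abs_le_of_sq_le_sq (by nlinarith [sq_nonneg ((q j - x) 0)]) (norm_nonneg _)
    have h2 : (q j - x) 1 = (j.1 : E2) 1 + 5 * (((j.2 : ℕ) : ℝ) + 1) * r - z 1 := by
      rw [PiLp.sub_apply, hq1, hx1]
    have h3 := (hpz j.1 j.1.2).2.2
    have h5 := (hjm j).1
    have h6 := le_abs_self ((q j - x) 1)
    nlinarith

/-- the central bump, in an abstract space of values -/
lemma central {V : Type*} [NormedAddCommGroup V] [NormedSpace ℝ V] (z : E2) (R : ℝ) (hR : 0 < R)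
    (N : ℕ) (ε : ℝ) (hε : 0 < ε) (b : V) :
    ∃ (e1 : ℝ) (β : E2 → ℝ) (G : E2 → V), 0 < e1 ∧ e1 ≤ 1 / 2 ∧ (∀ x, 0 ≤ β x) ∧
      (∀ x, ‖x - z‖ ≤ R / 8 → β x = 1) ∧ (∀ x, R / 4 ≤ ‖x - z‖ → β x = 0) ∧
      (∀ x, G x = (-(e1 * β x)) • b) ∧ ContDiff ℝ ∞ G ∧
      ∀ k ≤ N, ∀ x, ‖iteratedFDeriv ℝ k G x‖ ≤ ε / 2 := by
  let β : ContDiffBump z := ⟨R / 8, R / 4, by positivity, by linarith⟩
  have hβ1 : ∀ x, ‖x - z‖ ≤ R / 8 → β x = 1 := fun x hx =>
    β.one_of_mem_closedBall (by rw [Metric.mem_closedBall, dist_eq_norm]; exact hx)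
  have hβ0 : ∀ x, R / 4 ≤ ‖x - z‖ → β x = 0 := fun x hx =>
    β.zero_of_le_dist (by rw [dist_eq_norm]; exact hx)
  have hβn : ∀ x, 0 ≤ β x := fun x => β.nonneg
  set g0 : E2 → V := fun x => β x • b with hg0
  have hg0s : ContDiff ℝ ∞ g0 := β.contDiff.smul contDiff_const
  have hg0c : HasCompactSupport g0 := β.hasCompactSupport.smul_right
  obtain ⟨C, hC0, hC⟩ := exists_bound g0 hg0s hg0c N
  obtain ⟨e1, he1, he1', heC⟩ : ∃ e : ℝ, 0 < e ∧ e ≤ 1/2 ∧ e * C ≤ ε / 2 := by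
    refine ⟨min (1/2) (ε/(2*(C+1))), by positivity, min_le_left _ _, ?_⟩
    have h1 : min (1/2) (ε/(2*(C+1))) ≤ ε/(2*(C+1)) := min_le_right _ _
    calc min (1/2) (ε/(2*(C+1))) * C ≤ ε/(2*(C+1)) * C := by gcongr
      _ ≤ ε/2 := by
          rw [div_mul_eq_mul_div, div_le_div_iff₀ (by positivity) (by positivity)]
          nlinarith
  refine ⟨e1, β, fun x => (-e1) • g0 x, he1, he1', hβn, hβ1, hβ0, ?_, hg0s.const_smul _, ?_⟩
  · intro x
    simp only [hg0, smul_smul]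
    congr 1
    ring
  · intro k hk x
    have hkinf : ((k : ℕ) : WithTop ℕ∞) ≤ ∞ := by exact_mod_cast le_top
    have : iteratedFDeriv ℝ k (fun x => (-e1) • g0 x) x = (-e1) • iteratedFDeriv ℝ k g0 x :=
      iteratedFDeriv_const_smul_apply ((hg0s.of_le hkinf).contDiffAt)
    rw [this, norm_smul, norm_neg, Real.norm_of_nonneg he1.le]
    exact (mul_le_mul_of_nonneg_left (hC k hk x) he1.le).trans heC

/-- a net point where the second derivative is not small -/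
lemma point_exists {F : E2 → E3} (hF : ContDiff ℝ ∞ F) (z : E2) (R M κ c1 e1 : ℝ) (hR : 0 < R)
    (hM : 0 < M) (hκ0 : 0 ≤ κ) (hκ2 : κ ^ 2 = 1 - e1) (he1 : 0 < e1) (hc1p : 0 < c1)
    (h4 : 4 * R ^ 2 * c1 < (1 - κ) * (R / 4))
    (T : Finset E2) (hTp : ∀ p ∈ T, p ∈ path z a1 a2 R)
    (hTn : ∀ x ∈ path z a1 a2 R, ∃ p ∈ T, ‖x - p‖ ≤ c1 / (2 * M))
    (hb3 : ∀ x ∈ Metric.closedBall z R, ‖iteratedFDeriv ℝ 3 F x‖ ≤ M)
    (β : E2 → ℝ) (hβn : ∀ x, 0 ≤ β x) (hβ1 : ∀ x, ‖x - z‖ ≤ R / 8 → β x = 1)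
    (hβ0 : ∀ x, R / 4 ≤ ‖x - z‖ → β x = 0)
    (hchord : ∀ x : E2, x 1 = z 1 → ‖x - z‖ ≤ R → ∀ v : E2,
      ⟪fderiv ℝ F x v, fderiv ℝ F x v⟫ = (1 - e1 * β x) * ⟪v, v⟫) :
    ∃ p ∈ T, c1 / 2 ≤ ‖fderiv ℝ (fderiv ℝ F) p‖ := by
  obtain ⟨x, hx, hxc⟩ := exists_large F hF z a1 a2 R κ c1 hR hc1p.le a1_norm a2_norm
    (by
      intro x hx
      have h1 := chord_coord hx (by positivity)
      refine opNorm_le_of_sq _ 1 zero_le_one fun v => ?_
      rw [hchord x h1.1 (by linarith [h1.2])]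
      have : 0 ≤ e1 * β x * ⟪v, v⟫ := by
        have := hβn x
        have : 0 ≤ (⟪v, v⟫ : ℝ) := real_inner_self_nonneg
        positivity
      nlinarith)
    (by
      intro x hx
      have h1 := chord_coord hx (by positivity)
      refine opNorm_le_of_sq _ κ hκ0 fun v => ?_
      rw [hchord x h1.1 (by linarith [h1.2]), hβ1 x h1.2, mul_one, hκ2])
    (by
      have h1 : (z + (R / 2) • a1) 1 = z 1 := by simp [a1_1]
      have h2 : ‖z + (R / 2) • a1 - z‖ = R / 2 := by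
        rw [add_sub_cancel_left, norm_smul, a1_norm, mul_one, Real.norm_of_nonneg (by positivity)]
      have h3 := hchord (z + (R / 2) • a1) h1 (by linarith) (R • a1)
      rw [hβ0 _ (by linarith), mul_zero, sub_zero, one_mul, real_inner_self_eq_norm_sq,
        real_inner_self_eq_norm_sq] at h3
      have h5 := (pow_left_inj₀ (norm_nonneg _) (norm_nonneg _) two_ne_zero).1 h3
      rw [h5, norm_smul, a1_norm, mul_one, Real.norm_of_nonneg hR.le])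
    h4
  obtain ⟨p, hp, hxp⟩ := hTn x hx
  refine ⟨p, hp, ?_⟩
  have hxB : x ∈ Metric.closedBall z R := by
    rw [Metric.mem_closedBall, dist_eq_norm]
    linarith [(path_coord hR hx).2.1]
  have hpB : p ∈ Metric.closedBall z R := by
    rw [Metric.mem_closedBall, dist_eq_norm]
    linarith [(path_coord hR (hTp p hp)).2.1]
  have h1 := D2_lipschitz hF (convex_closedBall z R) hb3 hpB hxB
  have h2 : M * ‖x - p‖ ≤ c1 / 2 := by
    calc M * ‖x - p‖ ≤ M * (c1 / (2 * M)) := by gcongr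
      _ = c1 / 2 := by field_simp
  have h3 : ‖fderiv ℝ (fderiv ℝ F) x‖ ≤ ‖fderiv ℝ (fderiv ℝ F) x - fderiv ℝ (fderiv ℝ F) p‖ +
      ‖fderiv ℝ (fderiv ℝ F) p‖ :=
    norm_le_norm_sub_add (fderiv ℝ (fderiv ℝ F) x) (fderiv ℝ (fderiv ℝ F) p)
  linarith

/-- transfer of the second derivative from the flat point `p` to the centre `q` of the core -/
lemma core_conditions {F : E2 → E3} (hF : ContDiff ℝ ∞ F) (z : E2) (R M c ρ τ : ℝ) (hτ : 0 < τ)
    (hρ1 : 4 * (M * ρ) ≤ c) (hρ2 : 2 * (M * ρ) ≤ τ * c)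
    (hb2 : ∀ x ∈ Metric.closedBall z R, ‖iteratedFDeriv ℝ 2 F x‖ ≤ M)
    (hb3 : ∀ x ∈ Metric.closedBall z R, ‖iteratedFDeriv ℝ 3 F x‖ ≤ M)
    (p : E2) (hp : p ∈ Metric.closedBall z R)
    (hflat : ∀ᶠ y in 𝓝 p, ∀ v w : E2, ⟪fderiv ℝ F y v, fderiv ℝ F y w⟫ = ⟪v, w⟫)
    (hpc : 2 * c ≤ ‖fderiv ℝ (fderiv ℝ F) p‖) :
    ∃ k : E2, ‖k‖ = 1 ∧ ∀ e q : E2, ‖e‖ = 1 → ‖e - k‖ ≤ ρ → q ∈ Metric.closedBall z R →
      ‖q - p‖ ≤ ρ → c ≤ ‖D2 F q (rot e) (rot e)‖ ∧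
        ‖D2 F q (rot e) e‖ ≤ τ * ‖D2 F q (rot e) (rot e)‖ ∧
        ‖D2 F q e e‖ ≤ τ * ‖D2 F q (rot e) (rot e)‖ := by
  obtain ⟨k, hk1, hk⟩ := flat_kernel hF p hflat
  refine ⟨k, hk1, fun e q he hek hq hqp => ?_⟩
  have hre : ‖rot e‖ = 1 := by rw [rot_norm, he]
  obtain ⟨h1, h2⟩ := frame_est (fderiv ℝ (fderiv ℝ F) p) (fun u v => D2_symm hF p u v) k e hk he M
    ρ (2 * c) (by rw [norm_fderiv_succ]; exact hb2 p hp) hek hpc
  have hM0 : 0 ≤ M := (norm_nonneg _).trans (hb2 p hp)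
  have h3 := D2_lipschitz hF (convex_closedBall z R) hb3 hp hq
  have h4 : M * ‖q - p‖ ≤ M * ρ := by gcongr
  have h5 : ∀ v w : E2, ‖v‖ = 1 → ‖w‖ = 1 → ‖D2 F q v w - D2 F p v w‖ ≤ M * ρ := by
    intro v w hv hw
    have := (fderiv ℝ (fderiv ℝ F) q - fderiv ℝ (fderiv ℝ F) p).le_opNorm₂ v w
    rw [hv, hw, mul_one, mul_one] at this
    exact this.trans (h3.trans h4)
  have h6 : ∀ v w : E2, ‖D2 F q v w‖ ≤ ‖D2 F q v w - D2 F p v w‖ + ‖D2 F p v w‖ :=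
    fun v w => norm_le_norm_sub_add _ _
  have h7 : ‖D2 F p (rot e) (rot e)‖ ≤ ‖D2 F p (rot e) (rot e) - D2 F q (rot e) (rot e)‖ +
      ‖D2 F q (rot e) (rot e)‖ := norm_le_norm_sub_add _ _
  rw [norm_sub_rev] at h7
  have h8 := h5 _ _ hre hre
  have h9 := h5 _ _ hre he
  have h10 := h5 _ _ he he
  have h11 := h1 (rot e)
  have h12 := h1 e
  rw [hre, mul_one] at h11
  rw [he, mul_one] at h12
  have h2' : 2 * c - 3 * (M * ρ) ≤ ‖D2 F p (rot e) (rot e)‖ := h2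
  have h11' : ‖D2 F p e (rot e)‖ ≤ M * ρ := h11
  have h12' : ‖D2 F p e e‖ ≤ M * ρ := h12
  rw [D2_symm hF p e (rot e)] at h11'
  have hlow : c ≤ ‖D2 F q (rot e) (rot e)‖ := by linarith
  have hτc : τ * c ≤ τ * ‖D2 F q (rot e) (rot e)‖ := by gcongr
  refine ⟨hlow, ?_, ?_⟩
  · linarith [h6 (rot e) e]
  · linarith [h6 e e]

/-- the total perturbation -/
noncomputable def tot {V ι : Type*} [Fintype ι] [NormedAddCommGroup V] (G : E2 → V)
    (hh : ι → E2 → V) : E2 → V := fun x => G x + ∑ j, hh j x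

lemma tot_off {V ι : Type*} [Fintype ι] [NormedAddCommGroup V] (G : E2 → V)
    (hh : ι → E2 → V) {x : E2} (hx : ∀ j, hh j x = 0) : tot G hh x = G x := by
  simp [tot, hx]

lemma tot_core {V ι : Type*} [Fintype ι] [NormedAddCommGroup V] (G : E2 → V)
    (hh : ι → E2 → V) {x : E2} {j : ι} (hG : G x = 0) (hx : ∀ j', j' ≠ j → hh j' x = 0) :
    tot G hh x = hh j x := by
  classical
  rw [tot, hG, zero_add]
  exact Finset.sum_eq_single j (fun j' _ hne => hx j' hne) (fun h => absurd (Finset.mem_univ _) h)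

lemma tot_smooth {V ι : Type*} [Fintype ι] [NormedAddCommGroup V] [NormedSpace ℝ V] (G : E2 → V)
    (hh : ι → E2 → V) (hG : ContDiff ℝ ∞ G) (hhs : ∀ j, ContDiff ℝ ∞ (hh j)) :
    ContDiff ℝ ∞ (tot G hh) :=
  hG.add (ContDiff.sum fun j _ => hhs j)

theorem gadget_of (H : CoreGadgetStmt) (z : E2) (R M : ℝ) (hR : 0 < R) (hM : 0 < M) (N : ℕ)
    (ε : ℝ) (hε : 0 < ε) :
    ∃ h : E2 → (E2 →L[ℝ] E2 →L[ℝ] ℝ),
      ContDiff ℝ ∞ h ∧ (∀ x, x ∉ Metric.closedBall z R → h x = 0) ∧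
      (∀ x v w, h x v w = h x w v) ∧
      (∀ k ≤ N, ∀ x, ‖iteratedFDeriv ℝ k h x‖ ≤ ε) ∧
      ∀ F : E2 → E3, ContDiff ℝ ∞ F →
        (∀ k : ℕ, 1 ≤ k → k ≤ 4 → ∀ x ∈ Metric.closedBall z R, ‖iteratedFDeriv ℝ k F x‖ ≤ M) →
        ¬ IsoE (Metric.closedBall z R) h F := by
  -- the central bump
  obtain ⟨e1, β, G, he1, he1', hβn, hβ1, hβ0, hG, hGs, hGb⟩ := central z R hR N ε hε B0
  set κ := Real.sqrt (1 - e1) with hκ
  have hκ0 : 0 ≤ κ := Real.sqrt_nonneg _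
  have hκ2 : κ ^ 2 = 1 - e1 := Real.sq_sqrt (by linarith)
  have hκ1 : κ < 1 := by nlinarith
  obtain ⟨c1, hc1p, h4⟩ : ∃ c1 : ℝ, 0 < c1 ∧ 4 * R ^ 2 * c1 < (1 - κ) * (R / 4) := by
    have hc1p : 0 < (1 - κ) / (32 * R) := div_pos (by linarith) (by positivity)
    refine ⟨(1 - κ) / (32 * R), hc1p, ?_⟩
    have hc1R : (1 - κ) / (32 * R) * (32 * R) = 1 - κ := by field_simp
    nlinarith [mul_pos hc1p (mul_pos hR hR)]
  obtain ⟨T, hTp, hTn⟩ := exists_net (isCompact_path z a1 a2 R) (c1 / (2 * M)) (by positivity)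
  obtain ⟨c, hcp, hc⟩ : ∃ c : ℝ, 0 < c ∧ c1 / 2 = 2 * c := ⟨c1 / 4, by positivity, by ring⟩
  obtain ⟨r0, τ, hr0, hτ, hcore⟩ := H c M hcp hM
  obtain ⟨ρ, hρp, hρ1, hρ2⟩ : ∃ ρ : ℝ, 0 < ρ ∧ 4 * (M * ρ) ≤ c ∧ 2 * (M * ρ) ≤ τ * c := by
    refine ⟨min (c / (4 * M)) (τ * c / (2 * M)), by positivity, ?_, ?_⟩
    · have h1 : min (c / (4 * M)) (τ * c / (2 * M)) ≤ c / (4 * M) := min_le_left _ _
      calc 4 * (M * min (c / (4 * M)) (τ * c / (2 * M))) ≤ 4 * (M * (c / (4 * M))) := by gcongr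
        _ = c := by field_simp
    · have h1 : min (c / (4 * M)) (τ * c / (2 * M)) ≤ τ * c / (2 * M) := min_le_right _ _
      calc 2 * (M * min (c / (4 * M)) (τ * c / (2 * M))) ≤ 2 * (M * (τ * c / (2 * M))) := by gcongr
        _ = τ * c := by field_simp
  obtain ⟨m, W, hW1, hWn⟩ := dir_net ρ hρp
  obtain ⟨r, hrp, hrr0, q, hqρ, hfar, hdisj, hTfar, hchord⟩ := geom z R hR T hTp m ρ r0 hρp hr0
  -- the core gadgets
  have hcores := fun j : {x // x ∈ T} × Fin m =>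
    hcore r hrp hrr0 (q j) (rot (W j.2)) (W j.2) (by rw [rot_norm, hW1]) (hW1 _) (inner_rot _) N
      (ε / (2 * (Fintype.card ({x // x ∈ T} × Fin m) + 1))) (by positivity)
  choose hh hhs hhz hhsym hhb hhF using hcores
  have hoff : ∀ x, (∀ j, x ∉ Metric.closedBall (q j) (2 * r)) → tot G hh x = G x :=
    fun x hx => tot_off G hh fun j => hhz j x (hx j)
  have hGv : ∀ x v w, G x v w = -(e1 * β x) * ⟪v, w⟫ := by
    intro x v w
    rw [hG]
    rfl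
  have hG0 : ∀ x, R / 4 ≤ ‖x - z‖ → G x = 0 := by
    intro x hx
    refine ContinuousLinearMap.ext fun v => ContinuousLinearMap.ext fun w => ?_
    rw [hGv, hβ0 x hx, mul_zero, neg_zero, zero_mul]
    rfl
  have hcoreval : ∀ j x, x ∈ Metric.closedBall (q j) (2 * r) → tot G hh x = hh j x := by
    intro j x hx
    exact tot_core G hh (hG0 x (hfar j x hx).1) fun j' hne =>
      hhz j' x fun hx' => hne (hdisj j' j x hx' hx)
  refine ⟨tot G hh, tot_smooth G hh hGs hhs, ?_, ?_, ?_, ?_⟩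
  · intro x hx
    rw [Metric.mem_closedBall, dist_eq_norm, not_le] at hx
    have h1 : ∀ j, x ∉ Metric.closedBall (q j) (2 * r) := fun j hxj => by
      linarith [(hfar j x hxj).2]
    rw [hoff x h1, hG0 x (by linarith)]
  · intro x v w
    by_cases hx : ∀ j, x ∉ Metric.closedBall (q j) (2 * r)
    · rw [hoff x hx, hGv, hGv, real_inner_comm]
    · push Not at hx
      obtain ⟨j, hj⟩ := hx
      rw [hcoreval j x hj, hhsym]
  · exact sum_bound N ε hε G hh hGs hhs hGb hhb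
  · intro F hF hb hiso
    have hb2 : ∀ x ∈ Metric.closedBall z R, ‖iteratedFDeriv ℝ 2 F x‖ ≤ M :=
      fun x hx => hb 2 (by norm_num) (by norm_num) x hx
    have hb3 : ∀ x ∈ Metric.closedBall z R, ‖iteratedFDeriv ℝ 3 F x‖ ≤ M :=
      fun x hx => hb 3 (by norm_num) (by norm_num) x hx
    obtain ⟨p, hpT, hpc⟩ := point_exists hF z R M κ c1 e1 hR hM hκ0 hκ2 he1 hc1p h4 T hTp hTn hb3
      β hβn hβ1 hβ0 (by
        intro x hx1 hxR v
        have h1 := hiso x (by rw [Metric.mem_closedBall, dist_eq_norm]; exact hxR) v v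
        rw [hoff x (hchord x hx1), hGv] at h1
        rw [h1]
        ring)
    have hpz := path_coord hR (hTp p hpT)
    have hpB : p ∈ Metric.closedBall z R := by
      rw [Metric.mem_closedBall, dist_eq_norm]
      linarith [hpz.2.1]
    have hflat : ∀ᶠ y in 𝓝 p, ∀ v w : E2, ⟪fderiv ℝ F y v, fderiv ℝ F y w⟫ = ⟪v, w⟫ := by
      have e1 : ∀ᶠ y in 𝓝 p, ∀ j, y ∉ Metric.closedBall (q j) (2 * r) := by
        rw [Filter.eventually_all]
        intro j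
        exact Metric.isClosed_closedBall.isOpen_compl.mem_nhds (hTfar p hpT j)
      have hcont : Continuous fun y : E2 => ‖y - z‖ := by fun_prop
      have e2 : ∀ᶠ y in 𝓝 p, R / 4 < ‖y - z‖ :=
        hcont.continuousAt.eventually (lt_mem_nhds (by linarith [hpz.1]))
      have e3 : ∀ᶠ y in 𝓝 p, ‖y - z‖ < R :=
        hcont.continuousAt.eventually (gt_mem_nhds (by linarith [hpz.2.1]))
      filter_upwards [e1, e2, e3] with y h1 h2 h3 v w
      have h5 := hiso y (by rw [Metric.mem_closedBall, dist_eq_norm]; exact h3.le) v w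
      rw [hoff y h1, hGv, hβ0 y h2.le] at h5
      rw [h5]
      ring
    obtain ⟨k, hk1, hk⟩ := core_conditions hF z R M c ρ τ hτ hρ1 hρ2 hb2 hb3 p hpB hflat
      (by rw [← hc]; exact hpc)
    obtain ⟨i, hi⟩ := hWn k hk1
    set j : {x // x ∈ T} × Fin m := (⟨p, hpT⟩, i) with hj
    have hqB : q j ∈ Metric.closedBall z R := by
      rw [Metric.mem_closedBall, dist_eq_norm]
      exact (hfar j (q j) (Metric.mem_closedBall_self (by positivity))).2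
    obtain ⟨k1, k2, k3⟩ := hk (W i) (q j) (hW1 i) hi hqB (hqρ j)
    refine hhF j F hF ?_ ?_ k1 k2 k3
    · intro k hk1 hk4 x hx
      refine hb k hk1 hk4 x ?_
      rw [Metric.mem_closedBall, dist_eq_norm]
      exact (hfar j x hx).2
    · intro x hx v w
      have h1 := hiso x (by rw [Metric.mem_closedBall, dist_eq_norm]; exact (hfar j x hx).2) v w
      rw [h1, hcoreval j x hx]

end Crest.Agent.R220.GadgetMain
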