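import Crest.Agent.R220.GadgetRing
import Crest.Agent.R220.GadgetFlat

/-!
# Row 220 (S0341): preparations for the gadget: rotations, nets, bounds of finite sums
-/

set_option autoImplicit false

open scoped ContDiff Topology

namespace Crest.Agent.R220.GadgetPrep

open GadgetFlat GadgetRing

local notation "⟪" x ", " y "⟫" => inner ℝ x y

/-- rotation by 90 degrees -/
noncomputable def rot (v : E2) : E2 := v 0 • a2 - v 1 • a1

lemma rot_0 (v : E2) : rot v 0 = - v 1 := by simp [rot, a1_0, a2_0]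
lemma rot_1 (v : E2) : rot v 1 = v 0 := by simp [rot, a1_1, a2_1]

lemma norm_sq_E2 (v : E2) : ‖v‖ ^ 2 = v 0 ^ 2 + v 1 ^ 2 := by
  rw [EuclideanSpace.real_norm_sq_eq, Fin.sum_univ_two]

lemma inner_E2 (v w : E2) : ⟪v, w⟫ = v 0 * w 0 + v 1 * w 1 := by
  rw [PiLp.inner_apply, Fin.sum_univ_two]
  simp [mul_comm]

lemma rot_norm (v : E2) : ‖rot v‖ = ‖v‖ := by
  have h : ‖rot v‖ ^ 2 = ‖v‖ ^ 2 := by
    rw [norm_sq_E2, norm_sq_E2, rot_0, rot_1]; ring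
  exact (pow_left_inj₀ (norm_nonneg _) (norm_nonneg _) two_ne_zero).1 h

lemma inner_rot (v : E2) : ⟪rot v, v⟫ = 0 := by
  rw [inner_E2, rot_0, rot_1]; ring

lemma expand_rot (v u : E2) (hv : ‖v‖ = 1) : u = ⟪u, rot v⟫ • rot v + ⟪u, v⟫ • v := by
  have h : v 0 ^ 2 + v 1 ^ 2 = 1 := by rw [← norm_sq_E2, hv]; norm_num
  ext i
  fin_cases i
  · simp only [Fin.zero_eta, PiLp.add_apply, PiLp.smul_apply, smul_eq_mul, inner_E2, rot_0, rot_1]
    linear_combination (-(u 0)) * h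
  · simp only [Fin.mk_one, PiLp.add_apply, PiLp.smul_apply, smul_eq_mul, inner_E2, rot_0, rot_1]
    linear_combination (-(u 1)) * h

lemma frame_est (T : E2 →L[ℝ] E2 →L[ℝ] E3) (hs : ∀ u v, T u v = T v u) (k e : E2)
    (hk : ∀ v, T k v = 0) (he : ‖e‖ = 1) (M s c : ℝ) (hM : ‖T‖ ≤ M)
    (hke : ‖e - k‖ ≤ s) (hc : c ≤ ‖T‖) :
    (∀ v, ‖T e v‖ ≤ M * s * ‖v‖) ∧ c - 3 * (M * s) ≤ ‖T (rot e) (rot e)‖ := by
  have hM0 : 0 ≤ M := (norm_nonneg T).trans hM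
  have h1 : ∀ v, ‖T e v‖ ≤ M * s * ‖v‖ := by
    intro v
    have : T e v = T (e - k) v := by
      rw [map_sub, sub_apply, hk, sub_zero]
    rw [this]
    refine (T.le_opNorm₂ _ _).trans ?_
    gcongr
  refine ⟨h1, ?_⟩
  have hs0 : 0 ≤ s := (norm_nonneg _).trans hke
  have hre : ‖rot e‖ = 1 := by rw [rot_norm, he]
  have hMs : 0 ≤ M * s := by positivity
  have h2 : ‖T‖ ≤ ‖T (rot e) (rot e)‖ + 3 * (M * s) := by
    refine T.opNorm_le_bound₂ (by positivity) ?_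
    intro x y
    have hx1 : |⟪x, rot e⟫| ≤ ‖x‖ := by
      have := abs_real_inner_le_norm x (rot e); rwa [hre, mul_one] at this
    have hx2 : |⟪x, e⟫| ≤ ‖x‖ := by
      have := abs_real_inner_le_norm x e; rwa [he, mul_one] at this
    have hy1 : |⟪y, rot e⟫| ≤ ‖y‖ := by
      have := abs_real_inner_le_norm y (rot e); rwa [hre, mul_one] at this
    have hy2 : |⟪y, e⟫| ≤ ‖y‖ := by
      have := abs_real_inner_le_norm y e; rwa [he, mul_one] at this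
    have hTT : T x y = (⟪x, rot e⟫ * ⟪y, rot e⟫) • T (rot e) (rot e) +
        ((⟪x, rot e⟫ * ⟪y, e⟫) • T e (rot e) + ((⟪x, e⟫ * ⟪y, rot e⟫) • T e (rot e) +
        (⟪x, e⟫ * ⟪y, e⟫) • T e e)) := by
      conv_lhs => rw [expand_rot e x he, expand_rot e y he]
      simp only [map_add, map_smul, add_apply, smul_apply, hs (rot e) e]
      module
    have b1 := h1 (rot e)
    have b2 := h1 e
    rw [hre, mul_one] at b1
    rw [he, mul_one] at b2
    have prod : ∀ (s t A B : ℝ) (w : E3) (L : ℝ), |s| ≤ A → |t| ≤ B → ‖w‖ ≤ L →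
        ‖(s * t) • w‖ ≤ L * A * B := by
      intro s t A B w L h1 h2 h3
      rw [norm_smul, Real.norm_eq_abs, abs_mul]
      have hA : 0 ≤ A := (abs_nonneg s).trans h1
      have hB : 0 ≤ B := (abs_nonneg t).trans h2
      have : |s| * |t| * ‖w‖ ≤ A * B * L :=
        mul_le_mul (mul_le_mul h1 h2 (abs_nonneg t) hA) h3 (norm_nonneg w) (mul_nonneg hA hB)
      linarith
    rw [hTT]
    refine (norm_add_le _ _).trans ?_
    have q1 := prod _ _ _ _ (T (rot e) (rot e)) _ hx1 hy1 le_rfl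
    have q2 := prod _ _ _ _ (T e (rot e)) _ hx1 hy2 b1
    have q3 := prod _ _ _ _ (T e (rot e)) _ hx2 hy1 b1
    have q4 := prod _ _ _ _ (T e e) _ hx2 hy2 b2
    have q5 := norm_add_le ((⟪x, rot e⟫ * ⟪y, e⟫) • T e (rot e))
      ((⟪x, e⟫ * ⟪y, rot e⟫) • T e (rot e) + (⟪x, e⟫ * ⟪y, e⟫) • T e e)
    have q6 := norm_add_le ((⟪x, e⟫ * ⟪y, rot e⟫) • T e (rot e)) ((⟪x, e⟫ * ⟪y, e⟫) • T e e)
    linarith
  linarith

lemma exists_net {K : Set E2} (hK : IsCompact K) (δ : ℝ) (hδ : 0 < δ) :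
    ∃ T : Finset E2, (∀ p ∈ T, p ∈ K) ∧ ∀ x ∈ K, ∃ p ∈ T, ‖x - p‖ ≤ δ := by
  obtain ⟨t, ht, hfin, hcov⟩ := hK.finite_cover_balls hδ
  refine ⟨hfin.toFinset, fun p hp => ht (hfin.mem_toFinset.1 hp), fun x hx => ?_⟩
  have := hcov hx
  simp only [Set.mem_iUnion, Metric.mem_ball] at this
  obtain ⟨p, hp, hd⟩ := this
  exact ⟨p, hfin.mem_toFinset.2 hp, by rw [← dist_eq_norm]; exact hd.le⟩

lemma dir_net (ρ : ℝ) (hρ : 0 < ρ) : ∃ (m : ℕ) (W : Fin m → E2), (∀ i, ‖W i‖ = 1) ∧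
    ∀ k : E2, ‖k‖ = 1 → ∃ i, ‖W i - k‖ ≤ ρ := by
  obtain ⟨T, hT, hc⟩ := exists_net (isCompact_sphere (0 : E2) 1) ρ hρ
  refine ⟨T.card, fun i => (T.equivFin.symm i : E2), fun i => ?_, fun k hk => ?_⟩
  · have := hT _ (T.equivFin.symm i).2
    simpa using this
  · obtain ⟨p, hp, hd⟩ := hc k (by simpa using hk)
    refine ⟨T.equivFin ⟨p, hp⟩, ?_⟩
    simp only [Equiv.symm_apply_apply]
    rwa [norm_sub_rev]

lemma choose_D (T : Finset E2) (B : ℝ) (hB : 0 < B) :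
    ∃ D, 0 < D ∧ D ≤ B ∧ ∀ p ∈ T, ∀ p' ∈ T, p ≠ p' → 2 * D < dist p p' := by
  have h1 : ∀ᶠ D in 𝓝[>] (0 : ℝ), ∀ p ∈ T, ∀ p' ∈ T, p ≠ p' → 2 * D < dist p p' := by
    rw [Filter.eventually_all_finset]
    intro p _
    rw [Filter.eventually_all_finset]
    intro p' _
    by_cases hpp : p = p'
    · exact Filter.Eventually.of_forall fun D h => absurd hpp h
    · have hd : 0 < dist p p' := dist_pos.2 hpp
      have ht : Filter.Tendsto (fun D : ℝ => 2 * D) (𝓝[>] 0) (𝓝 (2 * 0)) :=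
        ((continuous_const.mul continuous_id).tendsto 0).mono_left nhdsWithin_le_nhds
      rw [mul_zero] at ht
      filter_upwards [ht.eventually (gt_mem_nhds hd)] with D hD _
      exact hD
  have h2 : ∀ᶠ D in 𝓝[>] (0 : ℝ), D ∈ Set.Ioc 0 B := by
    exact Ioc_mem_nhdsGT hB
  obtain ⟨D, hD1, hD2⟩ := (h1.and h2).exists
  exact ⟨D, hD2.1, hD2.2, hD1⟩

lemma sum_bound {ι V : Type*} [Fintype ι] [NormedAddCommGroup V] [NormedSpace ℝ V]
    (N : ℕ) (ε : ℝ) (hε : 0 < ε) (g : E2 → V) (c : ι → E2 → V)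
    (hg : ContDiff ℝ ∞ g) (hc : ∀ j, ContDiff ℝ ∞ (c j))
    (bg : ∀ k ≤ N, ∀ x, ‖iteratedFDeriv ℝ k g x‖ ≤ ε / 2)
    (bc : ∀ j, ∀ k ≤ N, ∀ x, ‖iteratedFDeriv ℝ k (c j) x‖ ≤ ε / (2 * (Fintype.card ι + 1))) :
    ∀ k ≤ N, ∀ x, ‖iteratedFDeriv ℝ k (fun x => g x + ∑ j, c j x) x‖ ≤ ε := by
  intro k hk x
  have hkinf : ((k : ℕ) : WithTop ℕ∞) ≤ ∞ := by exact_mod_cast le_top
  have hsum : ContDiff ℝ k (fun x => ∑ j, c j x) :=
    ContDiff.sum fun j _ => (hc j).of_le hkinf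
  have h1 : iteratedFDeriv ℝ k (fun x => g x + ∑ j, c j x) x =
      iteratedFDeriv ℝ k g x + iteratedFDeriv ℝ k (fun x => ∑ j, c j x) x :=
    iteratedFDeriv_add_apply (hg.of_le hkinf).contDiffAt hsum.contDiffAt
  have h2 : iteratedFDeriv ℝ k (fun x => ∑ j, c j x) = ∑ j, iteratedFDeriv ℝ k (c j) :=
    iteratedFDeriv_sum (fun j _ => (hc j).of_le hkinf)
  rw [h1, h2, Finset.sum_apply]
  refine (norm_add_le _ _).trans ?_
  have h3 : ‖∑ j, iteratedFDeriv ℝ k (c j) x‖ ≤ ∑ _j : ι, ε / (2 * (Fintype.card ι + 1)) :=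
    (norm_sum_le _ _).trans (Finset.sum_le_sum fun j _ => bc j k hk x)
  rw [Finset.sum_const, Finset.card_univ, nsmul_eq_mul] at h3
  have h4 : (Fintype.card ι : ℝ) * (ε / (2 * (Fintype.card ι + 1))) ≤ ε / 2 := by
    rw [mul_div_assoc', div_le_div_iff₀ (by positivity) (by positivity)]
    nlinarith
  linarith [bg k hk x]

/-- all derivatives up to order `N` of a smooth compactly supported map are bounded -/
lemma exists_bound {V : Type*} [NormedAddCommGroup V] [NormedSpace ℝ V] (g : E2 → V)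
    (hg : ContDiff ℝ ∞ g) (hs : HasCompactSupport g) (N : ℕ) :
    ∃ C : ℝ, 0 ≤ C ∧ ∀ k ≤ N, ∀ x, ‖iteratedFDeriv ℝ k g x‖ ≤ C := by
  have h1 : ∀ k : ℕ, ∃ C : ℝ, ∀ x, ‖iteratedFDeriv ℝ k g x‖ ≤ C := by
    intro k
    have hc : Continuous (iteratedFDeriv ℝ k g) :=
      hg.continuous_iteratedFDeriv (by exact_mod_cast le_top)
    exact hc.bounded_above_of_compact_support (hs.iteratedFDeriv k)
  choose C hC using h1
  refine ⟨∑ k ∈ Finset.range (N + 1), |C k|, Finset.sum_nonneg fun _ _ => abs_nonneg _, ?_⟩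
  intro k hk x
  refine (hC k x).trans ((le_abs_self _).trans ?_)
  exact Finset.single_le_sum (f := fun k => |C k|) (fun _ _ => abs_nonneg _)
    (Finset.mem_range.2 (by omega))

end Crest.Agent.R220.GadgetPrep
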