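import Crest.Agent.R220.TopDefs

/-!
# Row 220 (S0341): the length argument (Step 1 of the blueprint)

If the metric is Euclidean at `P0`, shrunk on a piece of the chord `P0 P3`, then the second
derivative of `F` cannot be small along the detour `P0 P1 P2 P3`.
-/

set_option autoImplicit false

open scoped ContDiff

namespace Crest.Agent.R220.GadgetRing

variable {E F : Type*} [NormedAddCommGroup E] [NormedSpace ℝ E] [NormedAddCommGroup F]
  [NormedSpace ℝ F]

/-- the detour: three sides of a rectangle -/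
def path (z a1 a2 : E) (R : ℝ) : Set E :=
  segment ℝ (z + (R / 2) • a1) (z + (R / 2) • a1 + (R / 2) • a2) ∪
  (segment ℝ (z + (R / 2) • a1 + (R / 2) • a2) (z - (R / 2) • a1 + (R / 2) • a2) ∪
   segment ℝ (z - (R / 2) • a1 + (R / 2) • a2) (z - (R / 2) • a1))

lemma isCompact_segment (x y : E) : IsCompact (segment ℝ x y) := by
  rw [segment_eq_image_lineMap]
  exact isCompact_Icc.image (AffineMap.lineMap_continuous)

lemma isCompact_path (z a1 a2 : E) (R : ℝ) : IsCompact (path z a1 a2 R) :=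
  (isCompact_segment _ _).union ((isCompact_segment _ _).union (isCompact_segment _ _))

lemma exists_large (f : E → F) (hf : ContDiff ℝ ∞ f) (z a1 a2 : E) (R κ c : ℝ) (hR : 0 < R)
    (hc : 0 ≤ c)
    (n1 : ‖a1‖ = 1) (n2 : ‖a2‖ = 1)
    (h1 : ∀ x ∈ segment ℝ (z + (R / 2) • a1) (z - (R / 2) • a1), ‖fderiv ℝ f x‖ ≤ 1)
    (h2 : ∀ x ∈ segment ℝ (z + (R / 8) • a1) (z - (R / 8) • a1), ‖fderiv ℝ f x‖ ≤ κ)
    (h3 : R ≤ ‖fderiv ℝ f (z + (R / 2) • a1) (R • a1)‖)
    (h4 : 4 * R ^ 2 * c < (1 - κ) * (R / 4)) :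
    ∃ x ∈ path z a1 a2 R, c < ‖fderiv ℝ (fderiv ℝ f) x‖ := by
  by_contra hcon
  push Not at hcon
  have hdf : Differentiable ℝ f := hf.differentiable (by simp)
  have hdf' : Differentiable ℝ (fderiv ℝ f) :=
    (hf.fderiv_right (m := ∞) (by simp)).differentiable (by simp)
  set P0 := z + (R / 2) • a1 with hP0
  set P1 := z + (R / 2) • a1 + (R / 2) • a2 with hP1
  set P2 := z - (R / 2) • a1 + (R / 2) • a2 with hP2
  set P3 := z - (R / 2) • a1 with hP3
  set Q0 := z + (R / 8) • a1 with hQ0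
  set Q1 := z - (R / 8) • a1 with hQ1
  have d01 : ‖P1 - P0‖ = R / 2 := by
    have : P1 - P0 = (R / 2) • a2 := by rw [hP1, hP0]; abel
    rw [this, norm_smul, n2, Real.norm_of_nonneg (by positivity)]; ring
  have d12 : ‖P2 - P1‖ = R := by
    have : P2 - P1 = -(R • a1) := by rw [hP1, hP2]; module
    rw [this, norm_neg, norm_smul, n1, Real.norm_of_nonneg hR.le]; ring
  have d23 : ‖P3 - P2‖ = R / 2 := by
    have : P3 - P2 = -((R / 2) • a2) := by rw [hP3, hP2]; module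
    rw [this, norm_neg, norm_smul, n2, Real.norm_of_nonneg (by positivity)]; ring
  have e0 : ‖Q0 - P0‖ = 3 * R / 8 := by
    have : Q0 - P0 = -((3 * R / 8) • a1) := by rw [hQ0, hP0]; module
    rw [this, norm_neg, norm_smul, n1, Real.norm_of_nonneg (by positivity)]; ring
  have e1 : ‖Q1 - Q0‖ = R / 4 := by
    have : Q1 - Q0 = -((R / 4) • a1) := by rw [hQ0, hQ1]; module
    rw [this, norm_neg, norm_smul, n1, Real.norm_of_nonneg (by positivity)]; ring
  have e2 : ‖P3 - Q1‖ = 3 * R / 8 := by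
    have : P3 - Q1 = -((3 * R / 8) • a1) := by rw [hP3, hQ1]; module
    rw [this, norm_neg, norm_smul, n1, Real.norm_of_nonneg (by positivity)]; ring
  -- derivative along the detour
  have hseg1 : ∀ x ∈ segment ℝ P0 P1, ‖fderiv ℝ f x - fderiv ℝ f P0‖ ≤ c * (R / 2) := by
    intro x hx
    have := (convex_segment P0 P1).norm_image_sub_le_of_norm_fderiv_le (𝕜 := ℝ)
      (f := fderiv ℝ f) (C := c) (fun y _ => hdf' y)
      (fun y hy => hcon y (Or.inl hy)) (left_mem_segment ℝ P0 P1) hx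
    refine this.trans ?_
    have hx' : ‖x - P0‖ ≤ ‖P1 - P0‖ := by
      obtain ⟨θ, hθ, rfl⟩ := (segment_eq_image' ℝ P0 P1) ▸ hx
      simp only [add_sub_cancel_left, norm_smul]
      rw [Real.norm_of_nonneg hθ.1]
      nlinarith [norm_nonneg (P1 - P0), hθ.2]
    rw [d01] at hx'
    exact mul_le_mul_of_nonneg_left hx' hc
  have hseg2 : ∀ x ∈ segment ℝ P1 P2, ‖fderiv ℝ f x - fderiv ℝ f P1‖ ≤ c * R := by
    intro x hx
    have := (convex_segment P1 P2).norm_image_sub_le_of_norm_fderiv_le (𝕜 := ℝ)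
      (f := fderiv ℝ f) (C := c) (fun y _ => hdf' y)
      (fun y hy => hcon y (Or.inr (Or.inl hy))) (left_mem_segment ℝ P1 P2) hx
    refine this.trans ?_
    have hx' : ‖x - P1‖ ≤ ‖P2 - P1‖ := by
      obtain ⟨θ, hθ, rfl⟩ := (segment_eq_image' ℝ P1 P2) ▸ hx
      simp only [add_sub_cancel_left, norm_smul]
      rw [Real.norm_of_nonneg hθ.1]
      nlinarith [norm_nonneg (P2 - P1), hθ.2]
    rw [d12] at hx'
    exact mul_le_mul_of_nonneg_left hx' hc
  have hseg3 : ∀ x ∈ segment ℝ P2 P3, ‖fderiv ℝ f x - fderiv ℝ f P2‖ ≤ c * (R / 2) := by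
    intro x hx
    have := (convex_segment P2 P3).norm_image_sub_le_of_norm_fderiv_le (𝕜 := ℝ)
      (f := fderiv ℝ f) (C := c) (fun y _ => hdf' y)
      (fun y hy => hcon y (Or.inr (Or.inr hy))) (left_mem_segment ℝ P2 P3) hx
    refine this.trans ?_
    have hx' : ‖x - P2‖ ≤ ‖P3 - P2‖ := by
      obtain ⟨θ, hθ, rfl⟩ := (segment_eq_image' ℝ P2 P3) ▸ hx
      simp only [add_sub_cancel_left, norm_smul]
      rw [Real.norm_of_nonneg hθ.1]
      nlinarith [norm_nonneg (P3 - P2), hθ.2]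
    rw [d23] at hx'
    exact mul_le_mul_of_nonneg_left hx' hc
  have k1 := hseg1 P1 (right_mem_segment ℝ P0 P1)
  have k2 := hseg2 P2 (right_mem_segment ℝ P1 P2)
  have hcR : 0 ≤ c * R := by positivity
  have b1 : ∀ x ∈ segment ℝ P0 P1, ‖fderiv ℝ f x - fderiv ℝ f P0‖ ≤ 2 * (c * R) := by
    intro x hx
    have := hseg1 x hx
    linarith
  have b2 : ∀ x ∈ segment ℝ P1 P2, ‖fderiv ℝ f x - fderiv ℝ f P0‖ ≤ 2 * (c * R) := by
    intro x hx
    have t := hseg2 x hx
    have : fderiv ℝ f x - fderiv ℝ f P0 = (fderiv ℝ f x - fderiv ℝ f P1) +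
      (fderiv ℝ f P1 - fderiv ℝ f P0) := by abel
    rw [this]
    refine (norm_add_le _ _).trans ?_
    linarith
  have b3 : ∀ x ∈ segment ℝ P2 P3, ‖fderiv ℝ f x - fderiv ℝ f P0‖ ≤ 2 * (c * R) := by
    intro x hx
    have t := hseg3 x hx
    have : fderiv ℝ f x - fderiv ℝ f P0 = (fderiv ℝ f x - fderiv ℝ f P2) +
      ((fderiv ℝ f P2 - fderiv ℝ f P1) + (fderiv ℝ f P1 - fderiv ℝ f P0)) := by abel
    rw [this]
    refine (norm_add_le _ _).trans ?_
    have := norm_add_le (fderiv ℝ f P2 - fderiv ℝ f P1) (fderiv ℝ f P1 - fderiv ℝ f P0)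
    linarith
  -- the function `G = f - L`
  set L := fderiv ℝ f P0 with hL
  have hG : ∀ x y : E, (∀ u ∈ segment ℝ x y, ‖fderiv ℝ f u - L‖ ≤ 2 * (c * R)) →
      ‖(f y - L y) - (f x - L x)‖ ≤ 2 * (c * R) * ‖y - x‖ := by
    intro x y hu
    have := (convex_segment x y).norm_image_sub_le_of_norm_hasFDerivWithin_le
      (f := fun u => f u - L u) (f' := fun u => fderiv ℝ f u - L) (C := 2 * (c * R))
      (fun u _ => ((hdf u).hasFDerivAt.sub L.hasFDerivAt).hasFDerivWithinAt) hu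
      (left_mem_segment ℝ x y) (right_mem_segment ℝ x y)
    exact this
  have g1 := hG P0 P1 b1
  have g2 := hG P1 P2 b2
  have g3 := hG P2 P3 b3
  rw [d01] at g1
  rw [d12] at g2
  rw [d23] at g3
  -- the chord
  have subseg : ∀ x y : E, x ∈ segment ℝ P0 P3 → y ∈ segment ℝ P0 P3 →
      ‖f y - f x‖ ≤ 1 * ‖y - x‖ := by
    intro x y hx hy
    exact (convex_segment P0 P3).norm_image_sub_le_of_norm_fderiv_le (𝕜 := ℝ)
      (f := f) (C := 1) (fun y _ => hdf y) h1 hx hy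
  have mQ0 : Q0 ∈ segment ℝ P0 P3 := by
    rw [segment_eq_image']
    refine ⟨3 / 8, by constructor <;> norm_num, ?_⟩
    simp only [hP3, hP0, hQ0]; module
  have mQ1 : Q1 ∈ segment ℝ P0 P3 := by
    rw [segment_eq_image']
    refine ⟨5 / 8, by constructor <;> norm_num, ?_⟩
    simp only [hP3, hP0, hQ1]; module
  have c1 := subseg P0 Q0 (left_mem_segment ℝ _ _) mQ0
  have c3 := subseg Q1 P3 mQ1 (right_mem_segment ℝ _ _)
  have c2 : ‖f Q1 - f Q0‖ ≤ κ * ‖Q1 - Q0‖ :=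
    (convex_segment Q0 Q1).norm_image_sub_le_of_norm_fderiv_le (𝕜 := ℝ)
      (f := f) (C := κ) (fun y _ => hdf y) h2 (left_mem_segment ℝ _ _) (right_mem_segment ℝ _ _)
  rw [e0] at c1
  rw [e1] at c2
  rw [e2] at c3
  have tot : ‖f P3 - f P0‖ ≤ 3 * R / 4 + κ * (R / 4) := by
    have : f P3 - f P0 = (f P3 - f Q1) + ((f Q1 - f Q0) + (f Q0 - f P0)) := by abel
    rw [this]
    refine (norm_add_le _ _).trans ?_
    have := norm_add_le (f Q1 - f Q0) (f Q0 - f P0)
    linarith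
  have totG : ‖(f P3 - L P3) - (f P0 - L P0)‖ ≤ 4 * R ^ 2 * c := by
    have : (f P3 - L P3) - (f P0 - L P0) = ((f P3 - L P3) - (f P2 - L P2)) +
      (((f P2 - L P2) - (f P1 - L P1)) + ((f P1 - L P1) - (f P0 - L P0))) := by abel
    rw [this]
    refine (norm_add_le _ _).trans ?_
    have := norm_add_le ((f P2 - L P2) - (f P1 - L P1)) ((f P1 - L P1) - (f P0 - L P0))
    nlinarith
  have hLP : ‖L (P0 - P3)‖ = ‖L (R • a1)‖ := by
    congr 2
    rw [hP0, hP3]; module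
  have fin : ‖L (P0 - P3)‖ ≤ ‖f P3 - f P0‖ + ‖(f P3 - L P3) - (f P0 - L P0)‖ := by
    have : L (P0 - P3) = ((f P3 - L P3) - (f P0 - L P0)) - (f P3 - f P0) := by
      rw [map_sub]; abel
    rw [this]
    refine (norm_sub_le _ _).trans ?_
    linarith
  rw [hLP] at fin
  nlinarith

end Crest.Agent.R220.GadgetRing
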