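import Crest.Agent.R220.VirialUpAux

/-!
# Row 220: `layer2`, interior layer estimate away from the source
(multiplier `C2 = g(ξ y) χ` vanishing on the source)
-/

set_option autoImplicit false

open scoped ContDiff Topology
open MeasureTheory Set

namespace Crest.Agent.R220.Layer2

open VirialUp

/-! ### One-dimensional profile -/

noncomputable def b1 : ContDiffBump (5/2 : ℝ) := ⟨3/2, 39/16, by norm_num, by norm_num⟩
noncomputable def ph (t : ℝ) : ℝ := b1 (t ^ 2)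
noncomputable def gg (t : ℝ) : ℝ := ∫ s in (0:ℝ)..t, ph s

lemma ph_smooth : ContDiff ℝ ∞ ph := b1.contDiff.comp (contDiff_id.pow 2)

lemma ph_nonneg (t : ℝ) : 0 ≤ ph t := b1.nonneg

lemma ph_le_one (t : ℝ) : ph t ≤ 1 := b1.le_one

lemma ph_one {t : ℝ} (h1 : 1 ≤ |t|) (h2 : |t| ≤ 2) : ph t = 1 := by
  apply b1.one_of_mem_closedBall
  rw [Metric.mem_closedBall, Real.dist_eq, abs_le]
  show -(3/2) ≤ t^2 - 5/2 ∧ t^2 - 5/2 ≤ 3/2
  rw [← sq_abs t]
  constructor <;> nlinarith [abs_nonneg t]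

lemma ph_zero_small {t : ℝ} (h : |t| ≤ 1/4) : ph t = 0 := by
  apply b1.zero_of_le_dist
  rw [Real.dist_eq]
  show 39/16 ≤ |t^2 - 5/2|
  rw [abs_sub_comm]
  refine le_trans ?_ (le_abs_self _)
  rw [← sq_abs t]
  nlinarith [abs_nonneg t]

lemma ph_zero_large {t : ℝ} (h : 3 ≤ |t|) : ph t = 0 := by
  apply b1.zero_of_le_dist
  rw [Real.dist_eq]
  show 39/16 ≤ |t^2 - 5/2|
  refine le_trans ?_ (le_abs_self _)
  rw [← sq_abs t]
  nlinarith [abs_nonneg t]

lemma gg_hasDerivAt (t : ℝ) : HasDerivAt gg (ph t) t :=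
  intervalIntegral.integral_hasDerivAt_right (ph_smooth.continuous.intervalIntegrable _ _)
    (ph_smooth.continuous.stronglyMeasurableAtFilter _ _) ph_smooth.continuous.continuousAt

lemma gg_deriv : deriv gg = ph := funext fun t => (gg_hasDerivAt t).deriv

lemma gg_smooth : ContDiff ℝ ∞ gg := by
  rw [contDiff_infty_iff_deriv]
  refine ⟨fun t => (gg_hasDerivAt t).differentiableAt, ?_⟩
  rw [gg_deriv]
  exact ph_smooth

lemma gg_zero {t : ℝ} (h : |t| ≤ 1/4) : gg t = 0 := by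
  unfold gg
  have : ∫ s in (0:ℝ)..t, ph s = ∫ s in (0:ℝ)..t, (0:ℝ) := by
    apply intervalIntegral.integral_congr
    intro s hs
    apply ph_zero_small
    have h1 := abs_sub_left_of_mem_uIcc hs
    rw [sub_zero, sub_zero] at h1
    exact h1.trans h
  rw [this]; simp

lemma gg_abs_le_aux {t : ℝ} (h : |t| ≤ 3) : |gg t| ≤ 3 := by
  unfold gg
  have := intervalIntegral.norm_integral_le_of_norm_le_const (a := 0) (b := t) (f := ph) (C := 1)
    (fun x _ => by rw [Real.norm_eq_abs, abs_of_nonneg (ph_nonneg x)]; exact ph_le_one x)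
  rw [Real.norm_eq_abs, sub_zero, one_mul] at this
  exact this.trans h

lemma gg_abs_le (t : ℝ) : |gg t| ≤ 3 := by
  rcases le_or_gt |t| 3 with h | h
  · exact gg_abs_le_aux h
  · have key : ∀ a : ℝ, |a| = 3 → (∀ s ∈ uIcc a t, 3 ≤ |s|) → gg t = gg a := by
      intro a _ hs
      have e : gg t - gg a = ∫ s in a..t, ph s := by
        unfold gg
        rw [intervalIntegral.integral_interval_sub_left
          (ph_smooth.continuous.intervalIntegrable _ _)
          (ph_smooth.continuous.intervalIntegrable _ _)]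
      have e2 : ∫ s in a..t, ph s = ∫ s in a..t, (0:ℝ) := by
        apply intervalIntegral.integral_congr
        intro s hs'
        exact ph_zero_large (hs s hs')
      rw [e2] at e
      simp at e
      linarith
    rcases le_or_gt 0 t with h0 | h0
    · rw [abs_of_nonneg h0] at h
      rw [key 3 (by norm_num) ?_]
      · exact gg_abs_le_aux (by norm_num)
      · intro s hs
        rw [uIcc_of_le h.le] at hs
        exact hs.1.trans (le_abs_self _)
    · rw [abs_of_neg h0] at h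
      rw [key (-3) (by norm_num) ?_]
      · exact gg_abs_le_aux (by norm_num)
      · intro s hs
        rw [uIcc_of_ge (by linarith)] at hs
        refine le_trans ?_ (neg_le_abs _)
        linarith [hs.2]

/-! ### Cutoff -/

noncomputable def ch (z : Pl) : ℝ := psi z.1 * psi z.2

lemma psi_smooth : ContDiff ℝ ∞ psi := psiBump.contDiff

lemma psi_zero {t : ℝ} (h : 1/4 ≤ |t|) : psi t = 0 := by
  unfold psi
  apply psiBump.zero_of_le_dist
  rw [Real.dist_eq, sub_zero]; exact h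

lemma psi_one {t : ℝ} (h : |t| ≤ 1/8) : psi t = 1 := by
  unfold psi
  apply psiBump.one_of_mem_closedBall
  rw [Metric.mem_closedBall, Real.dist_eq, sub_zero]; exact h

lemma psi_nonneg (t : ℝ) : 0 ≤ psi t := psiBump.nonneg

lemma psi_le_one (t : ℝ) : psi t ≤ 1 := psiBump.le_one

lemma ch_smooth : Sm ch :=
  (Sm.comp' psi_smooth Sm.fst).mul' (Sm.comp' psi_smooth Sm.snd)

lemma ch_one {z : Pl} (h1 : |z.1| ≤ 1/8) (h2 : |z.2| ≤ 1/8) : ch z = 1 := by
  unfold ch; rw [psi_one h1, psi_one h2, one_mul]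

lemma ch_zero {z : Pl} (h : z ∉ sq (1/4)) : ch z = 0 := by
  have : 1/4 < |z.1| ∨ 1/4 < |z.2| := by
    by_contra hn
    push Not at hn
    exact h hn
  unfold ch
  rcases this with h | h
  · rw [psi_zero h.le, zero_mul]
  · rw [psi_zero h.le, mul_zero]

lemma ch_nonneg (z : Pl) : 0 ≤ ch z := mul_nonneg (psi_nonneg _) (psi_nonneg _)

lemma ch_le_one (z : Pl) : ch z ≤ 1 := mul_le_one₀ (psi_le_one _) (psi_nonneg _) (psi_le_one _)

lemma ch_compact : HasCompactSupport ch :=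
  HasCompactSupport.intro (ClassPigeon.isCompact_sq (1/4)) fun _ hz => ch_zero hz

/-- the multiplier -/
noncomputable def mul2 (ξ : ℝ) (z : Pl) : ℝ := gg (ξ * z.2) * ch z

lemma smG (ξ : ℝ) : Sm (fun z : Pl => gg (ξ * z.2)) :=
  Sm.comp' gg_smooth ((Sm.const ξ).mul' Sm.snd)

lemma mul2_smooth (ξ : ℝ) : Sm (mul2 ξ) := (smG ξ).mul' ch_smooth

lemma mul2_compact (ξ : ℝ) : HasCompactSupport (mul2 ξ) := ch_compact.mul_left

lemma mul2_zero {ξ : ℝ} {z : Pl} (h : z ∉ sq (1/4)) : mul2 ξ z = 0 := by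
  unfold mul2; rw [ch_zero h, mul_zero]

lemma mul2_abs_le (ξ : ℝ) (z : Pl) : |mul2 ξ z| ≤ 3 := by
  unfold mul2
  rw [abs_mul, abs_of_nonneg (ch_nonneg z)]
  calc |gg (ξ * z.2)| * ch z ≤ 3 * 1 :=
        mul_le_mul (gg_abs_le _) (ch_le_one z) (ch_nonneg z) (by norm_num)
    _ = 3 := by norm_num

lemma dx_mul2 (ξ : ℝ) (z : Pl) : dx (mul2 ξ) z = gg (ξ * z.2) * dx ch z := by
  have e : dx (fun z : Pl => gg (ξ * z.2)) z = 0 := by
    have h1 : DifferentiableAt ℝ gg (ξ * z.2) := (gg_hasDerivAt _).differentiableAt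
    have h2 : Sm (fun z : Pl => ξ * z.2) := (Sm.const ξ).mul' Sm.snd
    rw [dx_comp_at (f := fun z : Pl => ξ * z.2) h1 h2.differentiableAt,
      dx_const_mul_at ξ Sm.snd.differentiableAt, dx_snd]
    simp
  unfold mul2
  rw [dx_mul_at (smG ξ).differentiableAt ch_smooth.differentiableAt, e]
  ring

lemma dy_mul2 (ξ : ℝ) (z : Pl) :
    dy (mul2 ξ) z = gg (ξ * z.2) * dy ch z + ξ * ph (ξ * z.2) * ch z := by
  have e : dy (fun z : Pl => gg (ξ * z.2)) z = ξ * ph (ξ * z.2) := by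
    have h1 : DifferentiableAt ℝ gg (ξ * z.2) := (gg_hasDerivAt _).differentiableAt
    have h2 : Sm (fun z : Pl => ξ * z.2) := (Sm.const ξ).mul' Sm.snd
    rw [dy_comp_at (f := fun z : Pl => ξ * z.2) h1 h2.differentiableAt,
      dy_const_mul_at ξ Sm.snd.differentiableAt, dy_snd, gg_deriv]
    ring
  unfold mul2
  rw [dy_mul_at (smG ξ).differentiableAt ch_smooth.differentiableAt, e]
  ring

/-! ### Algebra -/

lemma alg {px py Yx Yy k m g cx cy K δ a b C t : ℝ}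
    (h1 : |px - 1| ≤ 1/100) (h2 : |py| ≤ 1/100) (h3 : |Yx| ≤ 1/100) (h4 : |Yy - 1| ≤ 1/100)
    (hm : 0 ≤ m) (hg : |g| ≤ 3) (hcx : |cx| ≤ K) (hcy : |cy| ≤ K) (hK : 1 ≤ K)
    (hδ : 0 < δ) (hδ1 : δ ≤ 1) (hk1 : δ / 10 ≤ -k) (hk2 : -k ≤ δ)
    (hC : |C| ≤ 3) (ht : |t| ≤ 2 * δ) :
    (1/25) * m * (a ^ 2 + δ * b ^ 2) - 12 * K * (a ^ 2 + δ * b ^ 2) ≤
      (1/2) * (px * (g * cy + m) - py * (g * cx)) * a ^ 2
      - ((1/2) * (C * t) + (1/2) * k * (px * (g * cy + m) - py * (g * cx))) * b ^ 2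
      + k * ((g * cx) * Yy - (g * cy + m) * Yx) * a * b := by
  have hK0 : 0 ≤ K := by linarith
  obtain ⟨l, hl⟩ : ∃ l, l = -k := ⟨_, rfl⟩
  have hk : k = -l := by linarith
  subst hk
  simp only [neg_neg] at hk1 hk2
  have hl0 : 0 ≤ l := by linarith
  have hl1 : l ≤ 1 := by linarith
  have gx : |g * cx| ≤ 3 * K := by
    rw [abs_mul]; exact mul_le_mul hg hcx (abs_nonneg _) (by norm_num)
  have gy : |g * cy| ≤ 3 * K := by
    rw [abs_mul]; exact mul_le_mul hg hcy (abs_nonneg _) (by norm_num)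
  have hpx : |px| ≤ 101/100 := by
    rw [abs_le] at h1 ⊢; constructor <;> linarith [h1.1, h1.2]
  have hYy : |Yy| ≤ 101/100 := by
    rw [abs_le] at h4 ⊢; constructor <;> linarith [h4.1, h4.2]
  obtain ⟨e1, he1⟩ : ∃ e, e = px * (g * cy) - py * (g * cx) := ⟨_, rfl⟩
  obtain ⟨e2, he2⟩ : ∃ e, e = (g * cx) * Yy - (g * cy) * Yx := ⟨_, rfl⟩
  have b1 : |e1| ≤ 4 * K := by
    rw [he1]
    refine (abs_sub _ _).trans ?_
    rw [abs_mul, abs_mul py]
    have f1 : |px| * |g * cy| ≤ 101/100 * (3 * K) := mul_le_mul hpx gy (abs_nonneg _) (by norm_num)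
    have f2 : |py| * |g * cx| ≤ 1/100 * (3 * K) := mul_le_mul h2 gx (abs_nonneg _) (by norm_num)
    linarith
  have b2 : |e2| ≤ 4 * K := by
    rw [he2]
    refine (abs_sub _ _).trans ?_
    rw [abs_mul, abs_mul _ Yx]
    have f1 : |g * cx| * |Yy| ≤ (3 * K) * (101/100) := mul_le_mul gx hYy (abs_nonneg _) (by positivity)
    have f2 : |g * cy| * |Yx| ≤ (3 * K) * (1/100) := mul_le_mul gy h3 (abs_nonneg _) (by positivity)
    linarith
  have sa : 0 ≤ a ^ 2 := sq_nonneg a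
  have sb : 0 ≤ b ^ 2 := sq_nonneg b
  have hab : |a * b| ≤ (a ^ 2 + b ^ 2) / 2 := by
    rw [abs_le]; constructor <;> nlinarith [sq_nonneg (a + b), sq_nonneg (a - b)]
  -- main term
  have main : (1/25) * (a ^ 2 + δ * b ^ 2) ≤
      (1/2) * px * a ^ 2 + (1/2) * l * px * b ^ 2 + l * Yx * (a * b) := by
    have c1 : |l * Yx * (a * b)| ≤ l * (1/100) * ((a ^ 2 + b ^ 2) / 2) := by
      rw [abs_mul, abs_mul, abs_of_nonneg hl0]
      gcongr
    have c2 : (99/100 : ℝ) ≤ px := by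
      rw [abs_le] at h1; linarith [h1.1]
    have c3 : l * a ^ 2 ≤ 1 * a ^ 2 := mul_le_mul_of_nonneg_right hl1 sa
    have c4 : (δ / 10) * b ^ 2 ≤ l * b ^ 2 := mul_le_mul_of_nonneg_right hk1 sb
    have c5 : (99/100) * a ^ 2 ≤ px * a ^ 2 := mul_le_mul_of_nonneg_right c2 sa
    have c6 : (99/100) * (l * b ^ 2) ≤ px * (l * b ^ 2) :=
      mul_le_mul_of_nonneg_right c2 (by positivity)
    have c7 := (abs_le.1 c1).1
    have c8 : 0 ≤ δ * b ^ 2 := by positivity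
    linarith
  have main2 := mul_le_mul_of_nonneg_left main hm
  -- error terms
  have d1 : -(4 * K) * a ^ 2 ≤ e1 * a ^ 2 :=
    mul_le_mul_of_nonneg_right (by linarith [(abs_le.1 b1).1]) sa
  have d2 : |C * t| ≤ 3 * (2 * δ) := by
    rw [abs_mul]; exact mul_le_mul hC ht (abs_nonneg _) (by norm_num)
  have d3 : (C * t) * b ^ 2 ≤ (6 * δ) * b ^ 2 :=
    mul_le_mul_of_nonneg_right (by linarith [(abs_le.1 d2).2]) sb
  have d4 : |l * e1| ≤ δ * (4 * K) := by
    rw [abs_mul, abs_of_nonneg hl0]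
    exact mul_le_mul hk2 b1 (abs_nonneg _) hδ.le
  have d5 : -(δ * (4 * K)) * b ^ 2 ≤ (l * e1) * b ^ 2 :=
    mul_le_mul_of_nonneg_right (by linarith [(abs_le.1 d4).1]) sb
  have d6 : |l * e2 * (a * b)| ≤ δ * (4 * K) * ((a ^ 2 + b ^ 2) / 2) := by
    rw [abs_mul, abs_mul, abs_of_nonneg hl0]
    exact mul_le_mul (mul_le_mul hk2 b2 (abs_nonneg _) hδ.le) hab (abs_nonneg _) (by positivity)
  have d7 := (abs_le.1 d6).2
  have d8 : δ * (K * a ^ 2) ≤ 1 * (K * a ^ 2) :=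
    mul_le_mul_of_nonneg_right hδ1 (by positivity)
  have d9 : δ * b ^ 2 ≤ K * (δ * b ^ 2) := by
    have : 0 ≤ δ * b ^ 2 := by positivity
    nlinarith
  have d10 : 0 ≤ K * a ^ 2 := by positivity
  have d11 : 0 ≤ K * (δ * b ^ 2) := by positivity
  have expand : (1/2) * (px * (g * cy + m) - py * (g * cx)) * a ^ 2
      - ((1/2) * (C * t) + (1/2) * (-l) * (px * (g * cy + m) - py * (g * cx))) * b ^ 2
      + (-l) * ((g * cx) * Yy - (g * cy + m) * Yx) * a * b =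
      m * ((1/2) * px * a ^ 2 + (1/2) * l * px * b ^ 2 + l * Yx * (a * b))
      + (1/2) * (e1 * a ^ 2) - (1/2) * ((C * t) * b ^ 2) + (1/2) * ((l * e1) * b ^ 2)
      - l * e2 * (a * b) := by
    rw [he1, he2]; ring
  rw [expand]
  linarith

/-! ### The reduced quadratic form -/

noncomputable def Q2 (p Y κ d : Pl → ℝ) (C2 : Pl → ℝ) (z : Pl) : ℝ :=
  (1/2) * br p C2 z * Top p Y d z ^ 2
    - ((1/2) * (C2 z * br p κ z) + (1/2) * κ z * br p C2 z) * Pop p Y d z ^ 2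
    + κ z * br C2 Y z * Top p Y d z * Pop p Y d z

lemma Q2_eq {p Y κ d C2 : Pl → ℝ} {z : Pl} (hJ : br p Y z ≠ 0) :
    (((Pop p Y (fun _ => 0) z - Top p Y C2 z) / 2 + 0) * Top p Y d z ^ 2
      + ((0 * Pop p Y κ z + C2 z * Top p Y κ z) / 2
          + κ z * (0 - (Pop p Y (fun _ => 0) z - Top p Y C2 z) / 2)) * Pop p Y d z ^ 2
      - (Top p Y (fun _ => 0) z + κ z * Pop p Y C2 z) * Pop p Y d z * Top p Y d z
      - (1 / 2) * Lop p Y κ (fun _ => 0) z * d z ^ 2) * br p Y z = - Q2 p Y κ d C2 z := by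
  rw [Lop_zero, Pop_const, Top_const]
  have e1 := Top_mul_J (z := z) p Y C2 hJ
  have e2 := Top_mul_J (z := z) p Y κ hJ
  have e3 := Pop_mul_J (z := z) p Y C2 hJ
  unfold Q2
  rw [← e1, ← e2, ← e3]
  ring

lemma Q2_smooth {p Y κ d C2 : Pl → ℝ} (hp : Sm p) (hY : Sm Y) (hκ : Sm κ) (hd : Sm d)
    (hC : Sm C2) (hJ : ∀ z, br p Y z ≠ 0) : Sm (Q2 p Y κ d C2) := by
  have sP := Sm.Pop hp hY hd hJ
  have sT := Sm.Top hp hY hd hJ
  have s1 := hp.br hC
  have s2 := hp.br hκ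
  have s3 := hC.br hY
  unfold Q2
  sm_tac

/-- points in the half box: the curvature is negative -/
lemma kap_bounds {η δ' : ℝ} {κ : Pl → ℝ} (hη : η ≤ 1 / 100) (hδ : 0 < δ')
    (h : KapClose η δ' κ) {z : Pl} (hz : z ∈ sq (1/4)) :
    δ' / 10 ≤ - κ z ∧ - κ z ≤ δ' ∧ |dx κ z| ≤ (51/100) * δ' ∧ |dy κ z| ≤ (51/100) * δ' := by
  have hx : |z.1| ≤ 1/4 := hz.1
  have hy : |z.2| ≤ 1/4 := hz.2
  obtain ⟨h1, h2, h3⟩ := h z ⟨hx.trans (by norm_num), hy.trans (by norm_num)⟩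
  have hηδ : η * δ' ≤ 1 / 100 * δ' := mul_le_mul_of_nonneg_right hη hδ.le
  have hx2 : z.1 ^ 2 ≤ 1/16 := by
    rw [← sq_abs]; nlinarith [abs_nonneg z.1]
  have hy2 : z.2 ^ 2 ≤ 1/16 := by
    rw [← sq_abs]; nlinarith [abs_nonneg z.2]
  have h1' := abs_le.1 (h1.trans hηδ)
  have h2' := abs_le.1 (h2.trans hηδ)
  have h3' := abs_le.1 (h3.trans hηδ)
  unfold kap0 at h1'
  have a1 := mul_le_mul_of_nonneg_left hx2 hδ.le
  have a2 := mul_le_mul_of_nonneg_left hy2 hδ.le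
  have a3 : 0 ≤ δ' * z.1 ^ 2 := by positivity
  have a4 : 0 ≤ δ' * z.2 ^ 2 := by positivity
  have hx' := abs_le.1 hx
  have hy' := abs_le.1 hy
  have a5 := mul_le_mul_of_nonneg_left hx'.1 hδ.le
  have a6 := mul_le_mul_of_nonneg_left hx'.2 hδ.le
  have a7 := mul_le_mul_of_nonneg_left hy'.1 hδ.le
  have a8 := mul_le_mul_of_nonneg_left hy'.2 hδ.le
  refine ⟨?_, ?_, ?_, ?_⟩
  · nlinarith [h1'.1, h1'.2]
  · nlinarith [h1'.1, h1'.2]
  · rw [abs_le]; constructor <;> nlinarith [h2'.1, h2'.2]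
  · rw [abs_le]; constructor <;> nlinarith [h3'.1, h3'.2]

lemma mul2_eventually {ξ : ℝ} {z : Pl} (h : z ∉ sq (1/4)) : mul2 ξ =ᶠ[𝓝 z] fun _ => 0 := by
  filter_upwards [(ClassPigeon.isCompact_sq (1/4)).isClosed.isOpen_compl.mem_nhds h] with w hw
  exact mul2_zero hw

lemma Q2_zero {p Y κ d : Pl → ℝ} {ξ : ℝ} {z : Pl} (h : z ∉ sq (1/4)) :
    Q2 p Y κ d (mul2 ξ) z = 0 := by
  have e := mul2_eventually (ξ := ξ) h
  have e1 : dx (mul2 ξ) z = 0 := by rw [dx_congr e, dx_const]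
  have e2 : dy (mul2 ξ) z = 0 := by rw [dy_congr e, dy_const]
  have e3 : mul2 ξ z = 0 := mul2_zero h
  unfold Q2
  rw [show br p (mul2 ξ) z = dx p z * dy (mul2 ξ) z - dy p z * dx (mul2 ξ) z from rfl,
    show br (mul2 ξ) Y z = dx (mul2 ξ) z * dy Y z - dy (mul2 ξ) z * dx Y z from rfl, e1, e2, e3]
  ring

lemma Q2_ge {η δ' ξ K : ℝ} {p Y κ d : Pl → ℝ} (hη : η ≤ 1 / 100) (hδ : 0 < δ') (hδ1 : δ' ≤ 1)
    (hξ : 0 ≤ ξ) (h : GoodFrame η δ' p Y κ) (hK : 1 ≤ K) (hc : Bd 1 2 K ch) (z : Pl) :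
    (1/25) * (ξ * ph (ξ * z.2) * ch z) * en δ' p Y d z - 12 * K * en δ' p Y d z ≤
      Q2 p Y κ d (mul2 ξ) z := by
  by_cases hz : z ∈ sq (1/4)
  · obtain ⟨k1, k2, k3, k4⟩ := kap_bounds hη hδ h.ck hz
    obtain ⟨c1, c2⟩ := Bd.first (by norm_num) hc z
    obtain ⟨f1, f2⟩ := h.cp z
    obtain ⟨f3, f4⟩ := h.cY z
    have ht : |br p κ z| ≤ 2 * δ' := by
      show |dx p z * dy κ z - dy p z * dx κ z| ≤ 2 * δ'
      refine (abs_sub _ _).trans ?_
      rw [abs_mul, abs_mul]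
      have g1 : |dx p z| ≤ 2 := (frame_pt hη h z).1
      have g2 : |dy p z| ≤ 1 := (frame_pt hη h z).2.1
      have g3 : |dx p z| * |dy κ z| ≤ 2 * ((51/100) * δ') :=
        mul_le_mul g1 k4 (abs_nonneg _) (by norm_num)
      have g4 : |dy p z| * |dx κ z| ≤ 1 * ((51/100) * δ') :=
        mul_le_mul g2 k3 (abs_nonneg _) (by norm_num)
      linarith
    have hm : 0 ≤ ξ * ph (ξ * z.2) * ch z :=
      mul_nonneg (mul_nonneg hξ (ph_nonneg _)) (ch_nonneg z)
    have := alg (a := Top p Y d z) (b := Pop p Y d z) (f1.trans hη) (f2.trans hη) (f3.trans hη)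
      (f4.trans hη) hm (gg_abs_le (ξ * z.2)) c1 c2 hK hδ hδ1 k1 k2 (mul2_abs_le ξ z) ht
    unfold Q2 en
    rw [show br p (mul2 ξ) z = dx p z * dy (mul2 ξ) z - dy p z * dx (mul2 ξ) z from rfl,
      show br (mul2 ξ) Y z = dx (mul2 ξ) z * dy Y z - dy (mul2 ξ) z * dx Y z from rfl,
      dx_mul2, dy_mul2]
    exact this
  · rw [Q2_zero hz, ch_zero hz]
    have h1 : 0 ≤ en δ' p Y d z := by unfold en; positivity
    have h2 : 0 ≤ 12 * K * en δ' p Y d z := by positivity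
    linarith

/-- the source does not see the multiplier -/
lemma lhs_zero {η ξ C1 : ℝ} {J : ℕ} {σ : ℕ → ℝ} {p Y κ d H G : Pl → ℝ}
    (hs : Src C1 η ξ J σ p Y κ d H G) (z : Pl) :
    (0 * Pop p Y d z + mul2 ξ z * Top p Y d z - 0 * d z) * Lop p Y κ d z * br p Y z = 0 := by
  by_cases h0 : mul2 ξ z = 0
  · rw [h0]; ring
  have hz : z ∈ sq (1/4) := by
    by_contra hn
    exact h0 (mul2_zero hn)
  have hx : |z.1| < 9/10 := lt_of_le_of_lt hz.1 (by norm_num)
  have hy : |z.2| < 9/10 := lt_of_le_of_lt hz.2 (by norm_num)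
  have hN : z ∉ NS ξ J σ := by
    rintro ⟨j, -, -, -, hb⟩
    apply h0
    unfold mul2
    rw [gg_zero hb, zero_mul]
  have hev := (isClosed_NS ξ J σ).isOpen_compl.mem_nhds hN
  have eH : H =ᶠ[𝓝 z] fun _ => 0 := by
    filter_upwards [hev] with w hw
    exact hs.suppH w hw
  have eG : G =ᶠ[𝓝 z] fun _ => 0 := by
    filter_upwards [hev] with w hw
    exact hs.suppG w hw
  rw [hs.pde z hx hy, Pop_congr eH, Top_congr eG, Pop_const, Top_const]
  ring

end Crest.Agent.R220.Layer2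

namespace Crest.Agent.R220

open VirialUp Layer2

/-- **layer2**: multiplier supported where the source vanishes. -/
theorem layer2 : ∃ η C : ℝ, 0 < η ∧ 0 < C ∧ ∀ (C1 δ' ξ hh : ℝ) (J : ℕ) (σ : ℕ → ℝ)
    (p Y κ d H G : Pl → ℝ), 1 ≤ C1 → 0 < δ' → δ' ≤ 1 → 16 ≤ ξ → 0 < hh → hh + 1 / ξ ≤ 1 / 16 →
    (J : ℝ) ≤ hh * ξ → (∀ j, σ j = 0 ∨ σ j = 1 ∨ σ j = -1) →
    GoodFrame η δ' p Y κ → Src C1 η ξ J σ p Y κ d H G →
    ξ * ∫ z in layO ξ, en δ' p Y d z ≤ C * ∫ z in sq (7/10), en δ' p Y d z := by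
  obtain ⟨K, hK, hc⟩ := exists_Bd ch_smooth ch_compact 2
  refine ⟨1/100, 300 * K, by norm_num, by positivity, ?_⟩
  intro C1 δ' ξ hh J σ p Y κ d H G hC1 hδ hδ1 hξ hh0 hhξ hJ hσ hF hS
  have hξ0 : 0 < ξ := by linarith
  have hJ0 : ∀ z, br p Y z ≠ 0 := fun z => by
    have := (frame_pt le_rfl hF z).2.2.2.2.1
    positivity
  have hm := mul2_smooth ξ
  have hQs := Q2_smooth hF.smp hF.smY hF.smk hS.smd hm hJ0
  have hsT := Sm.Top hF.smp hF.smY hS.smd hJ0
  have hsP := Sm.Pop hF.smp hF.smY hS.smd hJ0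
  have hE : Continuous (en δ' p Y d) := by
    have : Sm (en δ' p Y d) := by
      unfold en
      exact (hsT.pow' 2).add' ((Sm.const δ').mul' (hsP.pow' 2))
    exact this.continuous'
  -- the identity
  have hQ0 : ∫ z, Q2 p Y κ d (mul2 ξ) z = 0 := by
    have hid := GMI' p Y κ d (fun _ => 0) (mul2 ξ) (fun _ => 0) hF.smp hF.smY hF.smk hS.smd
      (Sm.const 0) hm (Sm.const 0) hJ0 HasCompactSupport.zero (mul2_compact ξ)
      HasCompactSupport.zero
    have e1 : ∀ z, (0 * Pop p Y d z + mul2 ξ z * Top p Y d z - 0 * d z) * Lop p Y κ d z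
        * br p Y z = 0 := fun z => lhs_zero hS z
    simp_rw [e1] at hid
    rw [integral_zero] at hid
    have e2 : ∀ z, (((Pop p Y (fun _ => 0) z - Top p Y (mul2 ξ) z) / 2 + 0) * Top p Y d z ^ 2
      + ((0 * Pop p Y κ z + (mul2 ξ) z * Top p Y κ z) / 2
          + κ z * (0 - (Pop p Y (fun _ => 0) z - Top p Y (mul2 ξ) z) / 2)) * Pop p Y d z ^ 2
      - (Top p Y (fun _ => 0) z + κ z * Pop p Y (mul2 ξ) z) * Pop p Y d z * Top p Y d z
      - (1 / 2) * Lop p Y κ (fun _ => 0) z * d z ^ 2) * br p Y z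
        = - Q2 p Y κ d (mul2 ξ) z := fun z => Q2_eq (hJ0 z)
    simp_rw [e2] at hid
    rw [integral_neg] at hid
    linarith
  have hQS : ∫ z in sq (7/10), Q2 p Y κ d (mul2 ξ) z = 0 := by
    rw [setIntegral_eq_integral_of_forall_compl_eq_zero, hQ0]
    intro z hz
    apply Q2_zero
    intro h'
    exact hz ⟨h'.1.trans (by norm_num), h'.2.trans (by norm_num)⟩
  have hcS : IsCompact (sq (7/10)) := ClassPigeon.isCompact_sq (7/10)
  have hW : Continuous (fun z : Pl => ξ * ph (ξ * z.2) * ch z) := by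
    have : Sm (fun z : Pl => ξ * ph (ξ * z.2) * ch z) :=
      ((Sm.const ξ).mul' (Sm.comp' ph_smooth ((Sm.const ξ).mul' Sm.snd))).mul' ch_smooth
    exact this.continuous'
  have iE : IntegrableOn (en δ' p Y d) (sq (7/10)) := hE.continuousOn.integrableOn_compact hcS
  have iWE : IntegrableOn (fun z : Pl => (ξ * ph (ξ * z.2) * ch z) * en δ' p Y d z) (sq (7/10)) :=
    (hW.mul hE).continuousOn.integrableOn_compact hcS
  have iQ : IntegrableOn (Q2 p Y κ d (mul2 ξ)) (sq (7/10)) :=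
    hQs.continuous'.continuousOn.integrableOn_compact hcS
  have hmono : ∫ z in sq (7/10), ((1/25) * ((ξ * ph (ξ * z.2) * ch z) * en δ' p Y d z)
      - 12 * K * en δ' p Y d z) ≤ ∫ z in sq (7/10), Q2 p Y κ d (mul2 ξ) z := by
    apply integral_mono ((iWE.const_mul (1/25)).sub (iE.const_mul (12 * K))) iQ
    intro z
    have := Q2_ge (d := d) le_rfl hδ hδ1 hξ0.le hF hK hc z
    simp only [Pi.sub_apply]
    linarith
  rw [hQS, integral_sub (iWE.const_mul (1/25)) (iE.const_mul (12 * K)), integral_const_mul,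
    integral_const_mul] at hmono
  -- the layer
  have hen : ∀ z, 0 ≤ en δ' p Y d z := fun z => by unfold en; positivity
  have h2ξ : 2 / ξ ≤ 1/8 := by
    rw [div_le_iff₀ hξ0]; linarith
  have hsub : layO ξ ⊆ sq (7/10) := fun z hz =>
    ⟨hz.1.trans (by norm_num), (hz.2.2.trans h2ξ).trans (by norm_num)⟩
  have hmeas : MeasurableSet (layO ξ) := by
    have : IsClosed (layO ξ) :=
      (isClosed_le (continuous_fst.abs) continuous_const).inter
        ((isClosed_le continuous_const (continuous_snd.abs)).inter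
          (isClosed_le (continuous_snd.abs) continuous_const))
    exact this.measurableSet
  have hlay : ξ * ∫ z in layO ξ, en δ' p Y d z =
      ∫ z in layO ξ, (ξ * ph (ξ * z.2) * ch z) * en δ' p Y d z := by
    rw [← integral_const_mul]
    apply setIntegral_congr_fun hmeas
    intro z hz
    obtain ⟨g1, g2, g3⟩ := hz
    have e1 : ch z = 1 := ch_one g1 (g3.trans h2ξ)
    have e2 : ph (ξ * z.2) = 1 := by
      apply ph_one
      · rw [abs_mul, abs_of_pos hξ0]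
        rw [div_le_iff₀ hξ0] at g2
        linarith
      · rw [abs_mul, abs_of_pos hξ0]
        rw [le_div_iff₀ hξ0] at g3
        linarith
    simp only [e1, e2, mul_one]
  have hle : ∫ z in layO ξ, (ξ * ph (ξ * z.2) * ch z) * en δ' p Y d z ≤
      ∫ z in sq (7/10), (ξ * ph (ξ * z.2) * ch z) * en δ' p Y d z := by
    refine setIntegral_mono_set iWE (Filter.Eventually.of_forall fun z => ?_) hsub.eventuallyLE
    exact mul_nonneg (mul_nonneg (mul_nonneg hξ0.le (ph_nonneg _)) (ch_nonneg z)) (hen z)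
  rw [hlay]
  linarith

end Crest.Agent.R220
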