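import Crest.Agent.R220.VirialUp

/-!
# Row 220: `layer1`, the multiplier `arctan(ξ y) χ²`
-/

set_option autoImplicit false

open scoped ContDiff Topology
open MeasureTheory Set

namespace Crest.Agent.R220.Layer1

open VirialUp

/-! ### the cutoff -/

noncomputable def lb : ContDiffBump (0 : ℝ) := ⟨1/8, 1/4, by norm_num, by norm_num⟩
noncomputable def lcut (z : Pl) : ℝ := (lb z.1 * lb z.2) ^ 2

lemma lcut_smooth : Sm lcut :=
  ((lb.contDiff.comp contDiff_fst).mul (lb.contDiff.comp contDiff_snd)).pow 2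

lemma lcut_one {z : Pl} (h1 : |z.1| ≤ 1/8) (h2 : |z.2| ≤ 1/8) : lcut z = 1 := by
  unfold lcut
  rw [lb.one_of_mem_closedBall, lb.one_of_mem_closedBall, one_mul, one_pow]
  · rw [Metric.mem_closedBall, Real.dist_eq, sub_zero]; exact h2
  · rw [Metric.mem_closedBall, Real.dist_eq, sub_zero]; exact h1

lemma lcut_zero {z : Pl} (h : z ∉ sq (1/4)) : lcut z = 0 := by
  have : 1 / 4 < |z.1| ∨ 1 / 4 < |z.2| := by
    by_contra hn
    push Not at hn
    exact h hn
  unfold lcut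
  rcases this with h | h
  · rw [lb.zero_of_le_dist, zero_mul, zero_pow two_ne_zero]
    rw [Real.dist_eq, sub_zero]; exact h.le
  · rw [lb.zero_of_le_dist (x := z.2), mul_zero, zero_pow two_ne_zero]
    rw [Real.dist_eq, sub_zero]; exact h.le

lemma lcut_nonneg (z : Pl) : 0 ≤ lcut z := sq_nonneg _

lemma lcut_le_one (z : Pl) : lcut z ≤ 1 := by
  unfold lcut
  have h1 : lb z.1 * lb z.2 ≤ 1 := mul_le_one₀ lb.le_one lb.nonneg lb.le_one
  have h0 : 0 ≤ lb z.1 * lb z.2 := mul_nonneg lb.nonneg lb.nonneg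
  nlinarith

lemma lcut_compact : HasCompactSupport lcut :=
  HasCompactSupport.intro (ClassPigeon.isCompact_sq (1/4)) fun _ hz => lcut_zero hz

lemma lcut_eventually_zero {z : Pl} (h : z ∉ sq (1/4)) : lcut =ᶠ[𝓝 z] fun _ => 0 := by
  filter_upwards [(ClassPigeon.isCompact_sq (1/4)).isClosed.isOpen_compl.mem_nhds h] with w hw
  exact lcut_zero hw

/-! ### the multiplier -/

noncomputable def atn (ξ : ℝ) (z : Pl) : ℝ := Real.arctan (ξ * z.2)
noncomputable def gg (ξ : ℝ) (z : Pl) : ℝ := ξ / (1 + (ξ * z.2) ^ 2)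

lemma sm_snd : Sm (fun z : Pl => z.2) := contDiff_snd

lemma atn_smooth (ξ : ℝ) : Sm (atn ξ) :=
  Real.contDiff_arctan.comp (contDiff_const.mul contDiff_snd)

lemma abs_atn (ξ : ℝ) (z : Pl) : |atn ξ z| ≤ 2 := by
  unfold atn
  rw [abs_le]
  have h1 := Real.arctan_lt_pi_div_two (ξ * z.2)
  have h2 := Real.neg_pi_div_two_lt_arctan (ξ * z.2)
  have h3 := Real.pi_le_four
  constructor <;> linarith

lemma Pop_atn (p Y : Pl → ℝ) (ξ : ℝ) (z : Pl) :
    Pop p Y (atn ξ) z = Pop p Y (fun z => z.2) z * gg ξ z := by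
  have h1 : DifferentiableAt ℝ Real.arctan ((fun z : Pl => ξ * z.2) z) :=
    Real.differentiable_arctan _
  have s1 : Sm (fun z : Pl => ξ * z.2) := contDiff_const.mul contDiff_snd
  have e := Pop_comp_at (p := p) (Y := Y) (φ := Real.arctan) (f := fun z : Pl => ξ * z.2) (z := z)
    h1 s1.differentiableAt
  have e2 := Pop_const_mul p Y ξ (fun z => z.2) sm_snd z
  have e3 : atn ξ = fun z => Real.arctan ((fun z : Pl => ξ * z.2) z) := rfl
  rw [e3, e, e2, Real.deriv_arctan]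
  unfold gg
  ring

lemma Top_atn (p Y : Pl → ℝ) (ξ : ℝ) (z : Pl) :
    Top p Y (atn ξ) z = Top p Y (fun z => z.2) z * gg ξ z := by
  have h1 : DifferentiableAt ℝ Real.arctan ((fun z : Pl => ξ * z.2) z) :=
    Real.differentiable_arctan _
  have s1 : Sm (fun z : Pl => ξ * z.2) := contDiff_const.mul contDiff_snd
  have e := Top_comp_at (p := p) (Y := Y) (φ := Real.arctan) (f := fun z : Pl => ξ * z.2) (z := z)
    h1 s1.differentiableAt
  have e2 := Top_const_mul p Y ξ (fun z => z.2) sm_snd z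
  have e3 : atn ξ = fun z => Real.arctan ((fun z : Pl => ξ * z.2) z) := rfl
  rw [e3, e, e2, Real.deriv_arctan]
  unfold gg
  ring

/-! ### the algebraic inequality -/

lemma core_ineq {J k Tk ty py g w A Tw Pw a t δ η K : ℝ} (hδ : 0 < δ) (hδ1 : δ ≤ 1)
    (hη : η ≤ 1 / 256) (hη0 : 0 ≤ η) (hK : 0 ≤ K) (hJ1 : 1 / 2 ≤ J) (hJ2 : J ≤ 2)
    (hk1 : k ≤ - (δ / 16)) (hk2 : -δ ≤ k) (hTk : |Tk| ≤ 8 * δ)
    (hty : 1 / 4 ≤ ty) (hpy : |py| ≤ 2 * η) (hg : 0 ≤ g) (hw0 : 0 ≤ w) (hw1 : w ≤ 1)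
    (hA : |A| ≤ 2) (hTw : |Tw| ≤ 8 * K) (hPw : |Pw| ≤ 8 * K) :
    (-(ty * g * w + A * Tw) / 2 * t ^ 2 + (A * w * Tk / 2 + k * ((ty * g * w + A * Tw) / 2)) * a ^ 2
      - k * (py * g * w + A * Pw) * a * t) * J ≤
    - (1 / 512) * (g * w * (t ^ 2 + δ * a ^ 2)) + (32 * K + 16) * (t ^ 2 + δ * a ^ 2) := by
  set E := t ^ 2 + δ * a ^ 2 with hE
  have hE0 : 0 ≤ E := by positivity
  have hgw : 0 ≤ g * w := by positivity
  set M := t ^ 2 - k * a ^ 2 with hM
  have hM1 : E / 16 ≤ M := by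
    rw [hE, hM]
    nlinarith [sq_nonneg t, sq_nonneg a]
  have hM2 : M ≤ E := by
    rw [hE, hM]
    nlinarith [sq_nonneg t, sq_nonneg a]
  have hM0 : 0 ≤ M := le_trans (by positivity) hM1
  have i1 : (1 / 64) * (g * w * E) ≤ ty * g * w * M := by
    have h1 : (1/4) * (g * w) ≤ ty * (g * w) := mul_le_mul_of_nonneg_right hty hgw
    have h2 : (1/4) * (g * w) * (E / 16) ≤ ty * (g * w) * M :=
      mul_le_mul h1 hM1 (by positivity) (by nlinarith)
    nlinarith
  have i2 : |A * Tw * M| ≤ 16 * K * E := by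
    rw [abs_mul, abs_mul, abs_of_nonneg hM0]
    have h1 : |A| * |Tw| ≤ 2 * (8 * K) := mul_le_mul hA hTw (abs_nonneg _) (by norm_num)
    have h2 : |A| * |Tw| * M ≤ 2 * (8 * K) * E := mul_le_mul h1 hM2 hM0 (by positivity)
    linarith
  have i3 : |A * w * Tk * a ^ 2| ≤ 16 * E := by
    rw [abs_mul, abs_mul, abs_mul, abs_of_nonneg hw0, abs_of_nonneg (sq_nonneg a)]
    have h1 : |A| * w ≤ 2 * 1 := mul_le_mul hA hw1 hw0 (by norm_num)
    have h2 : |A| * w * |Tk| ≤ 2 * 1 * (8 * δ) := mul_le_mul h1 hTk (abs_nonneg _) (by norm_num)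
    have h3 : |A| * w * |Tk| * a ^ 2 ≤ 2 * 1 * (8 * δ) * a ^ 2 :=
      mul_le_mul_of_nonneg_right h2 (sq_nonneg _)
    rw [hE]
    nlinarith [sq_nonneg t]
  have i4 : |k * a * t| ≤ E / 2 := by
    rw [abs_mul, abs_mul]
    have hk : |k| ≤ δ := by rw [abs_le]; constructor <;> linarith
    have h1 : |k| * |a| * |t| ≤ δ * |a| * |t| := by gcongr
    have h2 : δ * |a| * |t| ≤ E / 2 := by
      rw [hE, ← sq_abs t, ← sq_abs a]
      have h3 : 2 * (|a| * |t|) ≤ |a| ^ 2 + |t| ^ 2 := by nlinarith [sq_nonneg (|a| - |t|)]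
      have h4 : δ * (2 * (|a| * |t|)) ≤ δ * (|a| ^ 2 + |t| ^ 2) :=
        mul_le_mul_of_nonneg_left h3 hδ.le
      have h5 : δ * |t| ^ 2 ≤ 1 * |t| ^ 2 := mul_le_mul_of_nonneg_right hδ1 (sq_nonneg _)
      nlinarith
    linarith
  have i5 : |py * (g * w) * (k * a * t)| ≤ η * (g * w * E) := by
    rw [abs_mul, abs_mul, abs_of_nonneg hgw]
    have h1 : |py| * (g * w) ≤ 2 * η * (g * w) := mul_le_mul_of_nonneg_right hpy hgw
    have h2 : |py| * (g * w) * |k * a * t| ≤ 2 * η * (g * w) * (E / 2) :=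
      mul_le_mul h1 i4 (abs_nonneg _) (by positivity)
    linarith
  have i6 : |A * Pw * (k * a * t)| ≤ 8 * K * E := by
    rw [abs_mul, abs_mul]
    have h1 : |A| * |Pw| ≤ 2 * (8 * K) := mul_le_mul hA hPw (abs_nonneg _) (by norm_num)
    have h2 : |A| * |Pw| * |k * a * t| ≤ 2 * (8 * K) * (E / 2) :=
      mul_le_mul h1 i4 (abs_nonneg _) (by positivity)
    linarith
  have i7 : η * (g * w * E) ≤ (1 / 256) * (g * w * E) :=
    mul_le_mul_of_nonneg_right hη (by positivity)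
  set q := -(ty * g * w + A * Tw) / 2 * t ^ 2
      + (A * w * Tk / 2 + k * ((ty * g * w + A * Tw) / 2)) * a ^ 2
      - k * (py * g * w + A * Pw) * a * t with hq
  have eq : q = -(1/2) * (ty * g * w * M) - (1/2) * (A * Tw * M) + (1/2) * (A * w * Tk * a ^ 2)
      - py * (g * w) * (k * a * t) - A * Pw * (k * a * t) := by
    rw [hq, hM]; ring
  have hqle : q ≤ -(1/256) * (g * w * E) + (16 * K + 8) * E := by
    rw [eq]
    have j2 := neg_le_of_abs_le i2
    have j3 := le_of_abs_le i3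
    have j5 := neg_le_of_abs_le i5
    have j6 := neg_le_of_abs_le i6
    linarith
  have hR : 0 ≤ (16 * K + 8) * E := by positivity
  have hS : 0 ≤ (1/256) * (g * w * E) := by positivity
  calc q * J ≤ (-(1/256) * (g * w * E) + (16 * K + 8) * E) * J :=
        mul_le_mul_of_nonneg_right hqle (by linarith)
    _ = -((1/256) * (g * w * E)) * J + ((16 * K + 8) * E) * J := by ring
    _ ≤ -((1/256) * (g * w * E)) * (1/2) + ((16 * K + 8) * E) * 2 := by
        have h1 : -((1/256) * (g * w * E)) * J ≤ -((1/256) * (g * w * E)) * (1/2) := by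
          nlinarith
        have h2 : ((16 * K + 8) * E) * J ≤ ((16 * K + 8) * E) * 2 :=
          mul_le_mul_of_nonneg_left hJ2 hR
        linarith
    _ = - (1 / 512) * (g * w * E) + (32 * K + 16) * E := by ring

/-! ### pointwise facts on `sq (1/4)` -/

lemma kap_facts {η δ' : ℝ} {κ : Pl → ℝ} (hη : η ≤ 1 / 256) (hδ : 0 < δ')
    (h : KapClose η δ' κ) {z : Pl} (hz : z ∈ sq (1/4)) :
    κ z ≤ - (δ' / 16) ∧ -δ' ≤ κ z ∧ |dx κ z| ≤ δ' ∧ |dy κ z| ≤ δ' := by
  have hx : |z.1| ≤ 1 / 4 := hz.1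
  have hy : |z.2| ≤ 1 / 4 := hz.2
  obtain ⟨h1, h2, h3⟩ := h z ⟨hx.trans (by norm_num), hy.trans (by norm_num)⟩
  have hηδ : η * δ' ≤ 1 / 256 * δ' := mul_le_mul_of_nonneg_right hη hδ.le
  have hx2 : z.1 ^ 2 ≤ 1 / 16 := by
    rw [← sq_abs]; nlinarith [abs_nonneg z.1]
  have hy2 : z.2 ^ 2 ≤ 1 / 16 := by
    rw [← sq_abs]; nlinarith [abs_nonneg z.2]
  have hk1 : δ' * kap0 z ≤ δ' * (-1 / 8) := by
    apply mul_le_mul_of_nonneg_left _ hδ.le
    unfold kap0; linarith
  have hk2 : δ' * (-1 / 4) ≤ δ' * kap0 z := by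
    apply mul_le_mul_of_nonneg_left _ hδ.le
    unfold kap0; nlinarith [sq_nonneg z.1, sq_nonneg z.2]
  have hx' : |δ' * (2 * z.1)| ≤ δ' * (1 / 2) := by
    rw [abs_mul, abs_of_pos hδ, abs_mul, abs_two]
    apply mul_le_mul_of_nonneg_left _ hδ.le
    linarith
  have hy' : |δ' * (2 * z.2)| ≤ δ' * (1 / 2) := by
    rw [abs_mul, abs_of_pos hδ, abs_mul, abs_two]
    apply mul_le_mul_of_nonneg_left _ hδ.le
    linarith
  rw [abs_le] at h1 h2 h3 hx' hy'
  refine ⟨by linarith [h1.2], by linarith [h1.1], ?_, ?_⟩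
  · rw [abs_le]; constructor <;> linarith [h2.1, h2.2, hx'.1, hx'.2]
  · rw [abs_le]; constructor <;> linarith [h3.1, h3.2, hy'.1, hy'.2]

lemma snd_facts {η δ' : ℝ} {p Y κ : Pl → ℝ} (hη : η ≤ 1 / 256) (h : GoodFrame η δ' p Y κ)
    (z : Pl) : 1 / 4 ≤ Top p Y (fun z => z.2) z ∧ |Pop p Y (fun z => z.2) z| ≤ 2 * η := by
  obtain ⟨-, -, -, -, hJ1, hJ2⟩ := frame_pt (hη.trans (by norm_num)) h z
  have hJ : 0 < br p Y z := by linarith
  obtain ⟨h1, h2⟩ := h.cp z
  obtain ⟨h3, h4⟩ := h.cY z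
  rw [Top_snd, Pop_snd]
  constructor
  · rw [le_div_iff₀ hJ]
    rw [abs_le] at h1
    linarith [h1.1]
  · rw [abs_div, abs_neg, abs_of_pos hJ, div_le_iff₀ hJ]
    have : 0 ≤ η := (abs_nonneg _).trans h2
    nlinarith

/-! ### the main estimate -/

lemma src_abs {η ξ C1 : ℝ} {J : ℕ} {σ : ℕ → ℝ} {p Y κ d H G : Pl → ℝ}
    (hs : Src C1 η ξ J σ p Y κ d H G) {z : Pl}
    (hz : z ∈ sq (7/10)) : |Lop p Y κ d z| ≤ 2 * (C1 * ξ ^ 2) ∧
      (z ∉ NS ξ J σ → Lop p Y κ d z = 0) := by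
  have hpde := hs.pde z (lt_of_le_of_lt hz.1 (by norm_num)) (lt_of_le_of_lt hz.2 (by norm_num))
  constructor
  · rw [hpde]
    have h1 := hs.bPH z
    have h2 := hs.bTG z
    rw [abs_le] at h1 h2 ⊢
    constructor <;> linarith [h1.1, h1.2, h2.1, h2.2]
  · intro hn
    obtain ⟨-, -, h3, h4⟩ := src_off hs hn
    rw [hpde, h3, h4]; ring

theorem layer1_main : ∃ η C : ℝ, 0 < η ∧ 0 < C ∧ ∀ (C1 δ' ξ hh : ℝ) (J : ℕ) (σ : ℕ → ℝ)
    (p Y κ d H G : Pl → ℝ), 1 ≤ C1 → 0 < δ' → δ' ≤ 1 → 16 ≤ ξ → 0 < hh → hh + 1 / ξ ≤ 1 / 16 →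
    (J : ℝ) ≤ hh * ξ → (∀ j, σ j = 0 ∨ σ j = 1 ∨ σ j = -1) →
    GoodFrame η δ' p Y κ → Src C1 η ξ J σ p Y κ d H G →
    ξ * ∫ z in layN ξ, en δ' p Y d z ≤
      C * (∫ z in sq (7/10), en δ' p Y d z)
      + C * (C1 * ξ * Real.sqrt (nact J σ) * Real.sqrt (∫ z in layN ξ, en δ' p Y d z)) := by
  obtain ⟨K, hK, hcut⟩ := exists_Bd lcut_smooth lcut_compact 1
  refine ⟨1/256, 2560 * (32 * K + 20), by norm_num, by positivity, ?_⟩
  intro C1 δ' ξ hh J σ p Y κ d H G hC1 hδ hδ1 hξ hh0 hhξ hJ hσ hF hS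
  have hη' : (1/256 : ℝ) ≤ 1/100 := by norm_num
  have hξ0 : 0 < ξ := by linarith
  have h1ξ : 0 < 1 / ξ := by positivity
  have hh8 : hh ≤ 1/8 := by linarith
  have hd := hS.smd
  have hp := hF.smp
  have hY := hF.smY
  have hκ := hF.smk
  have hJ0 : ∀ z, br p Y z ≠ 0 := fun z => by
    have := (frame_pt hη' hF z).2.2.2.2.1
    positivity
  have sJ := hp.br hY
  have sPd := Sm.Pop hp hY hd hJ0
  have sTd := Sm.Top hp hY hd hJ0
  have sTκ := Sm.Top hp hY hκ hJ0
  have sL : Sm (Lop p Y κ d) := Sm.Lop hp hY hκ hd hJ0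
  have cS4 : IsCompact (sq (1/4)) := ClassPigeon.isCompact_sq _
  have cS7 : IsCompact (sq (7/10)) := ClassPigeon.isCompact_sq _
  have hS47 : sq (1/4) ⊆ sq (7/10) := fun z hz =>
    ⟨hz.1.trans (by norm_num), hz.2.trans (by norm_num)⟩
  have hN4 : layN ξ ⊆ sq (1/4) := fun z hz => by
    refine ⟨hz.1.trans (by norm_num), hz.2.trans ?_⟩
    rw [div_le_iff₀ hξ0]; linarith
  set C2 : Pl → ℝ := fun z => atn ξ z * lcut z with hC2
  have sC2 : Sm C2 := (atn_smooth ξ).mul' lcut_smooth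
  have C20 : ∀ z, z ∉ sq (1/4) → C2 z = 0 := fun z hz => by simp [hC2, lcut_zero hz]
  have cC2 : HasCompactSupport C2 := HasCompactSupport.intro cS4 C20
  have C2ev : ∀ z, z ∉ sq (1/4) → C2 =ᶠ[𝓝 z] fun _ => 0 := by
    intro z hz
    filter_upwards [lcut_eventually_zero hz] with w hw
    simp [hC2, hw]
  have sTC2 := Sm.Top hp hY sC2 hJ0
  have sPC2 := Sm.Pop hp hY sC2 hJ0
  have c0 : HasCompactSupport (fun _ : Pl => (0:ℝ)) :=
    HasCompactSupport.intro isCompact_empty fun _ _ => rfl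
  set F1 : Pl → ℝ := fun z => C2 z * Top p Y d z * Lop p Y κ d z * br p Y z with hF1
  set F2 : Pl → ℝ := fun z => (-(Top p Y C2 z) / 2 * Top p Y d z ^ 2
    + (C2 z * Top p Y κ z / 2 + κ z * (Top p Y C2 z / 2)) * Pop p Y d z ^ 2
    - κ z * Pop p Y C2 z * Pop p Y d z * Top p Y d z) * br p Y z with hF2
  have gmi : ∫ z, F1 z = ∫ z, F2 z := by
    have h := GMI' p Y κ d (fun _ => 0) C2 (fun _ => 0) hp hY hκ hd (Sm.const 0) sC2 (Sm.const 0)
      hJ0 c0 cC2 c0
    have e1 : (∫ z, F1 z) = ∫ z, ((0:ℝ) * Pop p Y d z + C2 z * Top p Y d z - 0 * d z) *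
        Lop p Y κ d z * br p Y z := by
      congr 1; funext z; simp only [hF1]; ring
    have e2 : (∫ z, F2 z) = ∫ z, (((Pop p Y (fun _ => 0) z - Top p Y C2 z) / 2 + 0) *
        Top p Y d z ^ 2
      + ((0 * Pop p Y κ z + C2 z * Top p Y κ z) / 2
          + κ z * (0 - (Pop p Y (fun _ => 0) z - Top p Y C2 z) / 2)) * Pop p Y d z ^ 2
      - (Top p Y (fun _ => 0) z + κ z * Pop p Y C2 z) * Pop p Y d z * Top p Y d z
      - (1 / 2) * Lop p Y κ (fun _ => 0) z * d z ^ 2) * br p Y z := by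
      congr 1; funext z
      rw [Pop_const, Top_const, Lop_zero]
      simp only [hF2]; ring
    rw [e1, e2]; exact h
  -- pointwise bound of F2
  have hF2off : ∀ z, z ∉ sq (1/4) → F2 z = 0 := by
    intro z hz
    have h1 := C2ev z hz
    simp only [hF2]
    rw [Top_congr h1, Pop_congr h1, Top_const, Pop_const, C20 z hz]
    ring
  have hF2on : ∀ z ∈ sq (1/4), F2 z ≤
      - (1 / 512) * (gg ξ z * lcut z * en δ' p Y d z) + (32 * K + 16) * en δ' p Y d z := by
    intro z hz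
    obtain ⟨-, -, -, -, hJ1, hJ2⟩ := frame_pt hη' hF z
    obtain ⟨k1, k2, k3, k4⟩ := kap_facts le_rfl hδ hF.ck hz
    obtain ⟨t1, t2⟩ := snd_facts le_rfl hF z
    have hTk : |Top p Y κ z| ≤ 8 * δ' := (Top_abs_le hη' hF κ z).trans (by linarith)
    have bc := Bd.first le_rfl hcut z
    have hPw : |Pop p Y lcut z| ≤ 8 * K :=
      (Pop_abs_le hη' hF _ z).trans (by linarith [bc.1, bc.2])
    have hTw : |Top p Y lcut z| ≤ 8 * K :=
      (Top_abs_le hη' hF _ z).trans (by linarith [bc.1, bc.2])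
    have hg : 0 ≤ gg ξ z := by unfold gg; positivity
    have h := core_ineq (J := br p Y z) (k := κ z) (Tk := Top p Y κ z)
      (ty := Top p Y (fun z => z.2) z) (py := Pop p Y (fun z => z.2) z) (g := gg ξ z)
      (w := lcut z) (A := atn ξ z) (Tw := Top p Y lcut z) (Pw := Pop p Y lcut z)
      (a := Pop p Y d z) (t := Top p Y d z) (δ := δ') (η := 1/256) (K := K)
      hδ hδ1 le_rfl (by norm_num) (by linarith) hJ1 hJ2 k1 k2 hTk t1 t2 hg (lcut_nonneg z)
      (lcut_le_one z) (abs_atn ξ z) hTw hPw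
    have eT : Top p Y C2 z = Top p Y (fun z => z.2) z * gg ξ z * lcut z
        + atn ξ z * Top p Y lcut z := by
      rw [hC2, Top_mul p Y _ _ (atn_smooth ξ) lcut_smooth, Top_atn]
    have eP : Pop p Y C2 z = Pop p Y (fun z => z.2) z * gg ξ z * lcut z
        + atn ξ z * Pop p Y lcut z := by
      rw [hC2, Pop_mul p Y _ _ (atn_smooth ξ) lcut_smooth, Pop_atn]
    have e : F2 z = (-(Top p Y (fun z => z.2) z * gg ξ z * lcut z
        + atn ξ z * Top p Y lcut z) / 2 * Top p Y d z ^ 2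
      + (atn ξ z * lcut z * Top p Y κ z / 2 + κ z * ((Top p Y (fun z => z.2) z * gg ξ z * lcut z
        + atn ξ z * Top p Y lcut z) / 2)) * Pop p Y d z ^ 2
      - κ z * (Pop p Y (fun z => z.2) z * gg ξ z * lcut z
        + atn ξ z * Pop p Y lcut z) * Pop p Y d z * Top p Y d z) * br p Y z := by
      simp only [hF2]
      rw [eT, eP]
    rw [e]
    exact h
  -- integrability
  have sen : Continuous (en δ' p Y d) :=
    ((sTd.pow' 2).add' ((Sm.const δ').mul' (sPd.pow' 2))).continuous'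
  have cgg : Continuous (gg ξ) := by
    unfold gg
    refine continuous_const.div (by fun_prop) fun z => ?_
    positivity
  have sF1 : Sm F1 := ((sC2.mul' sTd).mul' sL).mul' sJ
  have cF1 : HasCompactSupport F1 := HasCompactSupport.intro cS4 fun z hz => by
    simp only [hF1]; rw [C20 z hz]; ring
  have sF2 : Continuous F2 := by
    have h1 := sTC2.continuous'
    have h2 := sPC2.continuous'
    have h3 := sTd.continuous'
    have h4 := sPd.continuous'
    have h5 := sTκ.continuous'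
    have h6 := hκ.continuous'
    have h7 := sC2.continuous'
    have h8 := sJ.continuous'
    simp only [hF2]
    fun_prop
  have iF1 : Integrable F1 := sF1.integrable cF1
  set W : Pl → ℝ := fun z => gg ξ z * lcut z * en δ' p Y d z with hW
  have cW : Continuous W := (cgg.mul lcut_smooth.continuous').mul sen
  have hen0 : ∀ z, 0 ≤ en δ' p Y d z := en_nonneg hδ p Y d
  have hW0 : ∀ z, 0 ≤ W z := fun z => by
    have : 0 ≤ gg ξ z := by unfold gg; positivity
    exact mul_nonneg (mul_nonneg this (lcut_nonneg z)) (hen0 z)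
  -- upper bound of ∫ F2
  have hup : ∫ z, F2 z ≤ - (1 / 512) * (∫ z in sq (1/4), W z)
      + (32 * K + 16) * ∫ z in sq (1/4), en δ' p Y d z := by
    rw [← setIntegral_eq_integral_of_forall_compl_eq_zero hF2off, ← integral_const_mul,
      ← integral_const_mul, ← integral_add]
    · exact setIntegral_mono_on (sF2.continuousOn.integrableOn_compact cS4)
        (((continuous_const.mul cW).add (continuous_const.mul sen)).continuousOn.integrableOn_compact
          cS4) cS4.isClosed.measurableSet hF2on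
    · exact (continuous_const.mul cW).continuousOn.integrableOn_compact cS4
    · exact (continuous_const.mul sen).continuousOn.integrableOn_compact cS4
  -- lower bound of ∫ W
  have hWlow : ξ / 5 * ∫ z in layN ξ, en δ' p Y d z ≤ ∫ z in sq (1/4), W z := by
    have h1 : ξ / 5 * ∫ z in layN ξ, en δ' p Y d z ≤ ∫ z in layN ξ, W z := by
      rw [← integral_const_mul]
      refine setIntegral_mono_on ((continuous_const.mul sen).continuousOn.integrableOn_compact
        (isCompact_layN ξ)) (cW.continuousOn.integrableOn_compact (isCompact_layN ξ))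
        (isClosed_layN ξ).measurableSet ?_
      intro z hz
      have hw1 : lcut z = 1 := lcut_one hz.1 (hz.2.trans (by rw [div_le_iff₀ hξ0]; linarith))
      simp only [hW]
      rw [hw1, mul_one]
      apply mul_le_mul_of_nonneg_right _ (hen0 z)
      unfold gg
      apply div_le_div_of_nonneg_left hξ0.le (by positivity)
      have h2 : |ξ * z.2| ≤ 2 := by
        rw [abs_mul, abs_of_pos hξ0]
        have := hz.2
        rw [le_div_iff₀ hξ0] at this
        linarith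
      have h3 : (ξ * z.2) ^ 2 ≤ 2 ^ 2 := by
        rw [← sq_abs]; gcongr
      linarith
    have h2 : ∫ z in layN ξ, W z ≤ ∫ z in sq (1/4), W z :=
      setIntegral_mono_set (cW.continuousOn.integrableOn_compact cS4)
        (Filter.Eventually.of_forall hW0) hN4.eventuallyLE
    exact h1.trans h2
  have hEs : ∫ z in sq (1/4), en δ' p Y d z ≤ ∫ z in sq (7/10), en δ' p Y d z :=
    setIntegral_mono_set (sen.continuousOn.integrableOn_compact cS7)
      (Filter.Eventually.of_forall hen0) hS47.eventuallyLE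
  -- the source
  have hsrc : - ∫ z, F1 z ≤ 4 * (C1 * ξ * Real.sqrt (nact J σ) *
      Real.sqrt (∫ z in layN ξ, en δ' p Y d z)) := by
    have hoff : ∀ z, z ∉ NS ξ J σ → |F1 z| = 0 := by
      intro z hz
      by_cases h4 : z ∈ sq (1/4)
      · simp only [hF1]
        rw [(src_abs hS (hS47 h4)).2 hz]; simp
      · simp only [hF1]
        rw [C20 z h4]; simp
    have h1 : - ∫ z, F1 z ≤ ∫ z, |F1 z| := by
      have := abs_integral_le_integral_abs (f := F1) (μ := volume)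
      exact (neg_le_abs _).trans this
    rw [← setIntegral_eq_integral_of_forall_compl_eq_zero hoff] at h1
    have cNS : IsCompact (NS ξ J σ) :=
      (isCompact_layN ξ).of_isClosed_subset (isClosed_NS ξ J σ) (NS_subset_layN hξ0 hJ hh8)
    have h2 : ∫ z in NS ξ J σ, |F1 z| ≤ ∫ z in NS ξ J σ, 8 * (C1 * ξ ^ 2) * |Top p Y d z| := by
      refine setIntegral_mono_on iF1.abs.integrableOn
        ((continuous_const.mul sTd.continuous'.abs).continuousOn.integrableOn_compact cNS)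
        (measurableSet_NS ξ J σ) ?_
      intro z hz
      have hz4 := hN4 (NS_subset_layN hξ0 hJ hh8 hz)
      obtain ⟨-, -, -, -, hJ1, hJ2⟩ := frame_pt hη' hF z
      have hL := (src_abs hS (hS47 hz4)).1
      have hc : |C2 z| ≤ 2 := by
        simp only [hC2]
        rw [abs_mul, abs_of_nonneg (lcut_nonneg z)]
        have := mul_le_mul (abs_atn ξ z) (lcut_le_one z) (lcut_nonneg z) (by norm_num)
        linarith
      simp only [hF1]
      rw [abs_mul, abs_mul, abs_mul, abs_of_pos (by linarith : 0 < br p Y z)]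
      have hT := abs_nonneg (Top p Y d z)
      calc |C2 z| * |Top p Y d z| * |Lop p Y κ d z| * br p Y z
          ≤ 2 * |Top p Y d z| * (2 * (C1 * ξ ^ 2)) * 2 := by
            apply mul_le_mul _ hJ2 (by linarith) (by positivity)
            apply mul_le_mul _ hL (abs_nonneg _) (by positivity)
            exact mul_le_mul_of_nonneg_right hc hT
        _ = 8 * (C1 * ξ ^ 2) * |Top p Y d z| := by ring
    rw [integral_const_mul] at h2
    have h3 := integral_NS_le (σ := σ) hξ0 hJ hh8 sTd.continuous'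
    have h4 : Real.sqrt (∫ z in layN ξ, Top p Y d z ^ 2) ≤
        Real.sqrt (∫ z in layN ξ, en δ' p Y d z) := by
      apply Real.sqrt_le_sqrt
      refine setIntegral_mono_on ((sTd.pow' 2).continuous'.continuousOn.integrableOn_compact
        (isCompact_layN ξ)) (sen.continuousOn.integrableOn_compact (isCompact_layN ξ))
        (isClosed_layN ξ).measurableSet ?_
      intro z _
      unfold en
      have : 0 ≤ δ' * Pop p Y d z ^ 2 := by positivity
      linarith
    have h5 : ∫ z in NS ξ J σ, |Top p Y d z| ≤ Real.sqrt (nact J σ) / (2 * ξ) *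
        Real.sqrt (∫ z in layN ξ, en δ' p Y d z) :=
      h3.trans (mul_le_mul_of_nonneg_left h4 (by positivity))
    have h6 : 8 * (C1 * ξ ^ 2) * ∫ z in NS ξ J σ, |Top p Y d z| ≤ 8 * (C1 * ξ ^ 2) *
        (Real.sqrt (nact J σ) / (2 * ξ) * Real.sqrt (∫ z in layN ξ, en δ' p Y d z)) :=
      mul_le_mul_of_nonneg_left h5 (by positivity)
    have e : 8 * (C1 * ξ ^ 2) *
        (Real.sqrt (nact J σ) / (2 * ξ) * Real.sqrt (∫ z in layN ξ, en δ' p Y d z)) =
        4 * (C1 * ξ * Real.sqrt (nact J σ) * Real.sqrt (∫ z in layN ξ, en δ' p Y d z)) := by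
      field_simp; ring
    linarith
  -- conclusion
  set EN := ∫ z in layN ξ, en δ' p Y d z with hEN
  set ES := ∫ z in sq (7/10), en δ' p Y d z with hES
  set X := C1 * ξ * Real.sqrt (nact J σ) * Real.sqrt EN with hX
  have hX0 : 0 ≤ X := by positivity
  have hES0 : 0 ≤ ES := integral_nonneg hen0
  have hKE : (32 * K + 16) * ∫ z in sq (1/4), en δ' p Y d z ≤ (32 * K + 16) * ES :=
    mul_le_mul_of_nonneg_left hEs (by positivity)
  have h1 : (1/512) * (ξ / 5 * EN) ≤ (32 * K + 16) * ES + 4 * X := by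
    have a1 : (1/512) * (ξ / 5 * EN) ≤ (1/512) * ∫ z in sq (1/4), W z :=
      mul_le_mul_of_nonneg_left hWlow (by norm_num)
    linarith
  have h2 : 0 ≤ K * X := by positivity
  nlinarith

end Crest.Agent.R220.Layer1

namespace Crest.Agent.R220

/-- **layer1**: multiplier `C2 = arctan(ξ y) χ0²`. -/
theorem layer1 : ∃ η C : ℝ, 0 < η ∧ 0 < C ∧ ∀ (C1 δ' ξ hh : ℝ) (J : ℕ) (σ : ℕ → ℝ)
    (p Y κ d H G : Pl → ℝ), 1 ≤ C1 → 0 < δ' → δ' ≤ 1 → 16 ≤ ξ → 0 < hh → hh + 1 / ξ ≤ 1 / 16 →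
    (J : ℝ) ≤ hh * ξ → (∀ j, σ j = 0 ∨ σ j = 1 ∨ σ j = -1) →
    GoodFrame η δ' p Y κ → Src C1 η ξ J σ p Y κ d H G →
    ξ * ∫ z in layN ξ, en δ' p Y d z ≤
      C * (∫ z in sq (7/10), en δ' p Y d z)
      + C * (C1 * ξ * Real.sqrt (nact J σ) * Real.sqrt (∫ z in layN ξ, en δ' p Y d z)) :=
  Layer1.layer1_main

end Crest.Agent.R220
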