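import Crest.Agent.R220.LowerModel
import Crest.Agent.R220.LowerLoc

/-!
# Row 220: `lower`, the pairing bound
-/

set_option autoImplicit false

open scoped ContDiff Topology
open MeasureTheory Set

namespace Crest.Agent.R220.Lower

lemma psi_continuous : Continuous psi := prof_psi.sm.continuous

lemma dpsi_continuous : Continuous (deriv psi) := prof_psi.deriv.sm.continuous

lemma gpat_bx {g h : ℝ → ℝ} (hg : Prof g) {ξ : ℝ} {J j : ℕ} (σ : ℕ → ℝ) (hj : j < J) {z : Pl}
    (hz : z ∈ bx ξ j) : gpat g h ξ J σ z = σ j * (g (ξ * z.1 - j) * h (ξ * z.2)) := by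
  unfold gpat
  rw [Finset.sum_eq_single j]
  · intro k _ hkj
    have h1 : |ξ * z.1 - j| ≤ 1 / 4 := hz.1
    have h3 : (1 : ℝ) ≤ |(k : ℝ) - j| := by
      rcases lt_or_gt_of_ne hkj with h | h
      · have : (k : ℝ) + 1 ≤ j := by exact_mod_cast h
        rw [abs_of_nonpos (by linarith)]; linarith
      · have : (j : ℝ) + 1 ≤ k := by exact_mod_cast h
        rw [abs_of_nonneg (by linarith)]; linarith
    have h6 : |(k : ℝ) - j| ≤ |ξ * z.1 - j| + |ξ * z.1 - k| := by
      have : (k : ℝ) - j = (ξ * z.1 - j) - (ξ * z.1 - k) := by ring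
      rw [this]; exact abs_sub _ _
    rw [hg.supp _ (by linarith)]; ring
  · intro hn
    exact absurd (Finset.mem_range.2 hj) hn

lemma br_close {η δ' : ℝ} {p Y κ : Pl → ℝ} (hη : η ≤ 1 / 100) (h : GoodFrame η δ' p Y κ)
    (z : Pl) : |br p Y z - 1| ≤ 4 * η := by
  obtain ⟨g1, g2⟩ := h.cp z
  obtain ⟨g3, g4⟩ := h.cY z
  have hη0 : 0 ≤ η := (abs_nonneg _).trans g2
  have m1 : |(dx p z - 1) * (dy Y z - 1)| ≤ η * (1 / 100) := by
    rw [abs_mul]; exact mul_le_mul g1 (g4.trans hη) (abs_nonneg _) hη0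
  have m2 : |dy p z * dx Y z| ≤ η * (1 / 100) := by
    rw [abs_mul]; exact mul_le_mul g2 (g3.trans hη) (abs_nonneg _) hη0
  have e : br p Y z - 1 = (dx p z - 1) * (dy Y z - 1) + (dx p z - 1) + (dy Y z - 1)
      - dy p z * dx Y z := by unfold br; ring
  simp only [abs_le] at g1 g2 g3 g4 m1 m2
  rw [abs_le, e]
  constructor <;> linarith [g1.1, g1.2, g2.1, g2.2, g3.1, g3.2, g4.1, g4.2, m1.1, m1.2, m2.1, m2.2]

lemma isCompact_bx {ξ : ℝ} (hξ : 0 < ξ) (j : ℕ) : IsCompact (bx ξ j) := by
  have h1 : Continuous (fun z : Pl => |ξ * z.1 - j|) := by fun_prop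
  have h2 : Continuous (fun z : Pl => |ξ * z.2|) := by fun_prop
  have hcl : IsClosed (bx ξ j) :=
    (isClosed_le h1 continuous_const).inter (isClosed_le h2 continuous_const)
  refine (isCompact_Kj ξ j).of_isClosed_subset hcl (Set.Subset.trans ?_ (bj_subset_Kj hξ j))
  intro z hz
  exact ⟨lt_of_le_of_lt hz.1 (by norm_num), hz.2.trans (by norm_num)⟩

theorem pair_lower : PairStmt := by
  obtain ⟨A, hA, hmod⟩ := model_integral
  obtain ⟨K2, hK2, hb2⟩ := prof_psi.bound
  obtain ⟨K3, hK3, hb3⟩ := prof_psi.deriv.bound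
  obtain ⟨L, hL, hbL⟩ := prof_psi.deriv.deriv.bound
  have hlip : ∀ s t : ℝ, |deriv psi s - deriv psi t| ≤ L * |s - t| := fun s t => by
    have h := Convex.norm_image_sub_le_of_norm_deriv_le (f := deriv psi) (s := Set.univ) (C := L)
      (x := t) (y := s) (fun x _ => (prof_psi.deriv.sm.differentiable (by simp)).differentiableAt)
      (fun x _ => by simpa using hbL x) convex_univ (mem_univ _) (mem_univ _)
    simpa using h
  set N : ℝ := 2 * L * (K3 * K2 / 2 + 1) + 2 * K3 + 2 * K3 ^ 2 * K2 with hN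
  have hN0 : 0 ≤ N := by positivity
  refine ⟨min (1 / 100) (A / (N + 1)), A / 4, by positivity, by positivity, ?_⟩
  intro C1 δ' ξ J σ p Y κ d H G hξ hσ hF hS j hj hσj
  set η := min (1 / 100) (A / (N + 1)) with hηdef
  have hη : η ≤ 1 / 100 := min_le_left _ _
  have hηN : η * N ≤ A := by
    have h1 : η ≤ A / (N + 1) := min_le_right _ _
    rw [le_div_iff₀ (by positivity)] at h1
    have hη0 : 0 < η := by positivity
    nlinarith
  have hη0 : 0 < η := by positivity
  have hξ0 : 0 < ξ := by linarith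
  have hσ1 : |σ j| = 1 := by
    rcases hσ j with h | h | h
    · exact absurd h hσj
    · rw [h]; norm_num
    · rw [h]; norm_num
  have hcb := isCompact_bx hξ0 j
  have hmeas : MeasurableSet (bx ξ j) := hcb.isClosed.measurableSet
  set F : Pl → ℝ := fun z => deriv psi (ξ * (p z - pj p ξ j)) * H z * br p Y z with hFdef
  set F0 : Pl → ℝ := fun z => (1 / 2) * ξ * σ j * (deriv psi (ξ * z.1 - j) ^ 2 * psi (ξ * z.2))
    with hF0def
  have cF : Continuous F := by
    have c1 : Continuous (fun z : Pl => deriv psi (ξ * (p z - pj p ξ j))) :=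
      dpsi_continuous.comp (continuous_const.mul (hF.smp.continuous'.sub continuous_const))
    exact (c1.mul hS.smH.continuous').mul (hF.smp.br hF.smY).continuous'
  have cF0 : Continuous F0 := by
    have c1 : Continuous (fun z : Pl => deriv psi (ξ * z.1 - j)) :=
      dpsi_continuous.comp ((continuous_const.mul continuous_fst).sub continuous_const)
    have c2 : Continuous (fun z : Pl => psi (ξ * z.2)) :=
      psi_continuous.comp (continuous_const.mul continuous_snd)
    exact continuous_const.mul ((c1.pow 2).mul c2)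
  have iF : IntegrableOn F (bx ξ j) := cF.continuousOn.integrableOn_compact hcb
  have iF0 : IntegrableOn F0 (bx ξ j) := cF0.continuousOn.integrableOn_compact hcb
  have hclose : ∀ z ∈ bx ξ j, |F z - F0 z| ≤ η * ξ * N := by
    intro z hz
    have h1 : |ξ * z.1 - j| ≤ 1 / 4 := hz.1
    have h2 : |ξ * z.2| ≤ 1 / 4 := hz.2
    set a := deriv psi (ξ * (p z - pj p ξ j)) with ha
    set a0 := deriv psi (ξ * z.1 - j) with ha0
    set H0 := (1 / 2) * ξ * (σ j * (a0 * psi (ξ * z.2))) with hH0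
    have haa : |a - a0| ≤ L * η := by
      refine (hlip _ _).trans ?_
      have h3 := p_shift hF hξ0 j z
      have h4 : max |ξ * z.1 - j| |ξ * z.2| ≤ 1 / 4 := max_le h1 h2
      have h5 : |ξ * (p z - pj p ξ j) - (ξ * z.1 - j)| ≤ η :=
        h3.trans (by nlinarith)
      gcongr
    have ha1 : |a| ≤ K3 := hb3 _
    have ha01 : |a0| ≤ K3 := hb3 _
    have hpat : dx (pat ξ J σ) z = ξ * (σ j * (a0 * psi (ξ * z.2))) := by
      rw [pat_eq_gpat, gpat_dx prof_psi prof_psi]
      simp only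
      rw [gpat_bx prof_psi.deriv σ hj hz]
    have hHH : |H z - H0| ≤ η * ξ := by
      have := hS.bH z
      rw [hpat] at this
      rw [hH0]
      convert this using 2
      ring
    have hH0b : |H0| ≤ ξ * (K3 * K2 / 2) := by
      rw [hH0, abs_mul, abs_mul, abs_mul, abs_mul, abs_of_pos hξ0, hσ1]
      have : |a0| * |psi (ξ * z.2)| ≤ K3 * K2 := mul_le_mul ha01 (hb2 _) (abs_nonneg _) hK3
      have e : |(1 / 2 : ℝ)| = 1 / 2 := abs_of_pos (by norm_num)
      rw [e]
      nlinarith
    have hHb : |H z| ≤ ξ * (K3 * K2 / 2 + 1) := by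
      have h3 : |H z| ≤ |H0| + |H z - H0| := by
        have : H z = H0 + (H z - H0) := by ring
        calc |H z| = |H0 + (H z - H0)| := by rw [← this]
          _ ≤ _ := abs_add_le _ _
      have : η * ξ ≤ 1 * ξ := by gcongr; linarith
      linarith
    have hJ1 : |br p Y z - 1| ≤ 4 * η := br_close hη hF z
    have hJ2 : |br p Y z| ≤ 2 := by
      have h3 := (VirialUp.frame_pt hη hF z).2.2.2.2
      rw [abs_of_nonneg (by linarith [h3.1])]; exact h3.2
    have e : F z - F0 z = (a - a0) * H z * br p Y z + a0 * (H z - H0) * br p Y z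
        + a0 * H0 * (br p Y z - 1) := by
      simp only [hFdef, hF0def, hH0]
      rw [← ha, ← ha0]
      ring
    rw [e]
    have t1 : |(a - a0) * H z * br p Y z| ≤ (L * η) * (ξ * (K3 * K2 / 2 + 1)) * 2 := by
      rw [abs_mul, abs_mul]
      exact mul_le_mul (mul_le_mul haa hHb (abs_nonneg _) (by positivity)) hJ2 (abs_nonneg _)
        (by positivity)
    have t2 : |a0 * (H z - H0) * br p Y z| ≤ K3 * (η * ξ) * 2 := by
      rw [abs_mul, abs_mul]
      exact mul_le_mul (mul_le_mul ha01 hHH (abs_nonneg _) (by positivity)) hJ2 (abs_nonneg _)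
        (by positivity)
    have t3 : |a0 * H0 * (br p Y z - 1)| ≤ K3 * (ξ * (K3 * K2 / 2)) * (4 * η) := by
      rw [abs_mul, abs_mul]
      exact mul_le_mul (mul_le_mul ha01 hH0b (abs_nonneg _) (by positivity)) hJ1 (abs_nonneg _)
        (by positivity)
    refine (abs_add_three _ _ _).trans ?_
    calc _ ≤ (L * η) * (ξ * (K3 * K2 / 2 + 1)) * 2 + K3 * (η * ξ) * 2
          + K3 * (ξ * (K3 * K2 / 2)) * (4 * η) := by linarith
      _ = η * ξ * N := by rw [hN]; ring
  have hI0 : ∫ z in bx ξ j, F0 z = σ j * A / (2 * ξ) := by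
    rw [hF0def, integral_const_mul, hmod ξ j hξ0]
    field_simp
  have hdiff : |(∫ z in bx ξ j, F z) - ∫ z in bx ξ j, F0 z| ≤ η * N / (4 * ξ) := by
    rw [← integral_sub iF iF0]
    have hvol : (volume (bx ξ j)).toReal = 1 / (4 * ξ ^ 2) := by
      rw [volume_bx hξ0, ENNReal.toReal_ofReal (by positivity)]
    have h := norm_setIntegral_le_of_norm_le_const (μ := volume) (s := bx ξ j)
      (f := fun z => F z - F0 z) (C := η * ξ * N) hcb.measure_lt_top
      (fun z hz => by rw [Real.norm_eq_abs]; exact hclose z hz)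
    rw [Real.norm_eq_abs] at h
    refine h.trans (le_of_eq ?_)
    rw [show volume.real (bx ξ j) = (volume (bx ξ j)).toReal from rfl, hvol]
    field_simp
  rw [abs_mul, abs_of_pos hξ0]
  have h3 : A / (2 * ξ) - η * N / (4 * ξ) ≤ |∫ z in bx ξ j, F z| := by
    have h4 : |∫ z in bx ξ j, F0 z| = A / (2 * ξ) := by
      rw [hI0, abs_div, abs_mul, hσ1, abs_of_pos hA, abs_of_pos (by positivity : 0 < 2 * ξ), one_mul]
    have h5 : |∫ z in bx ξ j, F0 z| ≤ |∫ z in bx ξ j, F z|
        + |(∫ z in bx ξ j, F z) - ∫ z in bx ξ j, F0 z| := by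
      have := abs_sub_abs_le_abs_sub (∫ z in bx ξ j, F0 z) (∫ z in bx ξ j, F z)
      rw [abs_sub_comm] at this
      linarith
    linarith
  calc A / 4 = ξ * (A / (2 * ξ) - A / (4 * ξ)) := by field_simp; ring
    _ ≤ ξ * (A / (2 * ξ) - η * N / (4 * ξ)) := by
        gcongr
    _ ≤ ξ * |∫ z in bx ξ j, F z| := by gcongr

end Crest.Agent.R220.Lower
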