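import Crest.Agent.R220.LowerMain
import Crest.Agent.R220.LowerPair

/-!
# Row 220: `lower`
-/

set_option autoImplicit false

open scoped ContDiff Topology
open MeasureTheory Set

namespace Crest.Agent.R220

namespace Lower

lemma bj_disjoint {ξ : ℝ} {i j : ℕ} (hij : i ≠ j) : Disjoint (bj ξ i) (bj ξ j) := by
  rw [Set.disjoint_left]
  intro z hi hj
  have h3 : (1 : ℝ) ≤ |(i : ℝ) - j| := by
    rcases lt_or_gt_of_ne hij with h | h
    · have : (i : ℝ) + 1 ≤ j := by exact_mod_cast h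
      rw [abs_of_nonpos (by linarith)]; linarith
    · have : (j : ℝ) + 1 ≤ i := by exact_mod_cast h
      rw [abs_of_nonneg (by linarith)]; linarith
  have h6 : |(i : ℝ) - j| ≤ |ξ * z.1 - j| + |ξ * z.1 - i| := by
    have : (i : ℝ) - j = (ξ * z.1 - j) - (ξ * z.1 - i) := by ring
    rw [this]; exact abs_sub _ _
  have := hi.1
  have := hj.1
  linarith

lemma measurableSet_layO (ξ : ℝ) : MeasurableSet (layO ξ) := by
  have h1 : Continuous (fun z : Pl => |z.1|) := by fun_prop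
  have h2 : Continuous (fun z : Pl => |z.2|) := by fun_prop
  exact (measurableSet_le h1.measurable measurable_const).inter
    ((measurableSet_le measurable_const h2.measurable).inter
      (measurableSet_le h2.measurable measurable_const))

lemma layO_subset_layN (ξ : ℝ) : layO ξ ⊆ layN ξ := fun _ hz => ⟨hz.1, hz.2.2⟩

lemma sum_est {ξ : ℝ} {s : ℕ → Set Pl} {T : Set Pl} {f : Pl → ℝ} (Ac : Finset ℕ)
    (hf : Continuous f) (hf0 : ∀ z, 0 ≤ f z) (hT : T ⊆ layN ξ) (_hTm : MeasurableSet T)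
    (hs : ∀ i ∈ Ac, s i ⊆ T) (hsm : ∀ i, MeasurableSet (s i)) (hsb : ∀ i, s i ⊆ bj ξ i) :
    ∑ i ∈ Ac, ∫ z in s i, f z ≤ ∫ z in T, f z := by
  have iN : IntegrableOn f (layN ξ) := hf.continuousOn.integrableOn_compact (isCompact_layN ξ)
  have iT : IntegrableOn f T := iN.mono_set hT
  rw [← integral_biUnion_finset (μ := volume) Ac (fun i _ => hsm i)
    (fun i _ j _ hij => (bj_disjoint hij).mono (hsb i) (hsb j))
    (fun i hi => iT.mono_set (hs i hi))]
  refine setIntegral_mono_set iT (Filter.Eventually.of_forall fun z => hf0 z) ?_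
  exact (Set.iUnion₂_subset fun i hi => hs i hi).eventuallyLE

end Lower

open Lower in
/-- **lower**: the lower bound for the energy in the layer. -/
theorem lower : ∃ η C : ℝ, 0 < η ∧ 0 < C ∧ ∀ (C1 δ' ξ hh : ℝ) (J : ℕ) (σ : ℕ → ℝ)
    (p Y κ d H G : Pl → ℝ), 1 ≤ C1 → 0 < δ' → δ' ≤ 1 → 16 ≤ ξ → 0 < hh → hh + 1 / ξ ≤ 1 / 16 →
    (J : ℝ) ≤ hh * ξ → (∀ j, σ j = 0 ∨ σ j = 1 ∨ σ j = -1) →
    GoodFrame η δ' p Y κ → Src C1 η ξ J σ p Y κ d H G →
    nact J σ ≤ C * (∫ z in layO ξ, en δ' p Y d z) + C * (δ' * ∫ z in layN ξ, en δ' p Y d z) := by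
  obtain ⟨η, C, hη, hC, hloc⟩ := lower_loc_of_pair pair_lower
  refine ⟨min η (1 / 100), C, by positivity, hC, ?_⟩
  intro C1 δ' ξ hh J σ p Y κ d H G hC1 hδ hδ1 hξ hhh hhξ hJ hσ hF hS
  have hξ0 : 0 < ξ := by linarith
  have hJ0 : ∀ z, br p Y z ≠ 0 := fun z => by
    have := (VirialUp.frame_pt (min_le_right _ _) hF z).2.2.2.2.1
    positivity
  have hl := hloc C1 δ' ξ hh J σ p Y κ d H G hC1 hδ hδ1 hξ hhh hhξ hJ hσ
    (goodFrame_mono (min_le_left _ _) hδ hF) (src_mono (min_le_left _ _) hξ0.le hS)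
  have cPd : Continuous (fun z => Pop p Y d z ^ 2) :=
    ((Sm.Pop hF.smp hF.smY hS.smd hJ0).continuous').pow 2
  have cTd : Continuous (fun z => Top p Y d z ^ 2) :=
    ((Sm.Top hF.smp hF.smY hS.smd hJ0).continuous').pow 2
  have cen : Continuous (fun z => en δ' p Y d z) := by
    unfold en
    exact cTd.add (continuous_const.mul cPd)
  classical
  set Ac := (Finset.range J).filter (fun j => σ j ≠ 0) with hAc
  have hnact : nact J σ = ∑ _j ∈ Ac, (1 : ℝ) := by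
    rw [Finset.sum_const, nsmul_eq_mul, mul_one]
    unfold nact
    congr!
  have hsubN : ∀ i ∈ Ac, bj ξ i ⊆ layN ξ := by
    intro i hi z hz
    have hi' := Finset.mem_range.1 (Finset.mem_filter.1 hi).1
    obtain ⟨a, b⟩ := bj_loc hξ hhξ hJ hi' hz
    refine ⟨a, ?_⟩
    have h2 := hz.2
    rw [abs_mul, abs_of_pos hξ0] at h2
    rw [le_div_iff₀ hξ0]; linarith
  have hsubO : ∀ i ∈ Ac, bjO ξ i ⊆ layO ξ := by
    intro i hi z hz
    obtain ⟨a, b⟩ := hsubN i hi (bjO_subset_bj ξ i hz)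
    refine ⟨a, ?_, b⟩
    have h2 := hz.2.1
    rw [abs_mul, abs_of_pos hξ0] at h2
    rw [div_le_iff₀ hξ0]; linarith
  have s1 : ∑ i ∈ Ac, ∫ z in bjO ξ i, Top p Y d z ^ 2 ≤ ∫ z in layO ξ, Top p Y d z ^ 2 :=
    sum_est Ac cTd (fun z => sq_nonneg _) (layO_subset_layN ξ) (measurableSet_layO ξ) hsubO
      (measurableSet_bjO ξ) (bjO_subset_bj ξ)
  have s2 : ∑ i ∈ Ac, ∫ z in bj ξ i, Pop p Y d z ^ 2 ≤ ∫ z in layN ξ, Pop p Y d z ^ 2 :=
    sum_est Ac cPd (fun z => sq_nonneg _) (subset_refl _) (isClosed_layN ξ).measurableSet hsubN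
      (measurableSet_bj ξ) (fun _ => subset_refl _)
  have iN := isCompact_layN ξ
  have t1 : ∫ z in layO ξ, Top p Y d z ^ 2 ≤ ∫ z in layO ξ, en δ' p Y d z := by
    refine setIntegral_mono ((cTd.continuousOn.integrableOn_compact iN).mono_set
      (layO_subset_layN ξ)) ((cen.continuousOn.integrableOn_compact iN).mono_set
      (layO_subset_layN ξ)) fun z => ?_
    unfold en
    have : 0 ≤ δ' * Pop p Y d z ^ 2 := by positivity
    linarith
  have t2 : δ' * ∫ z in layN ξ, Pop p Y d z ^ 2 ≤ ∫ z in layN ξ, en δ' p Y d z := by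
    rw [← integral_const_mul]
    refine setIntegral_mono ((cPd.continuousOn.integrableOn_compact iN).const_mul _)
      (cen.continuousOn.integrableOn_compact iN) fun z => ?_
    unfold en
    have := sq_nonneg (Top p Y d z)
    linarith
  calc nact J σ = ∑ _j ∈ Ac, (1 : ℝ) := hnact
    _ ≤ ∑ i ∈ Ac, (C * (∫ z in bjO ξ i, Top p Y d z ^ 2)
        + C * (δ' ^ 2 * ∫ z in bj ξ i, Pop p Y d z ^ 2)) := by
        apply Finset.sum_le_sum
        intro i hi
        obtain ⟨h1, h2⟩ := Finset.mem_filter.1 hi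
        exact hl i (Finset.mem_range.1 h1) h2
    _ = C * (∑ i ∈ Ac, ∫ z in bjO ξ i, Top p Y d z ^ 2)
        + C * (δ' ^ 2 * ∑ i ∈ Ac, ∫ z in bj ξ i, Pop p Y d z ^ 2) := by
        rw [Finset.sum_add_distrib, Finset.mul_sum, Finset.mul_sum, Finset.mul_sum]
    _ ≤ C * (∫ z in layO ξ, Top p Y d z ^ 2)
        + C * (δ' ^ 2 * ∫ z in layN ξ, Pop p Y d z ^ 2) := by gcongr
    _ = C * (∫ z in layO ξ, Top p Y d z ^ 2)
        + C * (δ' * (δ' * ∫ z in layN ξ, Pop p Y d z ^ 2)) := by ring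
    _ ≤ _ := by gcongr

end Crest.Agent.R220
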