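import Crest.Agent.R220.GMI

/-!
# Row 220: the virial estimate (positivity of the multiplier identity with `C1 = p`, `C2 = Y/3`,
`b = 1/6`).
-/

set_option autoImplicit false

open scoped ContDiff
open MeasureTheory Set

namespace Crest.Agent.R220

namespace Virial

theorem fderiv_eq (f : Pl → ℝ) (z v : Pl) : fderiv ℝ f z v = v.1 * dx f z + v.2 * dy f z := by
  have hv : v = v.1 • ((1, 0) : Pl) + v.2 • ((0, 1) : Pl) := by
    ext <;> simp
  conv_lhs => rw [hv]
  rw [map_add, map_smul, map_smul]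
  rfl

/-- mean value inequality from partial derivatives -/
theorem value_bound {f : Pl → ℝ} (hf : Sm f) (h0 : f 0 = 0) {η : ℝ}
    (hx : ∀ z, |dx f z| ≤ η) (hy : ∀ z, |dy f z| ≤ η) (z : Pl) : |f z| ≤ 2 * η * ‖z‖ := by
  have h := Convex.norm_image_sub_le_of_norm_fderiv_le (𝕜 := ℝ) (f := f) (C := 2 * η)
    (s := Set.univ) (x := (0 : Pl)) (y := z) (fun w _ => hf.differentiableAt) ?_ convex_univ
    (mem_univ _) (mem_univ _)
  · rw [h0, sub_zero, sub_zero, Real.norm_eq_abs] at h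
    exact h
  · intro w _
    have hη : 0 ≤ η := (abs_nonneg _).trans (hx w)
    refine ContinuousLinearMap.opNorm_le_bound _ (by positivity) (fun v => ?_)
    rw [fderiv_eq, Real.norm_eq_abs]
    have h1 : |v.1| ≤ ‖v‖ := by rw [← Real.norm_eq_abs]; exact norm_fst_le v
    have h2 : |v.2| ≤ ‖v‖ := by rw [← Real.norm_eq_abs]; exact norm_snd_le v
    calc |v.1 * dx f w + v.2 * dy f w| ≤ |v.1 * dx f w| + |v.2 * dy f w| := abs_add_le _ _
      _ = |v.1| * |dx f w| + |v.2| * |dy f w| := by rw [abs_mul, abs_mul]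
      _ ≤ ‖v‖ * η + ‖v‖ * η := by
          apply add_le_add
          · exact mul_le_mul h1 (hx w) (abs_nonneg _) (norm_nonneg _)
          · exact mul_le_mul h2 (hy w) (abs_nonneg _) (norm_nonneg _)
      _ = 2 * η * ‖v‖ := by ring

theorem mul_close {a b a0 b0 e1 e2 A B : ℝ} (h1 : |a - a0| ≤ e1) (h2 : |b - b0| ≤ e2)
    (ha : |a| ≤ A) (hb : |b0| ≤ B) : |a * b - a0 * b0| ≤ A * e2 + B * e1 := by
  have : a * b - a0 * b0 = a * (b - b0) + b0 * (a - a0) := by ring
  rw [this]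
  calc |a * (b - b0) + b0 * (a - a0)| ≤ |a * (b - b0)| + |b0 * (a - a0)| := abs_add_le _ _
    _ = |a| * |b - b0| + |b0| * |a - a0| := by rw [abs_mul, abs_mul]
    _ ≤ _ := by
        apply add_le_add
        · exact mul_le_mul ha h2 (abs_nonneg _) ((abs_nonneg _).trans ha)
        · exact mul_le_mul hb h1 (abs_nonneg _) ((abs_nonneg _).trans hb)

theorem abs_le_of_close {a a0 e A : ℝ} (h : |a - a0| ≤ e) (h0 : |a0| ≤ A) : |a| ≤ A + e := by
  calc |a| = |a0 + (a - a0)| := by congr 1; ring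
    _ ≤ |a0| + |a - a0| := abs_add_le _ _
    _ ≤ _ := add_le_add h0 h

/-- the jacobian is close to one -/
theorem jac_close {px py Yx Yy : ℝ} (h1 : |px - 1| ≤ 1 / 1000) (h2 : |py| ≤ 1 / 1000)
    (h3 : |Yx| ≤ 1 / 1000) (h4 : |Yy - 1| ≤ 1 / 1000) :
    |px * Yy - py * Yx - 1| ≤ 3 / 1000 := by
  have e1 := abs_le.mp h1
  have e2 := abs_le.mp h2
  have e3 := abs_le.mp h3
  have e4 := abs_le.mp h4
  have m1 : |px * Yy - 1 * 1| ≤ (1001 / 1000) * (1 / 1000) + 1 * (1 / 1000) :=
    mul_close h1 h4 (by rw [abs_le]; constructor <;> linarith [e1.1, e1.2]) (by simp)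
  have m2 : |py * Yx| ≤ (1 / 1000) * (1 / 1000) := by
    rw [abs_mul]
    exact mul_le_mul h2 h3 (abs_nonneg _) (by norm_num)
  have : px * Yy - py * Yx - 1 = (px * Yy - 1 * 1) - py * Yx := by ring
  rw [this]
  calc |(px * Yy - 1 * 1) - py * Yx| ≤ |px * Yy - 1 * 1| + |py * Yx| := abs_sub _ _
    _ ≤ 3 / 1000 := by linarith

theorem coef_ineq {x y p Y px py Yx Yy kx ky k : ℝ} (hx : |x| ≤ 8 / 10) (hy : |y| ≤ 8 / 10)
    (hp : |p - x| ≤ 2 / 1000) (hY : |Y - y| ≤ 2 / 1000)
    (h1 : |px - 1| ≤ 1 / 1000) (h2 : |py| ≤ 1 / 1000)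
    (h3 : |Yx| ≤ 1 / 1000) (h4 : |Yy - 1| ≤ 1 / 1000)
    (hkx : |kx - 2 * x| ≤ 1 / 1000) (hky : |ky - 2 * y| ≤ 1 / 1000)
    (hk : |k - (x ^ 2 + y ^ 2 - 1 / 4)| ≤ 1 / 1000) :
    1 / 40 ≤ (p * (Yy * kx - Yx * ky) + (1 / 3) * Y * (px * ky - py * kx)) / 2
      - k * (px * Yy - py * Yx) / 6 := by
  have bx : |2 * x| ≤ 16 / 10 := by rw [abs_mul]; norm_num; linarith
  have by' : |2 * y| ≤ 16 / 10 := by rw [abs_mul]; norm_num; linarith
  have bYy : |Yy| ≤ 1 + 1 / 1000 := abs_le_of_close h4 (by simp)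
  have bpx : |px| ≤ 1 + 1 / 1000 := abs_le_of_close h1 (by simp)
  have bkx : |kx| ≤ 16 / 10 + 1 / 1000 := abs_le_of_close hkx bx
  have bky : |ky| ≤ 16 / 10 + 1 / 1000 := abs_le_of_close hky by'
  have a1 : |Yy * kx - 1 * (2 * x)| ≤ (1 + 1 / 1000) * (1 / 1000) + (16 / 10) * (1 / 1000) :=
    mul_close h4 hkx bYy bx
  have a2 : |Yx * ky| ≤ (1 / 1000) * (16 / 10 + 1 / 1000) := by
    rw [abs_mul]; exact mul_le_mul h3 bky (abs_nonneg _) (by norm_num)
  have a3 : |px * ky - 1 * (2 * y)| ≤ (1 + 1 / 1000) * (1 / 1000) + (16 / 10) * (1 / 1000) :=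
    mul_close h1 hky bpx by'
  have a4 : |py * kx| ≤ (1 / 1000) * (16 / 10 + 1 / 1000) := by
    rw [abs_mul]; exact mul_le_mul h2 bkx (abs_nonneg _) (by norm_num)
  have hA : |(Yy * kx - Yx * ky) - 2 * x| ≤ 5 / 1000 := by
    have : (Yy * kx - Yx * ky) - 2 * x = (Yy * kx - 1 * (2 * x)) - Yx * ky := by ring
    rw [this]
    calc _ ≤ |Yy * kx - 1 * (2 * x)| + |Yx * ky| := abs_sub _ _
      _ ≤ 5 / 1000 := by linarith
  have hB : |(px * ky - py * kx) - 2 * y| ≤ 5 / 1000 := by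
    have : (px * ky - py * kx) - 2 * y = (px * ky - 1 * (2 * y)) - py * kx := by ring
    rw [this]
    calc _ ≤ |px * ky - 1 * (2 * y)| + |py * kx| := abs_sub _ _
      _ ≤ 5 / 1000 := by linarith
  have bp : |p| ≤ 8 / 10 + 2 / 1000 := abs_le_of_close hp hx
  have bY : |Y| ≤ 8 / 10 + 2 / 1000 := abs_le_of_close hY hy
  have hpA : |p * (Yy * kx - Yx * ky) - x * (2 * x)| ≤
      (8 / 10 + 2 / 1000) * (5 / 1000) + (16 / 10) * (2 / 1000) := mul_close hp hA bp bx
  have hYB : |Y * (px * ky - py * kx) - y * (2 * y)| ≤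
      (8 / 10 + 2 / 1000) * (5 / 1000) + (16 / 10) * (2 / 1000) := mul_close hY hB bY by'
  have hJ := jac_close h1 h2 h3 h4
  have hx2 : x ^ 2 ≤ 64 / 100 := by
    have := abs_le.mp hx
    nlinarith [this.1, this.2]
  have hy2 : y ^ 2 ≤ 64 / 100 := by
    have := abs_le.mp hy
    nlinarith [this.1, this.2]
  have bk0 : |x ^ 2 + y ^ 2 - 1 / 4| ≤ 11 / 10 := by
    rw [abs_le]
    constructor
    · nlinarith [sq_nonneg x, sq_nonneg y]
    · linarith
  have bk : |k| ≤ 11 / 10 + 1 / 1000 := abs_le_of_close hk bk0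
  have hkJ : |k * (px * Yy - py * Yx) - (x ^ 2 + y ^ 2 - 1 / 4) * 1| ≤
      (11 / 10 + 1 / 1000) * (3 / 1000) + 1 * (1 / 1000) := mul_close hk hJ bk (by simp)
  have q1 := abs_le.mp hpA
  have q2 := abs_le.mp hYB
  have q3 := abs_le.mp hkJ
  nlinarith [q1.1, q1.2, q2.1, q2.2, q3.1, q3.2, sq_nonneg x, sq_nonneg y]

theorem compactSupport_of_sq {V : Pl → ℝ} {s : ℝ} (h : ∀ z, z ∉ sq s → V z = 0) :
    HasCompactSupport V := by
  refine HasCompactSupport.intro (K := Icc (-s) s ×ˢ Icc (-s) s) (isCompact_Icc.prod isCompact_Icc) ?_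
  intro z hz
  apply h
  intro h'
  apply hz
  obtain ⟨h1, h2⟩ := h'
  exact ⟨⟨(abs_le.mp h1).1, (abs_le.mp h1).2⟩, ⟨(abs_le.mp h2).1, (abs_le.mp h2).2⟩⟩

theorem isClosed_sq (s : ℝ) : IsClosed (sq s) := by
  have : sq s = {z : Pl | |z.1| ≤ s} ∩ {z : Pl | |z.2| ≤ s} := rfl
  rw [this]
  exact (isClosed_le (continuous_abs.comp continuous_fst) continuous_const).inter
    (isClosed_le (continuous_abs.comp continuous_snd) continuous_const)

end Virial

open Virial in
/-- **virial** -/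
theorem virial : ∃ η : ℝ, 0 < η ∧ ∀ (δ' : ℝ) (p Y κ V : Pl → ℝ), 0 < δ' →
    GoodFrame η δ' p Y κ → Sm V → (∀ z, z ∉ sq (8/10) → V z = 0) →
    (1 / 40) * ∫ z, en δ' p Y V z ≤
      ∫ z, (p z * Pop p Y V z + (1/3) * Y z * Top p Y V z - (1/6) * V z) * Lop p Y κ V z
        * br p Y z := by
  refine ⟨1 / 1000, by norm_num, ?_⟩
  intro δ' p Y κ V hδ hG hV hsupp
  have hp := hG.smp
  have hY := hG.smY
  have hκ := hG.smk
  have hJc : ∀ z, |br p Y z - 1| ≤ 3 / 1000 := fun z =>
    jac_close (hG.cp z).1 (hG.cp z).2 (hG.cY z).1 (hG.cY z).2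
  have hJpos : ∀ z, 0 < br p Y z := fun z => by
    have := (abs_le.mp (hJc z)).1; linarith
  have hJ : ∀ z, br p Y z ≠ 0 := fun z => (hJpos z).ne'
  have hVc : HasCompactSupport V := compactSupport_of_sq hsupp
  have gmi := GMI p Y κ V p (fun z => (1/3) * Y z) (fun _ => 1/6) hp hY hκ hV hp
    ((Sm.const _).mul' hY) (Sm.const _) hJ hVc
  rw [gmi]
  -- simplify the coefficients
  have hC1 : ∀ z, Pop p Y p z = 1 := fun z => Pop_p (hJ z)
  have hC2 : ∀ z, Top p Y (fun z => (1/3) * Y z) z = 1/3 := fun z => by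
    rw [Top_const_mul_at _ hY.differentiableAt, Top_Y (hJ z)]; ring
  have hC3 : ∀ z, Top p Y p z = 0 := fun z => Top_p
  have hC4 : ∀ z, Pop p Y (fun z => (1/3) * Y z) z = 0 := fun z => by
    rw [Pop_const_mul_at _ hY.differentiableAt, Pop_Y]; ring
  have hb : ∀ z, Lop p Y κ (fun _ => (1/6 : ℝ)) z = 0 := fun z => by
    rw [Lop_eq hp hY hκ (Sm.const _) hJ]
    have e1 : Top p Y (fun _ => (1/6 : ℝ)) = fun _ => 0 := funext fun z => Top_const _
    have e2 : Pop p Y (fun _ => (1/6 : ℝ)) = fun _ => 0 := funext fun z => Pop_const _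
    rw [e1, e2, Top_const, Pop_const]; ring
  have sP := Sm.Pop hp hY hV hJ
  have sT := Sm.Top hp hY hV hJ
  have hcP := HasCompactSupport.Pop (p := p) (Y := Y) hVc
  have hcT := HasCompactSupport.Top (p := p) (Y := Y) hVc
  rw [← integral_const_mul]
  -- continuity and supports for integrability
  have cont1 : Continuous (fun z => 1 / 40 * en δ' p Y V z) := by
    unfold en
    have c1 := sP.continuous'
    have c2 := sT.continuous'
    fun_prop
  have supp1 : HasCompactSupport (fun z => 1 / 40 * en δ' p Y V z) := by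
    refine HasCompactSupport.intro (K := tsupport V) hVc.isCompact ?_
    intro z hz
    unfold en
    rw [Pop_eq_zero_of_notMem hz, Top_eq_zero_of_notMem hz]; ring
  have e : ∀ z, (((Pop p Y p z - Top p Y (fun z => (1/3) * Y z) z) / 2 + 1/6) * Top p Y V z ^ 2
      + ((p z * Pop p Y κ z + (1/3) * Y z * Top p Y κ z) / 2
          + κ z * (1/6 - (Pop p Y p z - Top p Y (fun z => (1/3) * Y z) z) / 2)) * Pop p Y V z ^ 2
      - (Top p Y p z + κ z * Pop p Y (fun z => (1/3) * Y z) z) * Pop p Y V z * Top p Y V z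
      - (1 / 2) * Lop p Y κ (fun _ => (1/6 : ℝ)) z * V z ^ 2) * br p Y z
      = (1/2) * br p Y z * Top p Y V z ^ 2 +
        ((p z * (dy Y z * dx κ z - dx Y z * dy κ z)
          + (1/3) * Y z * (dx p z * dy κ z - dy p z * dx κ z)) / 2
          - κ z * br p Y z / 6) * Pop p Y V z ^ 2 := by
    intro z
    rw [hC1, hC2, hC3, hC4, hb]
    have k1 : Pop p Y κ z * br p Y z = dy Y z * dx κ z - dx Y z * dy κ z := by
      rw [Pop_mul_J p Y κ (hJ z)]
      show dx κ z * dy Y z - dy κ z * dx Y z = _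
      ring
    have k2 : Top p Y κ z * br p Y z = dx p z * dy κ z - dy p z * dx κ z := by
      rw [Top_mul_J p Y κ (hJ z)]
      rfl
    rw [← k1, ← k2]
    ring
  have hR : (fun z => (((Pop p Y p z - Top p Y (fun z => (1/3) * Y z) z) / 2 + 1/6) * Top p Y V z ^ 2
      + ((p z * Pop p Y κ z + (1/3) * Y z * Top p Y κ z) / 2
          + κ z * (1/6 - (Pop p Y p z - Top p Y (fun z => (1/3) * Y z) z) / 2)) * Pop p Y V z ^ 2
      - (Top p Y p z + κ z * Pop p Y (fun z => (1/3) * Y z) z) * Pop p Y V z * Top p Y V z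
      - (1 / 2) * Lop p Y κ (fun _ => (1/6 : ℝ)) z * V z ^ 2) * br p Y z)
      = fun z => (1/2) * br p Y z * Top p Y V z ^ 2 +
        ((p z * (dy Y z * dx κ z - dx Y z * dy κ z)
          + (1/3) * Y z * (dx p z * dy κ z - dy p z * dx κ z)) / 2
          - κ z * br p Y z / 6) * Pop p Y V z ^ 2 := funext e
  rw [hR]
  have cont2 : Continuous (fun z => (1/2) * br p Y z * Top p Y V z ^ 2 +
        ((p z * (dy Y z * dx κ z - dx Y z * dy κ z)
          + (1/3) * Y z * (dx p z * dy κ z - dy p z * dx κ z)) / 2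
          - κ z * br p Y z / 6) * Pop p Y V z ^ 2) := by
    have c1 := sP.continuous'
    have c2 := sT.continuous'
    have c3 := (hp.br hY).continuous'
    have c4 := hp.continuous'
    have c5 := hY.continuous'
    have c6 := hκ.continuous'
    have c7 := hp.dx.continuous'
    have c8 := hp.dy.continuous'
    have c9 := hY.dx.continuous'
    have c10 := hY.dy.continuous'
    have c11 := hκ.dx.continuous'
    have c12 := hκ.dy.continuous'
    fun_prop
  have supp2 : HasCompactSupport (fun z => (1/2) * br p Y z * Top p Y V z ^ 2 +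
        ((p z * (dy Y z * dx κ z - dx Y z * dy κ z)
          + (1/3) * Y z * (dx p z * dy κ z - dy p z * dx κ z)) / 2
          - κ z * br p Y z / 6) * Pop p Y V z ^ 2) := by
    refine HasCompactSupport.intro (K := tsupport V) hVc.isCompact ?_
    intro z hz
    rw [Pop_eq_zero_of_notMem hz, Top_eq_zero_of_notMem hz]; ring
  refine integral_mono (cont1.integrable_of_hasCompactSupport supp1)
    (cont2.integrable_of_hasCompactSupport supp2) ?_
  intro z
  show 1 / 40 * en δ' p Y V z ≤ (1/2) * br p Y z * Top p Y V z ^ 2 +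
        ((p z * (dy Y z * dx κ z - dx Y z * dy κ z)
          + (1/3) * Y z * (dx p z * dy κ z - dy p z * dx κ z)) / 2
          - κ z * br p Y z / 6) * Pop p Y V z ^ 2
  by_cases hz : z ∈ sq (8/10)
  · obtain ⟨hz1, hz2⟩ := hz
    have hnorm : ‖z‖ ≤ 1 := by
      rw [Prod.norm_def, Real.norm_eq_abs, Real.norm_eq_abs]
      exact max_le (by linarith) (by linarith)
    have hpz : |p z - z.1| ≤ 2 / 1000 := by
      have h := value_bound (f := fun z => p z - z.1) (hp.sub' Sm.fst) (by simp [hG.p0])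
        (η := 1 / 1000) (fun z => ?_) (fun z => ?_) z
      · have h' : 2 * (1 / 1000 : ℝ) * ‖z‖ ≤ 2 / 1000 := by nlinarith
        exact h.trans h'
      · rw [dx_sub_at hp.differentiableAt Sm.fst.differentiableAt, dx_fst]; exact (hG.cp z).1
      · rw [dy_sub_at hp.differentiableAt Sm.fst.differentiableAt, dy_fst, sub_zero]
        exact (hG.cp z).2
    have hYz : |Y z - z.2| ≤ 2 / 1000 := by
      have h := value_bound (f := fun z => Y z - z.2) (hY.sub' Sm.snd) (by simp [hG.Y0])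
        (η := 1 / 1000) (fun z => ?_) (fun z => ?_) z
      · have h' : 2 * (1 / 1000 : ℝ) * ‖z‖ ≤ 2 / 1000 := by nlinarith
        exact h.trans h'
      · rw [dx_sub_at hY.differentiableAt Sm.snd.differentiableAt, dx_snd, sub_zero]
        exact (hG.cY z).1
      · rw [dy_sub_at hY.differentiableAt Sm.snd.differentiableAt, dy_snd]; exact (hG.cY z).2
    have hk := hG.ck z ⟨by linarith, by linarith⟩
    have scale : ∀ {a b : ℝ}, |a - δ' * b| ≤ 1 / 1000 * δ' → |a / δ' - b| ≤ 1 / 1000 := by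
      intro a b h
      have : a / δ' - b = (a - δ' * b) / δ' := by field_simp
      rw [this, abs_div, abs_of_pos hδ, div_le_iff₀ hδ]
      exact h
    have hk1 := scale hk.1
    have hk2 := scale hk.2.1
    have hk3 := scale hk.2.2
    have hc := coef_ineq hz1 hz2 hpz hYz (hG.cp z).1 (hG.cp z).2 (hG.cY z).1 (hG.cY z).2
      hk2 hk3 (by unfold kap0 at hk1; exact hk1)
    have hcoef : δ' / 40 ≤ (p z * (dy Y z * dx κ z - dx Y z * dy κ z)
          + (1/3) * Y z * (dx p z * dy κ z - dy p z * dx κ z)) / 2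
          - κ z * br p Y z / 6 := by
      have h := mul_le_mul_of_nonneg_left hc hδ.le
      have e1 : δ' * ((p z * (dy Y z * (dx κ z / δ') - dx Y z * (dy κ z / δ'))
          + (1/3) * Y z * (dx p z * (dy κ z / δ') - dy p z * (dx κ z / δ'))) / 2
          - (κ z / δ') * (dx p z * dy Y z - dy p z * dx Y z) / 6)
          = (p z * (dy Y z * dx κ z - dx Y z * dy κ z)
          + (1/3) * Y z * (dx p z * dy κ z - dy p z * dx κ z)) / 2
          - κ z * br p Y z / 6 := by
        have : br p Y z = dx p z * dy Y z - dy p z * dx Y z := rfl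
        rw [this]
        field_simp
      rw [e1] at h
      linarith
    unfold en
    have hJ1 := (abs_le.mp (hJc z)).1
    have t1 : 1 / 40 * Top p Y V z ^ 2 ≤ (1/2) * br p Y z * Top p Y V z ^ 2 :=
      mul_le_mul_of_nonneg_right (by linarith) (sq_nonneg _)
    have t2 := mul_le_mul_of_nonneg_right hcoef (sq_nonneg (Pop p Y V z))
    nlinarith [t1, t2]
  · have h0 : z ∉ tsupport V := by
      intro h'
      apply hz
      refine closure_minimal ?_ (isClosed_sq (8/10)) h'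
      intro w hw
      by_contra hc
      exact hw (hsupp w hc)
    unfold en
    rw [Pop_eq_zero_of_notMem h0, Top_eq_zero_of_notMem h0]
    simp

end Crest.Agent.R220
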