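import Crest.Agent.R220.VirialUpAux
import Crest.Agent.R220.Virial

/-!
# Row 220: `lower`, definitions and the shift lemma
-/

set_option autoImplicit false

open scoped ContDiff Topology
open MeasureTheory Set

namespace Crest.Agent.R220.Lower

/-- enlarged box number `j` -/
def bj (ξ : ℝ) (j : ℕ) : Set Pl := {z | |ξ * z.1 - j| < 1 / 2 ∧ |ξ * z.2| ≤ 2}

/-- outer part of the enlarged box number `j` -/
def bjO (ξ : ℝ) (j : ℕ) : Set Pl :=
  {z | |ξ * z.1 - j| < 1 / 2 ∧ 1 ≤ |ξ * z.2| ∧ |ξ * z.2| ≤ 2}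

/-- centre number `j` in the variable `p` -/
noncomputable def pj (p : Pl → ℝ) (ξ : ℝ) (j : ℕ) : ℝ := p ((j : ℝ) / ξ, 0)

/-- the rescaled shifted variable is close to `ξ x - j` -/
theorem p_shift {η δ' : ℝ} {p Y κ : Pl → ℝ} (h : GoodFrame η δ' p Y κ) {ξ : ℝ} (hξ : 0 < ξ)
    (j : ℕ) (z : Pl) :
    |ξ * (p z - pj p ξ j) - (ξ * z.1 - j)| ≤ 2 * η * max |ξ * z.1 - j| |ξ * z.2| := by
  have hη : 0 ≤ η := (abs_nonneg _).trans (h.cp 0).2
  set f : Pl → ℝ := fun z => p z - z.1 with hf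
  have sf : Sm f := h.smp.sub' Sm.fst
  have hx : ∀ z, |dx f z| ≤ η := fun z => by
    rw [hf, dx_sub_at h.smp.differentiableAt Sm.fst.differentiableAt, dx_fst]
    exact (h.cp z).1
  have hy : ∀ z, |dy f z| ≤ η := fun z => by
    rw [hf, dy_sub_at h.smp.differentiableAt Sm.fst.differentiableAt, dy_fst, sub_zero]
    exact (h.cp z).2
  have key := Convex.norm_image_sub_le_of_norm_fderiv_le (𝕜 := ℝ) (f := f) (C := 2 * η)
    (s := Set.univ) (x := ((j : ℝ) / ξ, (0 : ℝ))) (y := z) (fun w _ => sf.differentiableAt) ?_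
    convex_univ (mem_univ _) (mem_univ _)
  · have e : f z - f ((j : ℝ) / ξ, 0) = (p z - pj p ξ j) - (z.1 - j / ξ) := by
      simp only [hf, pj]; ring
    rw [e, Real.norm_eq_abs] at key
    have e2 : ξ * (p z - pj p ξ j) - (ξ * z.1 - j) =
        ξ * ((p z - pj p ξ j) - (z.1 - j / ξ)) := by field_simp
    rw [e2, abs_mul, abs_of_pos hξ]
    have e3 : max |ξ * z.1 - j| |ξ * z.2| = ξ * ‖z - ((j : ℝ) / ξ, (0 : ℝ))‖ := by
      have : ‖z - ((j : ℝ) / ξ, (0 : ℝ))‖ = max |z.1 - j / ξ| |z.2| := by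
        rw [Prod.norm_def]; simp
      rw [this, mul_max_of_nonneg _ _ hξ.le]
      congr 1
      · rw [← abs_of_pos hξ, ← abs_mul, abs_of_pos hξ]; congr 1; field_simp
      · rw [abs_mul, abs_of_pos hξ]
    rw [e3]
    calc ξ * |(p z - pj p ξ j) - (z.1 - j / ξ)|
        ≤ ξ * (2 * η * ‖z - ((j : ℝ) / ξ, (0 : ℝ))‖) := by gcongr
      _ = _ := by ring
  · intro w _
    refine ContinuousLinearMap.opNorm_le_bound _ (by positivity) (fun v => ?_)
    rw [Virial.fderiv_eq, Real.norm_eq_abs]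
    have h1 : |v.1| ≤ ‖v‖ := by rw [← Real.norm_eq_abs]; exact norm_fst_le v
    have h2 : |v.2| ≤ ‖v‖ := by rw [← Real.norm_eq_abs]; exact norm_snd_le v
    calc |v.1 * dx f w + v.2 * dy f w| ≤ |v.1 * dx f w| + |v.2 * dy f w| := abs_add_le _ _
      _ = |v.1| * |dx f w| + |v.2| * |dy f w| := by rw [abs_mul, abs_mul]
      _ ≤ ‖v‖ * η + ‖v‖ * η := by
          apply add_le_add
          · exact mul_le_mul h1 (hx w) (abs_nonneg _) (norm_nonneg _)
          · exact mul_le_mul h2 (hy w) (abs_nonneg _) (norm_nonneg _)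
      _ = 2 * η * ‖v‖ := by ring

end Crest.Agent.R220.Lower
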