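import Crest.Agent.R220.LowerLoc

/-!
# Row 220: `lower`, local inequality from the pairing bound
-/

set_option autoImplicit false

open scoped ContDiff Topology
open MeasureTheory Set

namespace Crest.Agent.R220.Lower

lemma goodFrame_mono {η η' δ' : ℝ} {p Y κ : Pl → ℝ} (hη : η ≤ η') (hδ : 0 < δ')
    (h : GoodFrame η δ' p Y κ) : GoodFrame η' δ' p Y κ := by
  refine ⟨h.smp, h.smY, h.smk, h.p0, h.Y0, fun z => ⟨(h.cp z).1.trans hη, (h.cp z).2.trans hη⟩,
    fun z => ⟨(h.cY z).1.trans hη, (h.cY z).2.trans hη⟩, fun w hw z => (h.cp2 w hw z).trans hη,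
    fun w hw z => (h.cY2 w hw z).trans hη, fun z hz => ?_⟩
  have hm : η * δ' ≤ η' * δ' := mul_le_mul_of_nonneg_right hη hδ.le
  obtain ⟨a, b, c⟩ := h.ck z hz
  exact ⟨a.trans hm, b.trans hm, c.trans hm⟩

lemma src_mono {C1 η η' ξ : ℝ} {J : ℕ} {σ : ℕ → ℝ} {p Y κ d H G : Pl → ℝ} (hη : η ≤ η')
    (hξ : 0 ≤ ξ) (h : Src C1 η ξ J σ p Y κ d H G) : Src C1 η' ξ J σ p Y κ d H G :=
  { h with
    bH := fun z => (h.bH z).trans (mul_le_mul_of_nonneg_right hη hξ)
    bG := fun z => (h.bG z).trans (mul_le_mul_of_nonneg_right hη hξ) }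

lemma kap_small {η δ' : ℝ} {κ : Pl → ℝ} (hη : η ≤ 1 / 100) (hδ : 0 < δ')
    (h : KapClose η δ' κ) {z : Pl} (h1 : |z.1| ≤ 1 / 8) (h2 : |z.2| ≤ 1 / 8) :
    |κ z| ≤ 2 * δ' := by
  obtain ⟨k1, -, -⟩ := h z ⟨h1.trans (by norm_num), h2.trans (by norm_num)⟩
  have a1 : z.1 ^ 2 ≤ (1 / 8) ^ 2 := by rw [← sq_abs]; gcongr
  have a2 : z.2 ^ 2 ≤ (1 / 8) ^ 2 := by rw [← sq_abs]; gcongr
  have k2 : |δ' * kap0 z| ≤ δ' := by
    rw [abs_mul, abs_of_pos hδ]
    have : |kap0 z| ≤ 1 := by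
      unfold kap0
      rw [abs_le]
      constructor <;> nlinarith [sq_nonneg z.1, sq_nonneg z.2]
    nlinarith
  have k3 : η * δ' ≤ 1 / 100 * δ' := mul_le_mul_of_nonneg_right hη hδ.le
  have := abs_sub_abs_le_abs_sub (κ z) (δ' * kap0 z)
  linarith

/-- the weak form tested with `phi`, reduced to the box of the bump -/
lemma tested {η C1 δ' ξ hh : ℝ} {J : ℕ} {σ : ℕ → ℝ} {p Y κ d H G : Pl → ℝ} (hη : η ≤ 1 / 100)
    (hξ : 16 ≤ ξ) (hhξ : hh + 1 / ξ ≤ 1 / 16) (hJ : (J : ℝ) ≤ hh * ξ)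
    (hF : GoodFrame η δ' p Y κ) (hS : Src C1 η ξ J σ p Y κ d H G) {j : ℕ} (hj : j < J)
    (hσ : σ j ≠ 0) :
    ξ * ∫ z in bx ξ j, deriv psi (ξ * (p z - pj p ξ j)) * H z * br p Y z =
      - ((∫ z, (Top p Y (phi p ξ j) z * br p Y z) * Top p Y d z)
        + ∫ z, (κ z * Pop p Y (phi p ξ j) z * br p Y z) * Pop p Y d z) := by
  have hξ0 : 0 < ξ := by linarith
  have hJ0 : ∀ z, br p Y z ≠ 0 := fun z => by
    have := (VirialUp.frame_pt hη hF z).2.2.2.2.1
    positivity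
  have sphi : Sm (phi p ξ j) := sm_phi hF.smp ξ j
  have cphi : HasCompactSupport (phi p ξ j) := phi_compact hη hF hξ0 j
  have hw := Lop_weak p Y κ d (phi p ξ j) hF.smp hF.smY hF.smk hS.smd sphi hJ0 (Or.inr cphi)
  -- right side: split
  have sP : Sm (Pop p Y (phi p ξ j)) := Sm.Pop hF.smp hF.smY sphi hJ0
  have sT : Sm (Top p Y (phi p ξ j)) := Sm.Top hF.smp hF.smY sphi hJ0
  have cP : HasCompactSupport (Pop p Y (phi p ξ j)) := HasCompactSupport.Pop cphi
  have cT : HasCompactSupport (Top p Y (phi p ξ j)) := HasCompactSupport.Top cphi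
  have sPd : Sm (Pop p Y d) := Sm.Pop hF.smp hF.smY hS.smd hJ0
  have sTd : Sm (Top p Y d) := Sm.Top hF.smp hF.smY hS.smd hJ0
  have sbr : Sm (br p Y) := hF.smp.br hF.smY
  have i1 : Integrable (fun z => (Top p Y (phi p ξ j) z * br p Y z) * Top p Y d z) :=
    ((sT.mul' sbr).mul' sTd).integrable (cT.mul_right.mul_right)
  have i2 : Integrable (fun z => (κ z * Pop p Y (phi p ξ j) z * br p Y z) * Pop p Y d z) :=
    (((hF.smk.mul' sP).mul' sbr).mul' sPd).integrable (cP.mul_left.mul_right.mul_right)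
  have e1 : ∫ z, (Top p Y (phi p ξ j) z * Top p Y d z + κ z * Pop p Y (phi p ξ j) z * Pop p Y d z)
        * br p Y z = (∫ z, (Top p Y (phi p ξ j) z * br p Y z) * Top p Y d z)
        + ∫ z, (κ z * Pop p Y (phi p ξ j) z * br p Y z) * Pop p Y d z := by
    rw [← integral_add i1 i2]
    congr 1
    funext z
    ring
  rw [e1] at hw
  rw [← hw]
  -- left side
  have e2 : ∀ z, phi p ξ j z * Lop p Y κ d z * br p Y z
      = - (phi p ξ j z * Pop p Y H z * br p Y z) - phi p ξ j z * Top p Y G z * br p Y z := by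
    intro z
    by_cases hz : z ∈ bj ξ j
    · obtain ⟨a, b⟩ := bj_loc hξ hhξ hJ hj hz
      rw [hS.pde z (by linarith) (by linarith)]
      ring
    · rw [phi_out hη hF hξ0 j hz]; ring
  simp_rw [e2]
  have sPH : Sm (Pop p Y H) := Sm.Pop hF.smp hF.smY hS.smH hJ0
  have sTG : Sm (Top p Y G) := Sm.Top hF.smp hF.smY hS.smG hJ0
  have i3 : Integrable (fun z => phi p ξ j z * Pop p Y H z * br p Y z) :=
    ((sphi.mul' sPH).mul' sbr).integrable (cphi.mul_right.mul_right)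
  have i4 : Integrable (fun z => phi p ξ j z * Top p Y G z * br p Y z) :=
    ((sphi.mul' sTG).mul' sbr).integrable (cphi.mul_right.mul_right)
  have i3' : Integrable (fun z => -(phi p ξ j z * Pop p Y H z * br p Y z)) := i3.neg
  rw [integral_sub i3' i4, integral_neg,
    integral_mul_Pop hF.smp hF.smY sphi hS.smH hJ0 (Or.inl cphi),
    integral_mul_Top hF.smp hF.smY sphi hS.smG hJ0 (Or.inl cphi)]
  -- the `G` term vanishes
  have z1 : ∀ z, Top p Y (phi p ξ j) z * G z * br p Y z = 0 := by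
    intro z
    by_cases hz : z ∈ NS ξ J σ
    · obtain ⟨k, -, -, -, h2⟩ := hz
      have : z ∉ bjO ξ j := fun hb => by
        have := hb.2.1
        linarith
      rw [Top_phi_out hη hF hξ0 j this]; ring
    · rw [hS.suppG z hz]; ring
  simp_rw [z1]
  rw [integral_zero, neg_zero, sub_zero, neg_neg, ← integral_const_mul]
  -- the `H` term
  have z2 : ∀ z, z ∉ bx ξ j → Pop p Y (phi p ξ j) z * H z * br p Y z = 0 := by
    intro z hz
    by_cases hz2 : z ∈ NS ξ J σ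
    · obtain ⟨k, -, -, h1, h2⟩ := hz2
      have hkj : k ≠ j := fun e => hz (e ▸ ⟨h1, h2⟩)
      have h3 : (1 : ℝ) ≤ |(k : ℝ) - j| := by
        rcases lt_or_gt_of_ne hkj with h | h
        · have : (k : ℝ) + 1 ≤ j := by exact_mod_cast h
          rw [abs_of_nonpos (by linarith)]; linarith
        · have : (j : ℝ) + 1 ≤ k := by exact_mod_cast h
          rw [abs_of_nonneg (by linarith)]; linarith
      have h4 : z ∉ bj ξ j := fun hb => by
        have h5 := hb.1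
        have h6 : |(k : ℝ) - j| ≤ |ξ * z.1 - j| + |ξ * z.1 - k| := by
          have : (k : ℝ) - j = (ξ * z.1 - j) - (ξ * z.1 - k) := by ring
          rw [this]; exact abs_sub _ _
        linarith
      rw [Pop_phi_out hη hF hJ0 hξ0 j h4]; ring
    · rw [hS.suppH z hz2]; ring
  have e3 : ∫ z, Pop p Y (phi p ξ j) z * H z * br p Y z
      = ∫ z in bx ξ j, Pop p Y (phi p ξ j) z * H z * br p Y z :=
    (setIntegral_eq_integral_of_forall_compl_eq_zero fun z hz => z2 z hz).symm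
  rw [e3]
  have hmeas : MeasurableSet (bx ξ j) := by
    have h1 : Continuous (fun z : Pl => |ξ * z.1 - j|) := by fun_prop
    have h2 : Continuous (fun z : Pl => |ξ * z.2|) := by fun_prop
    exact ((isClosed_le h1 continuous_const).inter (isClosed_le h2 continuous_const)).measurableSet
  refine setIntegral_congr_fun hmeas fun z hz => ?_
  have h2 : |ξ * z.2| ≤ 1 / 4 := hz.2
  rw [Pop_phi hF.smp hJ0, zet_one (by linarith), dzet_in (by linarith)]
  ring

theorem lower_loc_of_pair (hpair : PairStmt) : ∃ η C : ℝ, 0 < η ∧ 0 < C ∧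
    ∀ (C1 δ' ξ hh : ℝ) (J : ℕ) (σ : ℕ → ℝ)
    (p Y κ d H G : Pl → ℝ), 1 ≤ C1 → 0 < δ' → δ' ≤ 1 → 16 ≤ ξ → 0 < hh → hh + 1 / ξ ≤ 1 / 16 →
    (J : ℝ) ≤ hh * ξ → (∀ j, σ j = 0 ∨ σ j = 1 ∨ σ j = -1) →
    GoodFrame η δ' p Y κ → Src C1 η ξ J σ p Y κ d H G → ∀ j < J, σ j ≠ 0 →
    1 ≤ C * (∫ z in bjO ξ j, Top p Y d z ^ 2) + C * (δ' ^ 2 * ∫ z in bj ξ j, Pop p Y d z ^ 2) := by
  obtain ⟨η1, c, hη1, hc, hpair⟩ := hpair
  obtain ⟨K1, hK1, hz1⟩ := exists_dzet_bound
  obtain ⟨K2, hK2, hz2⟩ := prof_psi.bound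
  obtain ⟨K3, hK3, hz3⟩ := prof_psi.deriv.bound
  set M : ℝ := K1 * 4 * K2 + K3 + 1 with hMdef
  have hM : 0 < M := by positivity
  refine ⟨min η1 (1 / 100), 128 * M ^ 2 / c ^ 2, by positivity, by positivity, ?_⟩
  intro C1 δ' ξ hh J σ p Y κ d H G hC1 hδ hδ1 hξ hhh hhξ hJ hσ hF hS j hj hσj
  have hξ0 : 0 < ξ := by linarith
  have hη : min η1 (1 / 100) ≤ 1 / 100 := min_le_right _ _
  have hlow := hpair C1 δ' ξ J σ p Y κ d H G hξ hσ (goodFrame_mono (min_le_left _ _) hδ hF)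
    (src_mono (min_le_left _ _) hξ0.le hS) j hj hσj
  rw [tested hη hξ hhξ hJ hF hS hj hσj, abs_neg] at hlow
  have hJ0 : ∀ z, br p Y z ≠ 0 := fun z => by
    have := (VirialUp.frame_pt hη hF z).2.2.2.2.1
    positivity
  have hbr : ∀ z, |br p Y z| ≤ 2 := fun z => by
    have h1 := (VirialUp.frame_pt hη hF z).2.2.2.2
    rw [abs_of_nonneg (by linarith [h1.1])]; exact h1.2
  have cPd : Continuous (Pop p Y d) := (Sm.Pop hF.smp hF.smY hS.smd hJ0).continuous'
  have cTd : Continuous (Top p Y d) := (Sm.Top hF.smp hF.smY hS.smd hJ0).continuous'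
  have hPy : ∀ z, |Pop p Y (fun z => z.2) z| ≤ 4 := fun z => by
    have := VirialUp.Pop_abs_le hη hF (fun z => z.2) z
    rw [dx_snd, dy_snd] at this
    simpa using this
  have hTy : ∀ z, |Top p Y (fun z => z.2) z| ≤ 4 := fun z => by
    have := VirialUp.Top_abs_le hη hF (fun z => z.2) z
    rw [dx_snd, dy_snd] at this
    simpa using this
  have bT : ∀ z, |Top p Y (phi p ξ j) z| ≤ M * ξ := fun z => by
    rw [Top_phi hF.smp, abs_mul, abs_of_pos hξ0, abs_mul, abs_mul, mul_comm M ξ]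
    refine mul_le_mul_of_nonneg_left ?_ hξ0.le
    calc |deriv zet (ξ * z.2)| * |Top p Y (fun z => z.2) z| * |psi (ξ * (p z - pj p ξ j))|
        ≤ K1 * 4 * K2 := by
          refine mul_le_mul (mul_le_mul (hz1 _) (hTy z) (abs_nonneg _) hK1) (hz2 _)
            (abs_nonneg _) (by positivity)
      _ ≤ M := by linarith
  have bP : ∀ z, |Pop p Y (phi p ξ j) z| ≤ M * ξ := fun z => by
    rw [Pop_phi hF.smp hJ0, abs_mul, abs_of_pos hξ0, mul_comm M ξ]
    refine mul_le_mul_of_nonneg_left ?_ hξ0.le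
    refine (abs_add_le _ _).trans ?_
    rw [abs_mul, abs_mul, abs_mul]
    have a1 : |deriv zet (ξ * z.2)| * |Pop p Y (fun z => z.2) z| * |psi (ξ * (p z - pj p ξ j))|
        ≤ K1 * 4 * K2 := by
      refine mul_le_mul (mul_le_mul (hz1 _) (hPy z) (abs_nonneg _) hK1) (hz2 _)
        (abs_nonneg _) (by positivity)
    have a2 : |zet (ξ * z.2)| * |deriv psi (ξ * (p z - pj p ξ j))| ≤ 1 * K3 :=
      mul_le_mul (zet_abs_le _) (hz3 _) (abs_nonneg _) (by norm_num)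
    linarith
  have E1 := est (M := M * ξ * 2) (w := fun z => Top p Y (phi p ξ j) z * br p Y z) hξ0 j
    (bjO_subset_bj ξ j) (measurableSet_bjO ξ j)
    (by positivity) cTd
    (fun z hz => by rw [Top_phi_out hη hF hξ0 j hz, zero_mul])
    (fun z _ => by
      rw [abs_mul]
      exact mul_le_mul (bT z) (hbr z) (abs_nonneg _) (by positivity))
  have E2 := est (M := 2 * δ' * (M * ξ) * 2)
    (w := fun z => κ z * Pop p Y (phi p ξ j) z * br p Y z) hξ0 j
    (subset_refl _) (measurableSet_bj ξ j)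
    (by positivity) cPd
    (fun z hz => by rw [Pop_phi_out hη hF hJ0 hξ0 j hz, mul_zero, zero_mul])
    (fun z hz => by
      rw [abs_mul, abs_mul]
      obtain ⟨l1, l2⟩ := bj_loc hξ hhξ hJ hj hz
      have hk := kap_small hη hδ hF.ck l1 l2
      exact mul_le_mul (mul_le_mul hk (bP z) (abs_nonneg _) (by positivity)) (hbr z)
        (abs_nonneg _) (by positivity))
  set A := ∫ z in bjO ξ j, Top p Y d z ^ 2 with hA
  set B := ∫ z in bj ξ j, Pop p Y d z ^ 2 with hB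
  have hA0 : 0 ≤ A := integral_nonneg fun z => sq_nonneg _
  have hB0 : 0 ≤ B := integral_nonneg fun z => sq_nonneg _
  have E1' : |∫ z, (Top p Y (phi p ξ j) z * br p Y z) * Top p Y d z| ≤ 4 * M * Real.sqrt A := by
    refine E1.trans (le_of_eq ?_)
    field_simp; ring
  have E2' : |∫ z, (κ z * Pop p Y (phi p ξ j) z * br p Y z) * Pop p Y d z|
      ≤ 8 * M * (δ' * Real.sqrt B) := by
    refine E2.trans (le_of_eq ?_)
    field_simp; ring
  have hfin : c ≤ 4 * M * Real.sqrt A + 8 * M * (δ' * Real.sqrt B) :=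
    (hlow.trans (abs_add_le _ _)).trans (add_le_add E1' E2')
  have s1 : Real.sqrt A ^ 2 = A := Real.sq_sqrt hA0
  have s2 : Real.sqrt B ^ 2 = B := Real.sq_sqrt hB0
  have hsq : c ^ 2 ≤ (4 * M * Real.sqrt A + 8 * M * (δ' * Real.sqrt B)) ^ 2 := by
    gcongr
  have hsq2 : (4 * M * Real.sqrt A + 8 * M * (δ' * Real.sqrt B)) ^ 2
      ≤ 128 * M ^ 2 * (A + δ' ^ 2 * B) := by
    have key : ∀ x y : ℝ, (4 * M * x + 8 * M * y) ^ 2 ≤ 128 * M ^ 2 * (x ^ 2 + y ^ 2) := by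
      intro x y
      nlinarith [sq_nonneg (4 * M * x - 8 * M * y), sq_nonneg (M * x)]
    have h := key (Real.sqrt A) (δ' * Real.sqrt B)
    rwa [mul_pow δ', s1, s2] at h
  have hfin2 : c ^ 2 ≤ 128 * M ^ 2 * (A + δ' ^ 2 * B) := hsq.trans hsq2
  have : 128 * M ^ 2 / c ^ 2 * A + 128 * M ^ 2 / c ^ 2 * (δ' ^ 2 * B)
      = 128 * M ^ 2 * (A + δ' ^ 2 * B) / c ^ 2 := by ring
  rw [this, le_div_iff₀ (by positivity), one_mul]
  exact hfin2

end Crest.Agent.R220.Lower
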