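import Crest.Agent.R220.Defs
import Crest.Agent.R220.Metric

/-!
# Row 220: `lower`, the model integral over one box
-/

set_option autoImplicit false

open scoped ContDiff Topology
open MeasureTheory Set

namespace Crest.Agent.R220.Lower

lemma model_dpsi_zero {t : ℝ} (ht : 1 / 4 < |t|) : deriv psi t = 0 := by
  have h : psi =ᶠ[𝓝 t] fun _ => 0 := by
    have : {s : ℝ | 1 / 4 < |s|} ∈ 𝓝 t :=
      (isOpen_lt continuous_const continuous_abs).mem_nhds ht
    filter_upwards [this] with s hs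
    exact MetCut.psi_zero (le_of_lt hs)
  rw [h.deriv_eq, deriv_const]

lemma model_continuous_dpsi : Continuous (deriv psi) :=
  (MetCut.contDiff_psi.continuous_deriv (by simp))

lemma model_dpsi_pos : 0 < ∫ t : ℝ, deriv psi t ^ 2 := by
  have hc : Continuous (fun t : ℝ => deriv psi t ^ 2) := model_continuous_dpsi.pow 2
  have hs : HasCompactSupport (fun t : ℝ => deriv psi t ^ 2) := by
    refine HasCompactSupport.intro (K := Icc (-(1 / 4)) (1 / 4)) isCompact_Icc (fun t ht => ?_)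
    have : 1 / 4 < |t| := by
      by_contra hcon
      exact ht (abs_le.1 (not_lt.1 hcon))
    simp [model_dpsi_zero this]
  have hne : ∃ t, deriv psi t ≠ 0 := by
    by_contra hcon
    push Not at hcon
    have hd : Differentiable ℝ psi := MetCut.contDiff_psi.differentiable (by simp)
    have := is_const_of_deriv_eq_zero hd hcon 0 1
    have h1 : psi 1 = 0 := MetCut.psi_zero (by norm_num)
    have h0 : psi 0 = 1 := psiBump.one_of_mem_closedBall (by
      simp only [Metric.mem_closedBall, dist_self]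
      exact psiBump.rIn_pos.le)
    rw [h1, h0] at this
    exact one_ne_zero this
  obtain ⟨t, ht⟩ := hne
  exact hc.integral_pos_of_hasCompactSupport_nonneg_nonzero hs (fun t => sq_nonneg _)
    (x := t) (pow_ne_zero 2 ht)

/-- the model pairing over one box -/
theorem model_integral : ∃ A : ℝ, 0 < A ∧ ∀ (ξ : ℝ) (j : ℕ), 0 < ξ →
    ∫ z in bx ξ j, deriv psi (ξ * z.1 - j) ^ 2 * psi (ξ * z.2) = A / ξ ^ 2 := by
  refine ⟨(∫ t : ℝ, deriv psi t ^ 2) * ∫ t : ℝ, psi t, mul_pos model_dpsi_pos ?_, ?_⟩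
  · exact psiBump.integral_pos
  intro ξ j hξ
  have h1 : ∫ z in bx ξ j, deriv psi (ξ * z.1 - j) ^ 2 * psi (ξ * z.2) =
      ∫ z : Pl, deriv psi (ξ * z.1 - j) ^ 2 * psi (ξ * z.2) := by
    refine setIntegral_eq_integral_of_forall_compl_eq_zero (fun z hz => ?_)
    by_cases hx : 1 / 4 < |ξ * z.1 - j|
    · rw [model_dpsi_zero hx]; ring
    · have hy : 1 / 4 < |ξ * z.2| := by
        by_contra hcon
        exact hz ⟨not_lt.1 hx, not_lt.1 hcon⟩
      rw [MetCut.psi_zero hy.le, mul_zero]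
  rw [h1]
  have h2 : ∫ z : Pl, deriv psi (ξ * z.1 - j) ^ 2 * psi (ξ * z.2) =
      (∫ x : ℝ, deriv psi (ξ * x - j) ^ 2) * ∫ y : ℝ, psi (ξ * y) :=
    integral_prod_mul (μ := (volume : Measure ℝ)) (ν := (volume : Measure ℝ))
      (fun x : ℝ => deriv psi (ξ * x - j) ^ 2) (fun y : ℝ => psi (ξ * y))
  rw [h2]
  have h3 : ∫ x : ℝ, deriv psi (ξ * x - j) ^ 2 = ξ⁻¹ * ∫ t : ℝ, deriv psi t ^ 2 := by
    have a := Measure.integral_comp_mul_left (fun x : ℝ => deriv psi (x - j) ^ 2) ξ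
    have b : ∫ x : ℝ, deriv psi (x - j) ^ 2 = ∫ t : ℝ, deriv psi t ^ 2 :=
      integral_sub_right_eq_self (fun t : ℝ => deriv psi t ^ 2) (j : ℝ)
    rw [a, b, abs_of_pos (inv_pos.2 hξ), smul_eq_mul]
  have h4 : ∫ y : ℝ, psi (ξ * y) = ξ⁻¹ * ∫ t : ℝ, psi t := by
    rw [Measure.integral_comp_mul_left (fun x : ℝ => psi x) ξ, abs_of_pos (inv_pos.2 hξ),
      smul_eq_mul]
  rw [h3, h4]
  field_simp

end Crest.Agent.R220.Lower
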