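import Crest.Agent.R220.PatBd

/-!
# Row 220: the active set `NS`: location, area, Cauchy-Schwarz on it
-/

set_option autoImplicit false

open scoped ContDiff Topology
open MeasureTheory Set

namespace Crest.Agent.R220

/-- points of the active set are close to the origin -/
theorem NS_abs_fst {ξ hh : ℝ} {J : ℕ} {σ : ℕ → ℝ} (hξ : 0 < ξ) (hJ : (J : ℝ) ≤ hh * ξ) {z : Pl}
    (hz : z ∈ NS ξ J σ) : |z.1| ≤ hh := by
  obtain ⟨j, hj, -, h1, -⟩ := hz
  have hj' : (j : ℝ) + 1 ≤ J := by exact_mod_cast hj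
  have hj0 : (0 : ℝ) ≤ j := Nat.cast_nonneg _
  rw [abs_le] at h1
  have h2 : |ξ * z.1| ≤ hh * ξ := by
    rw [abs_le]; constructor <;> linarith [h1.1, h1.2]
  rw [abs_mul, abs_of_pos hξ, mul_comm] at h2
  exact le_of_mul_le_mul_right h2 hξ

theorem NS_abs_snd {ξ : ℝ} {J : ℕ} {σ : ℕ → ℝ} (hξ : 0 < ξ) {z : Pl}
    (hz : z ∈ NS ξ J σ) : |z.2| ≤ 1 / (4 * ξ) := by
  obtain ⟨j, -, -, -, h2⟩ := hz
  rw [abs_mul, abs_of_pos hξ] at h2
  rw [le_div_iff₀ (by positivity)]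
  linarith

theorem NS_subset_layN {ξ hh : ℝ} {J : ℕ} {σ : ℕ → ℝ} (hξ : 0 < ξ) (hJ : (J : ℝ) ≤ hh * ξ)
    (hh8 : hh ≤ 1 / 8) : NS ξ J σ ⊆ layN ξ := fun z hz => by
  refine ⟨(NS_abs_fst hξ hJ hz).trans hh8, (NS_abs_snd hξ hz).trans ?_⟩
  rw [div_le_div_iff₀ (by positivity) hξ]
  nlinarith

theorem measurableSet_NS (ξ : ℝ) (J : ℕ) (σ : ℕ → ℝ) : MeasurableSet (NS ξ J σ) :=
  (isClosed_NS ξ J σ).measurableSet

theorem isClosed_layN (ξ : ℝ) : IsClosed (layN ξ) :=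
  (isClosed_le (continuous_fst.abs) continuous_const).inter
    (isClosed_le (continuous_snd.abs) continuous_const)

theorem isCompact_layN (ξ : ℝ) : IsCompact (layN ξ) := by
  have h : layN ξ ⊆ Icc (-(1/8)) (1/8) ×ˢ Icc (-(2/ξ)) (2/ξ) := fun z hz =>
    ⟨abs_le.1 hz.1, abs_le.1 hz.2⟩
  exact (isCompact_Icc.prod isCompact_Icc).of_isClosed_subset (isClosed_layN ξ) h

theorem nact_nonneg (J : ℕ) (σ : ℕ → ℝ) : 0 ≤ nact J σ := by
  unfold nact; positivity

theorem volume_bx {ξ : ℝ} (hξ : 0 < ξ) (j : ℕ) :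
    volume (bx ξ j) = ENNReal.ofReal (1 / (4 * ξ ^ 2)) := by
  have e : bx ξ j = Icc ((j - 1 / 4) / ξ) ((j + 1 / 4) / ξ) ×ˢ Icc (-(1 / (4 * ξ))) (1 / (4 * ξ)) := by
    ext z
    have h4 : (0:ℝ) < 4 * ξ := by positivity
    have e1 : (j - 1 / 4) / ξ ≤ z.1 ↔ (j:ℝ) - 1 / 4 ≤ z.1 * ξ := div_le_iff₀ hξ
    have e2 : z.1 ≤ (j + 1 / 4) / ξ ↔ z.1 * ξ ≤ (j:ℝ) + 1 / 4 := le_div_iff₀ hξ
    have e3 : -(1 / (4 * ξ)) ≤ z.2 ↔ -1 ≤ z.2 * (4 * ξ) := by
      rw [← neg_div, div_le_iff₀ h4]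
    have e4 : z.2 ≤ 1 / (4 * ξ) ↔ z.2 * (4 * ξ) ≤ 1 := le_div_iff₀ h4
    simp only [bx, mem_ofPred_eq, abs_le, mem_prod, mem_Icc, e1, e2, e3, e4]
    constructor
    · rintro ⟨⟨a, b⟩, c, d⟩
      refine ⟨⟨?_, ?_⟩, ?_, ?_⟩ <;> linarith
    · rintro ⟨⟨a, b⟩, c, d⟩
      refine ⟨⟨?_, ?_⟩, ?_, ?_⟩ <;> linarith
  rw [e, Measure.volume_eq_prod, Measure.prod_prod, Real.volume_Icc, Real.volume_Icc,
    ← ENNReal.ofReal_mul]
  · congr 1
    field_simp
    ring
  · have : (j - 1 / 4) / ξ ≤ (j + 1 / 4) / ξ := by gcongr; linarith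
    linarith

/-- area of the active set -/
theorem volume_NS_le {ξ : ℝ} (hξ : 0 < ξ) (J : ℕ) (σ : ℕ → ℝ) :
    (volume (NS ξ J σ)).toReal ≤ nact J σ / (4 * ξ ^ 2) := by
  classical
  have e : NS ξ J σ = ⋃ j ∈ (Finset.range J).filter (fun j => σ j ≠ 0), bx ξ j := by
    ext z
    simp [NS, Finset.mem_filter, and_assoc]
  have h1 : volume (NS ξ J σ) ≤
      ∑ j ∈ (Finset.range J).filter (fun j => σ j ≠ 0), volume (bx ξ j) := by
    rw [e]; exact measure_biUnion_finset_le _ _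
  simp only [volume_bx hξ, Finset.sum_const, nsmul_eq_mul] at h1
  have h2 := ENNReal.toReal_mono (by
    exact ENNReal.mul_ne_top (ENNReal.natCast_ne_top _) ENNReal.ofReal_ne_top) h1
  rw [ENNReal.toReal_mul, ENNReal.toReal_natCast, ENNReal.toReal_ofReal (by positivity)] at h2
  refine h2.trans (le_of_eq ?_)
  have : nact J σ = (((Finset.range J).filter (fun j => σ j ≠ 0)).card : ℝ) := by
    unfold nact
    congr!
  rw [this]; ring

theorem volume_NS_lt_top (ξ : ℝ) (hξ : 0 < ξ) (J : ℕ) (σ : ℕ → ℝ) : volume (NS ξ J σ) < ⊤ := by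
  classical
  have e : NS ξ J σ = ⋃ j ∈ (Finset.range J).filter (fun j => σ j ≠ 0), bx ξ j := by
    ext z
    simp [NS, Finset.mem_filter, and_assoc]
  rw [e]
  refine (measure_biUnion_finset_le _ _).trans_lt ?_
  refine ENNReal.sum_lt_top.2 fun j _ => ?_
  rw [volume_bx hξ]; exact ENNReal.ofReal_lt_top

/-- Cauchy-Schwarz against the constant function -/
theorem integral_abs_le_sqrt {S : Set Pl} (hS : volume S < ⊤) {f : Pl → ℝ}
    (hf : IntegrableOn f S) (hf2 : IntegrableOn (fun z => f z ^ 2) S) :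
    ∫ z in S, |f z| ≤ Real.sqrt (volume S).toReal * Real.sqrt (∫ z in S, f z ^ 2) := by
  set A := ∫ z in S, |f z| with hA
  set B := ∫ z in S, f z ^ 2 with hB
  set m := (volume S).toReal with hm
  have hA0 : 0 ≤ A := integral_nonneg fun z => abs_nonneg _
  have hB0 : 0 ≤ B := integral_nonneg fun z => sq_nonneg _
  have hm0 : 0 ≤ m := ENNReal.toReal_nonneg
  have key : ∀ l : ℝ, 0 ≤ B - 2 * l * A + l ^ 2 * m := by
    intro l
    have h0 : 0 ≤ ∫ z in S, (|f z| - l) ^ 2 := integral_nonneg fun z => sq_nonneg _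
    have e : ∀ z, (|f z| - l) ^ 2 = f z ^ 2 - 2 * l * |f z| + l ^ 2 := by
      intro z
      rw [sub_sq, sq_abs]; ring
    simp_rw [e] at h0
    have i0 : IntegrableOn (fun _ : Pl => l ^ 2) S := integrableOn_const hS.ne
    have i1 : IntegrableOn (fun z => 2 * l * |f z|) S := hf.abs.const_mul _
    have i2 : IntegrableOn (fun z => f z ^ 2 - 2 * l * |f z|) S := hf2.sub i1
    rw [integral_add i2 i0, integral_sub hf2 i1, integral_const_mul] at h0
    simp only [integral_const, MeasurableSet.univ, measureReal_restrict_apply, univ_inter,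
      smul_eq_mul] at h0
    have : volume.real S = m := rfl
    rw [this] at h0
    linarith
  rw [← Real.sqrt_mul hm0]
  apply Real.le_sqrt_of_sq_le
  rcases hm0.eq_or_lt with h | h
  · -- m = 0
    have hA00 : A = 0 := by
      by_contra hne
      have hpos : 0 < A := lt_of_le_of_ne hA0 (Ne.symm hne)
      have := key ((B + 1) / A)
      rw [← h] at this
      have e : 2 * ((B + 1) / A) * A = 2 * (B + 1) := by field_simp
      rw [e] at this
      linarith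
    rw [hA00, ← h]; simp
  · have := key (A / m)
    have e : B - 2 * (A / m) * A + (A / m) ^ 2 * m = B - A ^ 2 / m := by field_simp; ring
    rw [e] at this
    have h2 : A ^ 2 / m ≤ B := by linarith
    rw [div_le_iff₀ h] at h2
    linarith

/-- the form used in the estimates: integrals over the active set -/
theorem integral_NS_le {ξ hh : ℝ} {J : ℕ} {σ : ℕ → ℝ} (hξ : 0 < ξ) (hJ : (J : ℝ) ≤ hh * ξ)
    (hh8 : hh ≤ 1 / 8) {f : Pl → ℝ} (hf : Continuous f) :
    ∫ z in NS ξ J σ, |f z| ≤ Real.sqrt (nact J σ) / (2 * ξ) *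
      Real.sqrt (∫ z in layN ξ, f z ^ 2) := by
  have hsub := NS_subset_layN (σ := σ) hξ hJ hh8
  have c1 : IntegrableOn f (layN ξ) := hf.continuousOn.integrableOn_compact (isCompact_layN ξ)
  have c2 : IntegrableOn (fun z => f z ^ 2) (layN ξ) :=
    (hf.pow 2).continuousOn.integrableOn_compact (isCompact_layN ξ)
  have h1 := integral_abs_le_sqrt (volume_NS_lt_top ξ hξ J σ) (c1.mono_set hsub) (c2.mono_set hsub)
  refine h1.trans ?_
  apply mul_le_mul
  · have h2 := Real.sqrt_le_sqrt (volume_NS_le hξ J σ)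
    refine h2.trans (le_of_eq ?_)
    rw [Real.sqrt_div (nact_nonneg J σ)]
    congr 1
    rw [show 4 * ξ ^ 2 = (2 * ξ) ^ 2 by ring, Real.sqrt_sq (by positivity)]
  · apply Real.sqrt_le_sqrt
    exact setIntegral_mono_set c2 (Filter.Eventually.of_forall fun z => sq_nonneg _)
      hsub.eventuallyLE
  · exact Real.sqrt_nonneg _
  · positivity

end Crest.Agent.R220
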