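import Crest.Agent.R220.Bd

/-!
# Row 220: weighted bounds for the bump patterns (uniform in the number of bumps)
-/

set_option autoImplicit false

open scoped ContDiff Topology

namespace Crest.Agent.R220

/-- general pattern `∑ σ_j g(ξx - j) h(ξy)` -/
noncomputable def gpat (g h : ℝ → ℝ) (ξ : ℝ) (J : ℕ) (σ : ℕ → ℝ) (z : Pl) : ℝ :=
  ∑ j ∈ Finset.range J, σ j * (g (ξ * z.1 - j) * h (ξ * z.2))

/-- profile functions: smooth, vanishing outside `[-1/4,1/4]` -/
structure Prof (g : ℝ → ℝ) : Prop where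
  sm : ContDiff ℝ ∞ g
  supp : ∀ t, 1 / 4 < |t| → g t = 0

theorem Prof.deriv {g : ℝ → ℝ} (h : Prof g) : Prof (deriv g) := by
  refine ⟨?_, fun t ht => ?_⟩
  · have := h.sm.iterate_deriv 1
    simpa using this
  · have hopen : IsOpen {t : ℝ | 1 / 4 < |t|} := isOpen_lt continuous_const continuous_abs
    have : g =ᶠ[𝓝 t] fun _ => 0 := by
      filter_upwards [hopen.mem_nhds ht] with s hs
      exact h.supp s hs
    rw [this.deriv_eq]
    simp

theorem Prof.bound {g : ℝ → ℝ} (h : Prof g) : ∃ K : ℝ, 0 ≤ K ∧ ∀ t, |g t| ≤ K := by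
  have hc : HasCompactSupport g := by
    apply HasCompactSupport.of_support_subset_isCompact (isCompact_Icc (a := (-1 / 4 : ℝ)) (b := 1 / 4))
    intro t ht
    by_contra hn
    apply ht
    apply h.supp
    rw [Set.mem_Icc, not_and_or] at hn
    rcases hn with hn | hn
    · rw [lt_abs]; right; linarith
    · rw [lt_abs]; left; linarith
  obtain ⟨C, hC⟩ := hc.exists_bound_of_continuous h.sm.continuous
  exact ⟨C, (norm_nonneg _).trans (hC 0), fun t => by simpa using hC t⟩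

theorem prof_psi : Prof psi := by
  refine ⟨psiBump.contDiff, fun t ht => ?_⟩
  apply psiBump.zero_of_le_dist
  have : psiBump.rOut = 1 / 4 := rfl
  rw [this, Real.dist_eq, sub_zero]
  exact ht.le

theorem pat_eq_gpat (ξ : ℝ) (J : ℕ) (σ : ℕ → ℝ) : pat ξ J σ = gpat psi psi ξ J σ := rfl

theorem gpat_smooth {g h : ℝ → ℝ} (hg : Prof g) (hh : Prof h) (ξ : ℝ) (J : ℕ) (σ : ℕ → ℝ) :
    Sm (gpat g h ξ J σ) := by
  apply Sm.sum'
  intro j _
  apply (Sm.const _).mul'
  apply Sm.mul'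
  · exact Sm.comp' (f := fun z => ξ * z.1 - j) hg.sm (((Sm.const ξ).mul' Sm.fst).sub' (Sm.const _))
  · exact Sm.comp' (f := fun z => ξ * z.2) hh.sm ((Sm.const ξ).mul' Sm.snd)

/-- at most one term of the pattern is active -/
theorem gpat_bound {g h : ℝ → ℝ} (hg : Prof g) {Kg Kh : ℝ} (bg : ∀ t, |g t| ≤ Kg)
    (bh : ∀ t, |h t| ≤ Kh) (ξ : ℝ) (J : ℕ) (σ : ℕ → ℝ) (hσ : ∀ j, |σ j| ≤ 1) (z : Pl) :
    |gpat g h ξ J σ z| ≤ Kg * Kh := by
  have hKg : 0 ≤ Kg := (abs_nonneg _).trans (bg 0)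
  have hKh : 0 ≤ Kh := (abs_nonneg _).trans (bh 0)
  unfold gpat
  by_cases hex : ∃ i ∈ Finset.range J, g (ξ * z.1 - i) ≠ 0
  · obtain ⟨i, hi, hgi⟩ := hex
    have hi' : |ξ * z.1 - i| ≤ 1 / 4 := by
      by_contra hn
      exact hgi (hg.supp _ (not_le.1 hn))
    rw [Finset.sum_eq_single i]
    · rw [abs_mul, abs_mul]
      calc |σ i| * (|g (ξ * z.1 - i)| * |h (ξ * z.2)|) ≤ 1 * (Kg * Kh) := by
            apply mul_le_mul (hσ i) _ (by positivity) zero_le_one
            exact mul_le_mul (bg _) (bh _) (abs_nonneg _) hKg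
        _ = Kg * Kh := one_mul _
    · intro j _ hji
      have : g (ξ * z.1 - j) = 0 := by
        apply hg.supp
        have h1 : (1 : ℝ) ≤ |(i : ℝ) - j| := by
          have : (1 : ℤ) ≤ |(i : ℤ) - j| := by
            apply Int.one_le_abs
            intro h0
            apply hji
            omega
          exact_mod_cast this
        have h2 : |(i : ℝ) - j| ≤ |ξ * z.1 - j| + |ξ * z.1 - i| := by
          have : (i : ℝ) - j = (ξ * z.1 - j) - (ξ * z.1 - i) := by ring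
          rw [this]
          exact abs_sub _ _
        linarith
      rw [this]; ring
    · intro h; exact absurd hi h
  · simp only [not_exists, not_and, not_not] at hex
    rw [Finset.sum_eq_zero]
    · simpa using mul_nonneg hKg hKh
    · intro i hi
      rw [hex i hi]; ring

theorem gpat_dx {g h : ℝ → ℝ} (hg : Prof g) (hh : Prof h) (ξ : ℝ) (J : ℕ) (σ : ℕ → ℝ) :
    dx (gpat g h ξ J σ) = fun z => ξ * gpat (deriv g) h ξ J σ z := by
  have hsm : ∀ j ∈ Finset.range J, Sm (fun z : Pl => σ j * (g (ξ * z.1 - j) * h (ξ * z.2))) := by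
    intro j _
    apply (Sm.const _).mul'
    apply Sm.mul'
    · exact Sm.comp' (f := fun z => ξ * z.1 - j) hg.sm (((Sm.const ξ).mul' Sm.fst).sub' (Sm.const _))
    · exact Sm.comp' (f := fun z => ξ * z.2) hh.sm ((Sm.const ξ).mul' Sm.snd)
  have e : gpat g h ξ J σ = fun z => ∑ j ∈ Finset.range J, σ j * (g (ξ * z.1 - j) * h (ξ * z.2)) :=
    rfl
  rw [e, dx_sum hsm]
  funext z
  simp only [gpat]
  rw [Finset.mul_sum]
  apply Finset.sum_congr rfl
  intro j _
  have h1 : Sm (fun z : Pl => ξ * z.1 - j) := ((Sm.const ξ).mul' Sm.fst).sub' (Sm.const _)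
  have h2 : Sm (fun z : Pl => ξ * z.2) := (Sm.const ξ).mul' Sm.snd
  have g1 : Sm (fun z : Pl => g (ξ * z.1 - j)) := Sm.comp' hg.sm h1
  have g2 : Sm (fun z : Pl => h (ξ * z.2)) := Sm.comp' hh.sm h2
  rw [dx_const_mul_at _ (g1.mul' g2).differentiableAt,
    dx_mul_at g1.differentiableAt g2.differentiableAt,
    dx_comp_at (hg.sm.differentiable (by norm_num) _) h1.differentiableAt,
    dx_comp_at (hh.sm.differentiable (by norm_num) _) h2.differentiableAt,
    dx_sub_at ((Sm.const ξ).mul' Sm.fst).differentiableAt (Sm.const _).differentiableAt,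
    dx_const_mul_at _ Sm.fst.differentiableAt, dx_const_mul_at _ Sm.snd.differentiableAt,
    dx_fst, dx_snd, dx_const]
  ring

theorem gpat_dy {g h : ℝ → ℝ} (hg : Prof g) (hh : Prof h) (ξ : ℝ) (J : ℕ) (σ : ℕ → ℝ) :
    dy (gpat g h ξ J σ) = fun z => ξ * gpat g (deriv h) ξ J σ z := by
  have hsm : ∀ j ∈ Finset.range J, Sm (fun z : Pl => σ j * (g (ξ * z.1 - j) * h (ξ * z.2))) := by
    intro j _
    apply (Sm.const _).mul'
    apply Sm.mul'
    · exact Sm.comp' (f := fun z => ξ * z.1 - j) hg.sm (((Sm.const ξ).mul' Sm.fst).sub' (Sm.const _))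
    · exact Sm.comp' (f := fun z => ξ * z.2) hh.sm ((Sm.const ξ).mul' Sm.snd)
  have e : gpat g h ξ J σ = fun z => ∑ j ∈ Finset.range J, σ j * (g (ξ * z.1 - j) * h (ξ * z.2)) :=
    rfl
  rw [e, dy_sum hsm]
  funext z
  simp only [gpat]
  rw [Finset.mul_sum]
  apply Finset.sum_congr rfl
  intro j _
  have h1 : Sm (fun z : Pl => ξ * z.1 - j) := ((Sm.const ξ).mul' Sm.fst).sub' (Sm.const _)
  have h2 : Sm (fun z : Pl => ξ * z.2) := (Sm.const ξ).mul' Sm.snd
  have g1 : Sm (fun z : Pl => g (ξ * z.1 - j)) := Sm.comp' hg.sm h1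
  have g2 : Sm (fun z : Pl => h (ξ * z.2)) := Sm.comp' hh.sm h2
  rw [dy_const_mul_at _ (g1.mul' g2).differentiableAt,
    dy_mul_at g1.differentiableAt g2.differentiableAt,
    dy_comp_at (hg.sm.differentiable (by norm_num) _) h1.differentiableAt,
    dy_comp_at (hh.sm.differentiable (by norm_num) _) h2.differentiableAt,
    dy_sub_at ((Sm.const ξ).mul' Sm.fst).differentiableAt (Sm.const _).differentiableAt,
    dy_const_mul_at _ Sm.fst.differentiableAt, dy_const_mul_at _ Sm.snd.differentiableAt,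
    dy_fst, dy_snd, dy_const]
  ring

theorem gpat_Bd : ∀ (k : ℕ) (g h : ℝ → ℝ), Prof g → Prof h →
    ∃ K : ℝ, ∀ (ξ : ℝ) (J : ℕ) (σ : ℕ → ℝ), 1 ≤ ξ → (∀ j, |σ j| ≤ 1) →
      Bd ξ k K (gpat g h ξ J σ) := by
  intro k
  induction k with
  | zero =>
    intro g h hg hh
    obtain ⟨Kg, hKg, bg⟩ := hg.bound
    obtain ⟨Kh, hKh, bh⟩ := hh.bound
    refine ⟨Kg * Kh, fun ξ J σ hξ hσ => ⟨gpat_smooth hg hh ξ J σ, fun w hw z => ?_⟩⟩
    have : w = [] := List.length_eq_zero_iff.1 (Nat.le_zero.1 hw)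
    subst this
    simpa [Dw] using gpat_bound hg bg bh ξ J σ hσ z
  | succ k ih =>
    intro g h hg hh
    obtain ⟨Kg, hKg, bg⟩ := hg.bound
    obtain ⟨Kh, hKh, bh⟩ := hh.bound
    obtain ⟨K1, h1⟩ := ih _ _ hg.deriv hh
    obtain ⟨K2, h2⟩ := ih _ _ hg hh.deriv
    refine ⟨max (Kg * Kh) (max K1 K2), fun ξ J σ hξ hσ => ?_⟩
    have hξ0 : 0 ≤ ξ := by linarith
    refine Bd.succ_of (gpat_smooth hg hh ξ J σ) ?_ ?_ ?_
    · intro z
      exact (gpat_bound hg bg bh ξ J σ hσ z).trans (le_max_left _ _)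
    · refine (((h1 ξ J σ hξ hσ).const_mul ξ).congr (gpat_dx hg hh ξ J σ).symm).mono hξ le_rfl ?_
      rw [abs_of_nonneg hξ0, mul_comm]
      exact mul_le_mul_of_nonneg_right ((le_max_left _ _).trans (le_max_right _ _)) hξ0
    · refine (((h2 ξ J σ hξ hσ).const_mul ξ).congr (gpat_dy hg hh ξ J σ).symm).mono hξ le_rfl ?_
      rw [abs_of_nonneg hξ0, mul_comm]
      exact mul_le_mul_of_nonneg_right ((le_max_right _ _).trans (le_max_right _ _)) hξ0

/-- the patterns are bounded in weighted `C^k`, uniformly in `J` -/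
theorem pat_Bd (k : ℕ) : ∃ K : ℝ, ∀ (ξ : ℝ) (J : ℕ) (σ : ℕ → ℝ), 1 ≤ ξ → (∀ j, |σ j| ≤ 1) →
    Bd ξ k K (pat ξ J σ) :=
  gpat_Bd k psi psi prof_psi prof_psi

theorem gpat_NS {g h : ℝ → ℝ} (hg : Prof g) (hh : Prof h) (ξ : ℝ) (J : ℕ) (σ : ℕ → ℝ) (z : Pl)
    (hz : z ∉ NS ξ J σ) : gpat g h ξ J σ z = 0 := by
  unfold gpat
  apply Finset.sum_eq_zero
  intro j hj
  by_cases hσ : σ j = 0
  · rw [hσ, zero_mul]
  by_cases h1 : |ξ * z.1 - j| ≤ 1 / 4
  · by_cases h2 : |ξ * z.2| ≤ 1 / 4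
    · exact absurd ⟨j, Finset.mem_range.1 hj, hσ, h1, h2⟩ hz
    · rw [hh.supp _ (not_le.1 h2)]; ring
  · rw [hg.supp _ (not_le.1 h1)]; ring

theorem isClosed_NS (ξ : ℝ) (J : ℕ) (σ : ℕ → ℝ) : IsClosed (NS ξ J σ) := by
  classical
  have : NS ξ J σ = ⋃ j ∈ (Finset.range J).filter (fun j => σ j ≠ 0), bx ξ j := by
    ext z
    simp [NS, Finset.mem_filter, and_assoc]
  rw [this]
  apply Set.Finite.isClosed_biUnion (Finset.finite_toSet _)
  intro j _
  have h1 : Continuous (fun z : Pl => |ξ * z.1 - j|) := by fun_prop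
  have h2 : Continuous (fun z : Pl => |ξ * z.2|) := by fun_prop
  exact (isClosed_le h1 continuous_const).inter (isClosed_le h2 continuous_const)

/-- a property of germs: `f` vanishes near every point outside the boxes -/
theorem pat_eventually_zero (ξ : ℝ) (J : ℕ) (σ : ℕ → ℝ) (z : Pl) (hz : z ∉ NS ξ J σ) :
    pat ξ J σ =ᶠ[𝓝 z] fun _ => 0 := by
  filter_upwards [(isClosed_NS ξ J σ).isOpen_compl.mem_nhds hz] with w hw
  exact gpat_NS prof_psi prof_psi ξ J σ w hw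

end Crest.Agent.R220
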