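import Crest.Agent.R220.VirialUp
import Crest.Agent.R220.Layer
import Crest.Agent.R220.Lower

set_option autoImplicit false

open scoped ContDiff
open MeasureTheory

namespace Crest.Agent.R220

namespace PdeCore

lemma en_nonneg {δ' : ℝ} (hδ : 0 < δ') (p Y d : Pl → ℝ) (z : Pl) : 0 ≤ en δ' p Y d z := by
  unfold en
  have := sq_nonneg (Top p Y d z)
  have := mul_nonneg hδ.le (sq_nonneg (Pop p Y d z))
  linarith

lemma arith1 (C C1 E t s ξ : ℝ) (hξ : 0 < ξ)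
    (h2 : ξ * t ^ 2 ≤ C * E + C * (C1 * ξ * s * t)) :
    t ^ 2 ≤ 2 * C * (E / ξ) + C ^ 2 * C1 ^ 2 * s ^ 2 := by
  have hk : C * (C1 * s * t) ≤ t ^ 2 / 2 + C ^ 2 * C1 ^ 2 * s ^ 2 / 2 := by
    have := sq_nonneg (t - C * C1 * s)
    have e : (t - C * C1 * s) ^ 2 = t ^ 2 - 2 * (C * (C1 * s * t)) + C ^ 2 * C1 ^ 2 * s ^ 2 := by
      ring
    linarith
  have : ξ * t ^ 2 ≤ ξ * (C * (E / ξ) + (t ^ 2 / 2 + C ^ 2 * C1 ^ 2 * s ^ 2 / 2)) := by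
    calc ξ * t ^ 2 ≤ C * E + C * (C1 * ξ * s * t) := h2
      _ = C * E + ξ * (C * (C1 * s * t)) := by ring
      _ ≤ C * E + ξ * (t ^ 2 / 2 + C ^ 2 * C1 ^ 2 * s ^ 2 / 2) := by
          have := mul_le_mul_of_nonneg_left hk hξ.le
          linarith
      _ = ξ * (C * (E / ξ) + (t ^ 2 / 2 + C ^ 2 * C1 ^ 2 * s ^ 2 / 2)) := by field_simp
  have h := le_of_mul_le_mul_left this hξ
  linarith

lemma arith2 (C C1 q eO s t g : ℝ) (hC : 1 ≤ C) (hC1 : 1 ≤ C1) (hq : 0 ≤ q)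
    (hg : g ^ 2 ≤ 1 / (2 * C ^ 3 * C1 ^ 2)) (hg1 : g ^ 2 ≤ 1)
    (h2 : t ^ 2 ≤ 2 * C * q + C ^ 2 * C1 ^ 2 * s ^ 2)
    (h3 : eO ≤ C * q) (h4 : s ^ 2 ≤ C * eO + C * (g ^ 2 * t ^ 2)) :
    s ^ 2 ≤ 6 * C ^ 2 * q := by
  have hC0 : 0 < C := by linarith
  have hC10 : 0 < C1 := by linarith
  have b1 : g ^ 2 * t ^ 2 ≤ g ^ 2 * (2 * C * q + C ^ 2 * C1 ^ 2 * s ^ 2) :=
    mul_le_mul_of_nonneg_left h2 (sq_nonneg g)
  have b2 : g ^ 2 * (2 * C * q) ≤ 1 * (2 * C * q) :=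
    mul_le_mul_of_nonneg_right hg1 (by positivity)
  have b3 : g ^ 2 * (C ^ 2 * C1 ^ 2 * s ^ 2) ≤
      1 / (2 * C ^ 3 * C1 ^ 2) * (C ^ 2 * C1 ^ 2 * s ^ 2) :=
    mul_le_mul_of_nonneg_right hg (by positivity)
  have b4 : 1 / (2 * C ^ 3 * C1 ^ 2) * (C ^ 2 * C1 ^ 2 * s ^ 2) = s ^ 2 / (2 * C) := by
    field_simp
  have b5 : g ^ 2 * t ^ 2 ≤ 2 * C * q + s ^ 2 / (2 * C) := by
    have : g ^ 2 * (2 * C * q + C ^ 2 * C1 ^ 2 * s ^ 2)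
      = g ^ 2 * (2 * C * q) + g ^ 2 * (C ^ 2 * C1 ^ 2 * s ^ 2) := by ring
    linarith
  have b6 : C * (g ^ 2 * t ^ 2) ≤ C * (2 * C * q + s ^ 2 / (2 * C)) :=
    mul_le_mul_of_nonneg_left b5 hC0.le
  have b7 : C * (2 * C * q + s ^ 2 / (2 * C)) = 2 * C ^ 2 * q + s ^ 2 / 2 := by
    field_simp
  have a1 : C * eO ≤ C * (C * q) := mul_le_mul_of_nonneg_left h3 hC0.le
  have a2 : C * (C * q) = C ^ 2 * q := by ring
  linarith

lemma arith3 (C C1 q s t : ℝ) (hC : 1 ≤ C) (hC1 : 1 ≤ C1) (hq : 0 ≤ q)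
    (h2 : t ^ 2 ≤ 2 * C * q + C ^ 2 * C1 ^ 2 * s ^ 2) (h4 : s ^ 2 ≤ 6 * C ^ 2 * q) :
    t ^ 2 ≤ 8 * C ^ 4 * C1 ^ 2 * q := by
  have hC0 : 0 < C := by linarith
  have hC10 : 0 < C1 := by linarith
  have c1 : C ^ 2 * C1 ^ 2 * s ^ 2 ≤ C ^ 2 * C1 ^ 2 * (6 * C ^ 2 * q) :=
    mul_le_mul_of_nonneg_left h4 (by positivity)
  have hC3 : 1 ≤ C ^ 3 := one_le_pow₀ hC
  have hC12 : 1 ≤ C1 ^ 2 := one_le_pow₀ hC1
  have hprod : 1 ≤ C ^ 3 * C1 ^ 2 := by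
    calc (1:ℝ) = 1 * 1 := by ring
      _ ≤ C ^ 3 * C1 ^ 2 := mul_le_mul hC3 hC12 (by norm_num) (by positivity)
  have c2 : (2 * C * q) * 1 ≤ (2 * C * q) * (C ^ 3 * C1 ^ 2) :=
    mul_le_mul_of_nonneg_left hprod (by positivity)
  have c3 : (2 * C * q) * (C ^ 3 * C1 ^ 2) = 2 * C ^ 4 * C1 ^ 2 * q := by ring
  have c4 : C ^ 2 * C1 ^ 2 * (6 * C ^ 2 * q) = 6 * C ^ 4 * C1 ^ 2 * q := by ring
  linarith

/-- pure real arithmetic behind `pde_core` -/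
lemma arith (C C1 E t eO s R ξ hh g : ℝ) (hC : 1 ≤ C) (hC1 : 1 ≤ C1) (hE : 0 ≤ E)
    (ht : 0 ≤ t) (hs : 0 ≤ s) (hn : 1 ≤ s ^ 2) (hξ : 1 ≤ ξ)
    (hhh : 0 < hh) (hg : 0 < g) (hδs : g ^ 2 ≤ 1 / (2 * C ^ 3 * C1 ^ 2)) (hg1 : g ^ 2 ≤ 1)
    (hh1 : hh + 1 / ξ ≤ 1 / (14 * C ^ 4 * C1 ^ 2) * g)
    (h1 : E ≤ C * ((hh + 1 / ξ) * (C1 * ξ * s * (t / g))) + C * R)
    (h2 : ξ * t ^ 2 ≤ C * E + C * (C1 * ξ * s * t))
    (h3 : ξ * eO ≤ C * E) (h4 : s ^ 2 ≤ C * eO + C * (g ^ 2 * t ^ 2)) :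
    ξ ≤ 12 * C ^ 3 * R := by
  have hC0 : 0 < C := by linarith
  have hC10 : 0 < C1 := by linarith
  have hξ0 : 0 < ξ := by linarith
  have h2' := arith1 C C1 E t s ξ hξ0 h2
  have h3' : eO ≤ C * (E / ξ) := by
    have : ξ * eO ≤ ξ * (C * (E / ξ)) := by
      calc ξ * eO ≤ C * E := h3
        _ = ξ * (C * (E / ξ)) := by field_simp
    exact le_of_mul_le_mul_left this hξ0
  have hq : 0 ≤ E / ξ := by positivity
  have h4' := arith2 C C1 (E / ξ) eO s t g hC hC1 hq hδs hg1 h2' h3' h4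
  have h5 := arith3 C C1 (E / ξ) s t hC hC1 hq h2' h4'
  -- s t ≤ 7 C^3 C1 q
  have hst : s * t ≤ 7 * C ^ 3 * C1 * (E / ξ) := by
    have h6 : (s * t) ^ 2 ≤ (7 * C ^ 3 * C1 * (E / ξ)) ^ 2 := by
      calc (s * t) ^ 2 = s ^ 2 * t ^ 2 := by ring
        _ ≤ (6 * C ^ 2 * (E / ξ)) * (8 * C ^ 4 * C1 ^ 2 * (E / ξ)) :=
            mul_le_mul h4' h5 (by positivity) (by positivity)
        _ = 48 * (C ^ 3 * C1 * (E / ξ)) ^ 2 := by ring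
        _ ≤ 49 * (C ^ 3 * C1 * (E / ξ)) ^ 2 := by
            have := sq_nonneg (C ^ 3 * C1 * (E / ξ))
            linarith
        _ = (7 * C ^ 3 * C1 * (E / ξ)) ^ 2 := by ring
    exact le_of_sq_le_sq h6 (by positivity)
  have h7 : (hh + 1 / ξ) * (C1 * ξ * s * (t / g)) ≤ E / (2 * C) := by
    have e1 : (hh + 1 / ξ) * (C1 * ξ * s * (t / g)) = (hh + 1 / ξ) / g * (C1 * ξ * (s * t)) := by
      field_simp
    have e2 : (hh + 1 / ξ) / g ≤ 1 / (14 * C ^ 4 * C1 ^ 2) := by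
      rw [div_le_iff₀ hg]; exact hh1
    rw [e1]
    calc (hh + 1 / ξ) / g * (C1 * ξ * (s * t))
        ≤ 1 / (14 * C ^ 4 * C1 ^ 2) * (C1 * ξ * (7 * C ^ 3 * C1 * (E / ξ))) := by
          apply mul_le_mul e2 _ (by positivity) (by positivity)
          exact mul_le_mul_of_nonneg_left hst (by positivity)
      _ = E / (2 * C) := by field_simp; ring
  have h8 : E ≤ 2 * C * R := by
    have : C * ((hh + 1 / ξ) * (C1 * ξ * s * (t / g))) ≤ C * (E / (2 * C)) :=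
      mul_le_mul_of_nonneg_left h7 hC0.le
    have e : C * (E / (2 * C)) = E / 2 := by field_simp
    linarith
  have h9 : 1 ≤ 6 * C ^ 2 * (E / ξ) := hn.trans h4'
  have h10 : ξ ≤ 6 * C ^ 2 * E := by
    have := mul_le_mul_of_nonneg_right h9 hξ0.le
    have e : 6 * C ^ 2 * (E / ξ) * ξ = 6 * C ^ 2 * E := by field_simp
    linarith
  calc ξ ≤ 6 * C ^ 2 * E := h10
    _ ≤ 6 * C ^ 2 * (2 * C * R) := mul_le_mul_of_nonneg_left h8 (by positivity)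
    _ = 12 * C ^ 3 * R := by ring

lemma _root_.Crest.Agent.R220.GoodFrame.mono {η η' δ' : ℝ} {p Y κ : Pl → ℝ} (hη : η ≤ η') (hδ : 0 < δ')
    (h : GoodFrame η δ' p Y κ) : GoodFrame η' δ' p Y κ where
  smp := h.smp
  smY := h.smY
  smk := h.smk
  p0 := h.p0
  Y0 := h.Y0
  cp := fun z => ⟨(h.cp z).1.trans hη, (h.cp z).2.trans hη⟩
  cY := fun z => ⟨(h.cY z).1.trans hη, (h.cY z).2.trans hη⟩
  cp2 := fun w hw z => (h.cp2 w hw z).trans hη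
  cY2 := fun w hw z => (h.cY2 w hw z).trans hη
  ck := fun z hz => by
    have hm : η * δ' ≤ η' * δ' := mul_le_mul_of_nonneg_right hη hδ.le
    obtain ⟨a, b, c⟩ := h.ck z hz
    exact ⟨a.trans hm, b.trans hm, c.trans hm⟩

lemma _root_.Crest.Agent.R220.Src.mono {C1 η η' ξ : ℝ} {J : ℕ} {σ : ℕ → ℝ} {p Y κ d H G : Pl → ℝ} (hη : η ≤ η')
    (hξ : 0 ≤ ξ) (h : Src C1 η ξ J σ p Y κ d H G) : Src C1 η' ξ J σ p Y κ d H G where
  smd := h.smd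
  smH := h.smH
  smG := h.smG
  suppH := h.suppH
  suppG := h.suppG
  bH := fun z => (h.bH z).trans (mul_le_mul_of_nonneg_right hη hξ)
  bG := fun z => (h.bG z).trans (mul_le_mul_of_nonneg_right hη hξ)
  bPH := h.bPH
  bTG := h.bTG
  pde := h.pde

lemma one_le_nact {J : ℕ} {σ : ℕ → ℝ} (h : ∃ j < J, σ j ≠ 0) : 1 ≤ nact J σ := by
  classical
  obtain ⟨j, hj, hσ⟩ := h
  unfold nact
  have : 1 ≤ ((Finset.range J).filter (fun j => σ j ≠ 0)).card := by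
    rw [Nat.one_le_iff_ne_zero, Finset.card_ne_zero]
    exact ⟨j, by simp [hj, hσ]⟩
  exact_mod_cast this

end PdeCore

open PdeCore in
theorem pde_core (C1 : ℝ) (hC1 : 1 ≤ C1) : ∃ η δs c0 : ℝ, 0 < η ∧ 0 < δs ∧ 0 < c0 ∧
    ∀ δ' ξ hh : ℝ, 0 < δ' → δ' ≤ δs → 1 ≤ ξ → 0 < hh → hh + 1 / ξ ≤ c0 * Real.sqrt δ' →
    ∀ (J : ℕ) (σ : ℕ → ℝ), (∀ j, σ j = 0 ∨ σ j = 1 ∨ σ j = -1) → (∃ j < J, σ j ≠ 0) →
      (J : ℝ) ≤ hh * ξ →
    ∀ p Y κ d H G : Pl → ℝ, GoodFrame η δ' p Y κ → Src C1 η ξ J σ p Y κ d H G →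
      c0 * ξ ≤ ∫ z in frame (7/10) (8/10), (d z ^ 2 + dx d z ^ 2 + dy d z ^ 2) := by
  obtain ⟨η1, Ca, hη1, hCa, H1⟩ := virial_up
  obtain ⟨η2, Cb, hη2, hCb, H2⟩ := layer1
  obtain ⟨η3, Cc, hη3, hCc, H3⟩ := layer2
  obtain ⟨η4, Cd, hη4, hCd, H4⟩ := lower
  set C : ℝ := max (max (max Ca Cb) (max Cc Cd)) 1 with hCdef
  have hCa' : Ca ≤ C := (le_max_left _ _).trans ((le_max_left _ _).trans (le_max_left _ _))
  have hCb' : Cb ≤ C := (le_max_right _ _).trans ((le_max_left _ _).trans (le_max_left _ _))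
  have hCc' : Cc ≤ C := (le_max_left _ _).trans ((le_max_right _ _).trans (le_max_left _ _))
  have hCd' : Cd ≤ C := (le_max_right _ _).trans ((le_max_right _ _).trans (le_max_left _ _))
  have hC1' : 1 ≤ C := le_max_right _ _
  have hC0 : 0 < C := by linarith
  have hC10 : 0 < C1 := by linarith
  set η : ℝ := min (min η1 η2) (min η3 η4) with hη
  have h1 : η ≤ η1 := (min_le_left _ _).trans (min_le_left _ _)
  have h2 : η ≤ η2 := (min_le_left _ _).trans (min_le_right _ _)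
  have h3 : η ≤ η3 := (min_le_right _ _).trans (min_le_left _ _)
  have h4 : η ≤ η4 := (min_le_right _ _).trans (min_le_right _ _)
  set c0 : ℝ := min (1 / (14 * C ^ 4 * C1 ^ 2)) (min (1 / 16) (1 / (12 * C ^ 3))) with hc0
  have hc0pos : 0 < c0 := by
    rw [hc0]; positivity
  refine ⟨η, min 1 (1 / (2 * C ^ 3 * C1 ^ 2)), c0, by positivity, by positivity, hc0pos, ?_⟩
  intro δ' ξ hh hδ hδs hξ hhh hsum J σ hσ hact hJ p Y κ d H G hF hS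
  have hδ1 : δ' ≤ 1 := hδs.trans (min_le_left _ _)
  have hδ2 : δ' ≤ 1 / (2 * C ^ 3 * C1 ^ 2) := hδs.trans (min_le_right _ _)
  have hsq1 : Real.sqrt δ' ≤ 1 := Real.sqrt_le_one.2 hδ1
  have hsq0 : 0 < Real.sqrt δ' := Real.sqrt_pos.2 hδ
  have hξ0 : 0 < ξ := by linarith
  have hsum16 : hh + 1 / ξ ≤ 1 / 16 := by
    calc hh + 1 / ξ ≤ c0 * Real.sqrt δ' := hsum
      _ ≤ c0 * 1 := mul_le_mul_of_nonneg_left hsq1 hc0pos.le
      _ ≤ 1 / 16 := by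
        rw [mul_one]; exact (min_le_right _ _).trans (min_le_left _ _)
  have hξ16 : 16 ≤ ξ := by
    have : 1 / ξ ≤ 1 / 16 := by linarith
    rw [div_le_div_iff₀ hξ0 (by norm_num)] at this
    linarith
  set n : ℝ := nact J σ with hn
  have hn1 : 1 ≤ n := one_le_nact hact
  have hn0 : 0 ≤ n := by linarith
  set E : ℝ := ∫ z in sq (7/10), en δ' p Y d z with hE
  set eN : ℝ := ∫ z in layN ξ, en δ' p Y d z with heN
  set eO : ℝ := ∫ z in layO ξ, en δ' p Y d z with heO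
  set R : ℝ := ∫ z in frame (7/10) (8/10), (d z ^ 2 + dx d z ^ 2 + dy d z ^ 2) with hR
  have hE0 : 0 ≤ E := integral_nonneg (fun z => en_nonneg hδ _ _ _ _)
  have heN0 : 0 ≤ eN := integral_nonneg (fun z => en_nonneg hδ _ _ _ _)
  have heO0 : 0 ≤ eO := integral_nonneg (fun z => en_nonneg hδ _ _ _ _)
  have hR0 : 0 ≤ R := integral_nonneg (fun z => by positivity)
  have K1 := H1 C1 δ' ξ hh J σ p Y κ d H G hC1 hδ hδ1 hξ16 hhh hsum16 hJ hσ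
    (hF.mono h1 hδ) (hS.mono h1 hξ0.le)
  have K2 := H2 C1 δ' ξ hh J σ p Y κ d H G hC1 hδ hδ1 hξ16 hhh hsum16 hJ hσ
    (hF.mono h2 hδ) (hS.mono h2 hξ0.le)
  have K3 := H3 C1 δ' ξ hh J σ p Y κ d H G hC1 hδ hδ1 hξ16 hhh hsum16 hJ hσ
    (hF.mono h3 hδ) (hS.mono h3 hξ0.le)
  have K4 := H4 C1 δ' ξ hh J σ p Y κ d H G hC1 hδ hδ1 hξ16 hhh hsum16 hJ hσ
    (hF.mono h4 hδ) (hS.mono h4 hξ0.le)
  rw [← hE, ← hR, ← hn, ← heN] at K1
  rw [← hE, ← hn, ← heN] at K2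
  rw [← hE, ← heO] at K3
  rw [← hn, ← heN, ← heO] at K4
  have hst : Real.sqrt eN ^ 2 = eN := Real.sq_sqrt heN0
  have hss : Real.sqrt n ^ 2 = n := Real.sq_sqrt hn0
  have hsg : Real.sqrt δ' ^ 2 = δ' := Real.sq_sqrt hδ.le
  have hnn1 : 0 ≤ (hh + 1 / ξ) * (C1 * ξ * Real.sqrt n * Real.sqrt (eN / δ')) := by positivity
  have hnn2 : 0 ≤ C1 * ξ * Real.sqrt n * Real.sqrt eN := by positivity
  have key := arith C C1 E (Real.sqrt eN) eO (Real.sqrt n) R ξ hh (Real.sqrt δ') hC1' hC1 hE0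
    (Real.sqrt_nonneg _) (Real.sqrt_nonneg _) (by rw [hss]; exact hn1) hξ hhh hsq0
    (by rw [hsg]; exact hδ2) (by rw [hsg]; exact hδ1)
    (hsum.trans (mul_le_mul_of_nonneg_right (min_le_left _ _) hsq0.le))
    (by
      rw [← Real.sqrt_div heN0]
      exact K1.trans (add_le_add (mul_le_mul_of_nonneg_right hCa' hnn1)
        (mul_le_mul_of_nonneg_right hCa' hR0)))
    (by
      rw [hst]
      exact K2.trans (add_le_add (mul_le_mul_of_nonneg_right hCb' hE0)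
        (mul_le_mul_of_nonneg_right hCb' hnn2)))
    (K3.trans (mul_le_mul_of_nonneg_right hCc' hE0))
    (by
      rw [hst, hss, hsg]
      exact K4.trans (add_le_add (mul_le_mul_of_nonneg_right hCd' heO0)
        (mul_le_mul_of_nonneg_right hCd' (by positivity))))
  have : c0 * ξ ≤ c0 * (12 * C ^ 3 * R) := mul_le_mul_of_nonneg_left key hc0pos.le
  refine this.trans ?_
  have h12 : c0 ≤ 1 / (12 * C ^ 3) := (min_le_right _ _).trans (min_le_right _ _)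
  calc c0 * (12 * C ^ 3 * R) ≤ 1 / (12 * C ^ 3) * (12 * C ^ 3 * R) :=
        mul_le_mul_of_nonneg_right h12 (by positivity)
    _ = R := by field_simp

end Crest.Agent.R220
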