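import Crest.Agent.R220.LinEq
import Crest.Agent.R220.PatBd

/-!
# Row 220: the source terms of the linearised equation (for `src_of_strain`)

`Ctx` collects a frame which is `ε`-close to the coordinate frame in `C²`, and a pattern. `UB k m n f`
means: `f c` is bounded by `C ε^m ξ^n` in the weighted `C^k` norm, uniformly in the context `c`.
-/

set_option autoImplicit false

open scoped ContDiff Topology

namespace Crest.Agent.R220

namespace SrcAux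

structure Ctx where
  ε : ℝ
  ξ : ℝ
  J : ℕ
  σ : ℕ → ℝ
  p : Pl → ℝ
  X : Pl → ℝ
  Y : Pl → ℝ
  hε0 : 0 ≤ ε
  hε : ε ≤ 1
  hξ : 1 ≤ ξ
  hσ : ∀ j, |σ j| ≤ 1
  smp : Sm p
  smX : Sm X
  smY : Sm Y
  hJ : ∀ z, br p Y z ≠ 0
  hPX : ∀ z, 1 / 2 ≤ Pop p Y X z
  bA : ∀ w : List Bool, w.length ≤ 2 → ∀ z, |Dw w (fun z => Pop p Y (fun z => z.1) z - 1) z| ≤ ε
  bB : ∀ w : List Bool, w.length ≤ 2 → ∀ z, |Dw w (fun z => Pop p Y (fun z => z.2) z) z| ≤ ε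
  bC : ∀ w : List Bool, w.length ≤ 2 → ∀ z, |Dw w (fun z => Top p Y (fun z => z.1) z) z| ≤ ε
  bD : ∀ w : List Bool, w.length ≤ 2 → ∀ z, |Dw w (fun z => Top p Y (fun z => z.2) z - 1) z| ≤ ε
  bE : ∀ w : List Bool, w.length ≤ 2 → ∀ z, |Dw w (fun z => Pop p Y X z - 1) z| ≤ ε
  bF : ∀ w : List Bool, w.length ≤ 2 → ∀ z, |Dw w (fun z => Top p Y X z) z| ≤ ε

/-- uniform bound `O(ε^m ξ^n)` in weighted `C^k` -/
def UB (k m n : ℕ) (f : Ctx → Pl → ℝ) : Prop :=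
  ∃ C : ℝ, 0 ≤ C ∧ ∀ c : Ctx, Bd c.ξ k (C * c.ε ^ m * c.ξ ^ n) (f c)

theorem Ctx.ξ0 (c : Ctx) : 0 ≤ c.ξ := by linarith [c.hξ]

namespace UB

variable {k m n m' n' : ℕ} {f g : Ctx → Pl → ℝ}

theorem mono {k' : ℕ} (hk : k' ≤ k) (hm : m' ≤ m) (hn : n ≤ n') (h : UB k m n f) :
    UB k' m' n' f := by
  obtain ⟨C, hC, h⟩ := h
  refine ⟨C, hC, fun c => (h c).mono c.hξ hk ?_⟩
  have h1 : c.ε ^ m ≤ c.ε ^ m' := pow_le_pow_of_le_one c.hε0 c.hε hm
  have h2 : c.ξ ^ n ≤ c.ξ ^ n' := pow_le_pow_right₀ c.hξ hn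
  have h3 : 0 ≤ c.ε ^ m := pow_nonneg c.hε0 _
  have h4 : 0 ≤ c.ξ ^ n := pow_nonneg c.ξ0 _
  have h5 : 0 ≤ c.ε ^ m' := pow_nonneg c.hε0 _
  exact mul_le_mul (mul_le_mul_of_nonneg_left h1 hC) h2 h4 (mul_nonneg hC h5)

theorem congr (h : UB k m n f) (e : ∀ c z, f c z = g c z) : UB k m n g := by
  have : f = g := by funext c z; exact e c z
  exact this ▸ h

theorem add (hf : UB k m n f) (hg : UB k m n g) : UB k m n (fun c z => f c z + g c z) := by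
  obtain ⟨C, hC, hf⟩ := hf
  obtain ⟨D, hD, hg⟩ := hg
  refine ⟨C + D, by positivity, fun c => ((hf c).add (hg c)).mono c.hξ le_rfl (le_of_eq ?_)⟩
  ring

theorem sub (hf : UB k m n f) (hg : UB k m n g) : UB k m n (fun c z => f c z - g c z) := by
  obtain ⟨C, hC, hf⟩ := hf
  obtain ⟨D, hD, hg⟩ := hg
  refine ⟨C + D, by positivity, fun c => ((hf c).sub (hg c)).mono c.hξ le_rfl (le_of_eq ?_)⟩
  ring

theorem const_mul (a : ℝ) (hf : UB k m n f) : UB k m n (fun c z => a * f c z) := by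
  obtain ⟨C, hC, hf⟩ := hf
  refine ⟨|a| * C, by positivity, fun c => ((hf c).const_mul a).mono c.hξ le_rfl (le_of_eq ?_)⟩
  ring

theorem mul (hf : UB k m n f) (hg : UB k m' n' g) :
    UB k (m + m') (n + n') (fun c z => f c z * g c z) := by
  obtain ⟨C, hC, hf⟩ := hf
  obtain ⟨D, hD, hg⟩ := hg
  refine ⟨2 ^ k * (C * D), by positivity,
    fun c => ((hf c).mul c.hξ (hg c)).mono c.hξ le_rfl (le_of_eq ?_)⟩
  ring

theorem dx (hf : UB (k + 1) m n f) : UB k m (n + 1) (fun c => dx (f c)) := by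
  obtain ⟨C, hC, hf⟩ := hf
  refine ⟨C, hC, fun c => (hf c).dx.mono c.hξ le_rfl (le_of_eq ?_)⟩
  ring

theorem dy (hf : UB (k + 1) m n f) : UB k m (n + 1) (fun c => dy (f c)) := by
  obtain ⟨C, hC, hf⟩ := hf
  refine ⟨C, hC, fun c => (hf c).dy.mono c.hξ le_rfl (le_of_eq ?_)⟩
  ring

theorem const (a : ℝ) (k : ℕ) : UB k 0 0 (fun _ _ => a) :=
  ⟨|a|, abs_nonneg _, fun c => (Bd.const c.hξ k a).mono c.hξ le_rfl (by simp)⟩

end UB

/-! ### The basic functions -/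

theorem ubA : UB 2 1 0 (fun c z => Pop c.p c.Y (fun z => z.1) z - 1) :=
  ⟨1, zero_le_one, fun c => by
    simpa using Bd.of_one c.hξ ((Sm.Pop c.smp c.smY Sm.fst c.hJ).sub' (Sm.const 1)) c.bA⟩

theorem ubB : UB 2 1 0 (fun c z => Pop c.p c.Y (fun z => z.2) z) :=
  ⟨1, zero_le_one, fun c => by
    simpa using Bd.of_one c.hξ (Sm.Pop c.smp c.smY Sm.snd c.hJ) c.bB⟩

theorem ubC : UB 2 1 0 (fun c z => Top c.p c.Y (fun z => z.1) z) :=
  ⟨1, zero_le_one, fun c => by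
    simpa using Bd.of_one c.hξ (Sm.Top c.smp c.smY Sm.fst c.hJ) c.bC⟩

theorem ubD : UB 2 1 0 (fun c z => Top c.p c.Y (fun z => z.2) z - 1) :=
  ⟨1, zero_le_one, fun c => by
    simpa using Bd.of_one c.hξ ((Sm.Top c.smp c.smY Sm.snd c.hJ).sub' (Sm.const 1)) c.bD⟩

theorem ubE : UB 2 1 0 (fun c z => Pop c.p c.Y c.X z - 1) :=
  ⟨1, zero_le_one, fun c => by
    simpa using Bd.of_one c.hξ ((Sm.Pop c.smp c.smY c.smX c.hJ).sub' (Sm.const 1)) c.bE⟩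

theorem ubF : UB 2 1 0 (fun c z => Top c.p c.Y c.X z) :=
  ⟨1, zero_le_one, fun c => by
    simpa using Bd.of_one c.hξ (Sm.Top c.smp c.smY c.smX c.hJ) c.bF⟩

theorem uba : UB 2 0 0 (fun c => pat c.ξ c.J c.σ) := by
  obtain ⟨K, hK⟩ := pat_Bd 2
  exact ⟨max K 0, le_max_right _ _, fun c => (hK c.ξ c.J c.σ c.hξ c.hσ).mono c.hξ le_rfl
    (by simp)⟩

theorem Pop_eq' (p Y f : Pl → ℝ) (z : Pl) :
    Pop p Y f z = Pop p Y (fun z => z.1) z * dx f z + Pop p Y (fun z => z.2) z * dy f z := by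
  simp only [Pop, br, dx_fst, dy_fst, dx_snd, dy_snd]
  ring

theorem Top_eq' (p Y f : Pl → ℝ) (z : Pl) :
    Top p Y f z = Top p Y (fun z => z.1) z * dx f z + Top p Y (fun z => z.2) z * dy f z := by
  simp only [Top, br, dx_fst, dy_fst, dx_snd, dy_snd]
  ring

theorem UB.P_err {k m n : ℕ} (hk : k ≤ 2) {f : Ctx → Pl → ℝ} (hf : UB (k + 1) m n f) :
    UB k (m + 1) (n + 1) (fun c z => Pop c.p c.Y (f c) z - R220.dx (f c) z) := by
  have h1 := (ubA.mono hk le_rfl le_rfl).mul hf.dx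
  have h2 := (ubB.mono hk le_rfl le_rfl).mul hf.dy
  refine ((h1.mono le_rfl (by omega) (by omega)).add
    (h2.mono le_rfl (m' := m + 1) (n' := n + 1) (by omega) (by omega))).congr ?_
  intro c z
  rw [Pop_eq' c.p c.Y (f c) z]
  ring

theorem UB.T_err {k m n : ℕ} (hk : k ≤ 2) {f : Ctx → Pl → ℝ} (hf : UB (k + 1) m n f) :
    UB k (m + 1) (n + 1) (fun c z => Top c.p c.Y (f c) z - R220.dy (f c) z) := by
  have h1 := (ubC.mono hk le_rfl le_rfl).mul hf.dx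
  have h2 := (ubD.mono hk le_rfl le_rfl).mul hf.dy
  refine ((h1.mono le_rfl (by omega) (by omega)).add
    (h2.mono le_rfl (m' := m + 1) (n' := n + 1) (by omega) (by omega))).congr ?_
  intro c z
  rw [Top_eq' c.p c.Y (f c) z]
  ring

theorem UB.P {k m n : ℕ} (hk : k ≤ 2) {f : Ctx → Pl → ℝ} (hf : UB (k + 1) m n f) :
    UB k m (n + 1) (fun c => Pop c.p c.Y (f c)) := by
  refine (((UB.P_err hk hf).mono le_rfl (m' := m) (by omega) le_rfl).add hf.dx).congr ?_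
  intro c z
  ring

theorem UB.T {k m n : ℕ} (hk : k ≤ 2) {f : Ctx → Pl → ℝ} (hf : UB (k + 1) m n f) :
    UB k m (n + 1) (fun c => Top c.p c.Y (f c)) := by
  refine (((UB.T_err hk hf).mono le_rfl (m' := m) (by omega) le_rfl).add hf.dy).congr ?_
  intro c z
  ring

/-- `1 / (P X)` -/
theorem ubI : UB 2 0 0 (fun c z => (Pop c.p c.Y c.X z)⁻¹) := by
  have hE : UB 2 0 0 (fun c z => Pop c.p c.Y c.X z) :=
    ((ubE.mono le_rfl (m' := 0) (by omega) le_rfl).add (UB.const 1 2)).congr (fun c z => by ring)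
  obtain ⟨C, hC, h⟩ := hE
  refine ⟨Bd.invC 2 C, by have := Bd.invC_nonneg 2 hC; linarith, fun c => ?_⟩
  have h1 := h c
  simp only [pow_zero, mul_one] at h1 ⊢
  exact h1.inv c.hξ c.hPX

theorem ubI1 : UB 2 1 0 (fun c z => (Pop c.p c.Y c.X z)⁻¹ - 1) := by
  refine ((ubE.mul ubI).const_mul (-1)).congr ?_
  intro c z
  have := c.hPX z
  have h0 : Pop c.p c.Y c.X z ≠ 0 := by intro h; linarith
  field_simp
  ring

/-! ### The source terms -/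

/-- `al = a (P y)² / (2 P X)` -/
noncomputable def alc (c : Ctx) (z : Pl) : ℝ :=
  pat c.ξ c.J c.σ z * (Pop c.p c.Y (fun z => z.2) z) ^ 2 / (2 * Pop c.p c.Y c.X z)

noncomputable def inner (c : Ctx) (z : Pl) : ℝ :=
  (1 / 2) * Pop c.p c.Y (fun z => pat c.ξ c.J c.σ z * (Top c.p c.Y (fun z => z.2) z) ^ 2) z
      - Top c.p c.Y (fun z => pat c.ξ c.J c.σ z * Pop c.p c.Y (fun z => z.2) z *
        Top c.p c.Y (fun z => z.2) z) z
      + Top c.p c.Y (Top c.p c.Y c.X) z * alc c z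

noncomputable def Hc (c : Ctx) (z : Pl) : ℝ := (1 / Pop c.p c.Y c.X z) * inner c z

noncomputable def Gc (c : Ctx) : Pl → ℝ := Top c.p c.Y (alc c)

theorem ub_al : UB 2 1 0 alc := by
  have h := ((uba.mul (ubB.mul ubB)).mul ubI).const_mul (1 / 2)
  refine (h.mono le_rfl (m' := 1) (n' := 0) (by omega) le_rfl).congr ?_
  intro c z
  have := c.hPX z
  have h0 : Pop c.p c.Y c.X z ≠ 0 := by intro h; linarith
  unfold alc
  field_simp

/-- `P(a (T y)²) - a_x` is small -/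
theorem ub_P1 : UB 1 1 1 (fun c z =>
    Pop c.p c.Y (fun z => pat c.ξ c.J c.σ z * (Top c.p c.Y (fun z => z.2) z) ^ 2) z
      - dx (pat c.ξ c.J c.σ) z) := by
  have hD2 : UB 2 0 0 (fun c z => (Top c.p c.Y (fun z => z.2) z - 1) + 2) :=
    (ubD.mono le_rfl (m' := 0) (by omega) le_rfl).add (UB.const 2 2)
  have h1 : UB 2 1 0 (fun c z => pat c.ξ c.J c.σ z * ((Top c.p c.Y (fun z => z.2) z - 1) *
      ((Top c.p c.Y (fun z => z.2) z - 1) + 2))) := uba.mul (ubD.mul hD2)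
  have h2 := UB.P (k := 1) (by omega) h1
  have h3 := UB.P_err (k := 1) (by omega) uba
  refine (h2.add h3).congr ?_
  intro c z
  have s1 : Sm (pat c.ξ c.J c.σ) := pat_eq_gpat c.ξ c.J c.σ ▸ gpat_smooth prof_psi prof_psi _ _ _
  have s2 : Sm (Top c.p c.Y (fun z => z.2)) := Sm.Top c.smp c.smY Sm.snd c.hJ
  have s3 : Sm (fun z => pat c.ξ c.J c.σ z * ((Top c.p c.Y (fun z => z.2) z - 1) *
      ((Top c.p c.Y (fun z => z.2) z - 1) + 2))) :=
    s1.mul' ((s2.sub' (Sm.const 1)).mul' ((s2.sub' (Sm.const 1)).add' (Sm.const 2)))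
  have e : (fun z => pat c.ξ c.J c.σ z * (Top c.p c.Y (fun z => z.2) z) ^ 2) =
      fun z => pat c.ξ c.J c.σ z * ((Top c.p c.Y (fun z => z.2) z - 1) *
      ((Top c.p c.Y (fun z => z.2) z - 1) + 2)) + pat c.ξ c.J c.σ z := by
    funext z; ring
  rw [e]
  simp only [Pop, br]
  rw [dx_add s3 s1, dy_add s3 s1]
  ring

theorem ub_T1 : UB 1 1 1 (fun c => Top c.p c.Y (fun z => pat c.ξ c.J c.σ z *
    Pop c.p c.Y (fun z => z.2) z * Top c.p c.Y (fun z => z.2) z)) := by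
  have hD : UB 2 0 0 (fun c z => Top c.p c.Y (fun z => z.2) z) :=
    ((ubD.mono le_rfl (m' := 0) (by omega) le_rfl).add (UB.const 1 2)).congr (fun c z => by ring)
  exact UB.T (k := 1) (by omega) ((uba.mul ubB).mul hD)

theorem ub_inner : UB 1 1 1 (fun c z => inner c z - (1 / 2) * dx (pat c.ξ c.J c.σ) z) := by
  have h3 : UB 1 1 1 (fun c z => Top c.p c.Y (Top c.p c.Y c.X) z * alc c z) :=
    ((UB.T (k := 1) (by omega) ubF).mul (ub_al.mono (k' := 1) (by omega) le_rfl le_rfl)).mono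
      le_rfl (by omega) (by omega)
  refine (((ub_P1.const_mul (1 / 2)).sub ub_T1).add h3).congr ?_
  intro c z
  unfold inner
  ring

theorem ub_inner0 : UB 1 0 1 inner := by
  have h1 : UB 1 0 1 (fun c z => (1 / 2) * dx (pat c.ξ c.J c.σ) z) :=
    (UB.dx (k := 1) uba).const_mul (1 / 2)
  refine ((ub_inner.mono le_rfl (m' := 0) (by omega) le_rfl).add h1).congr ?_
  intro c z
  ring

theorem ub_Herr : UB 1 1 1 (fun c z => Hc c z - (1 / 2) * dx (pat c.ξ c.J c.σ) z) := by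
  have h1 : UB 1 1 1 (fun c z => ((Pop c.p c.Y c.X z)⁻¹ - 1) * inner c z) :=
    ((ubI1.mono (k' := 1) (by omega) le_rfl le_rfl).mul ub_inner0).mono le_rfl (by omega) (by omega)
  refine (h1.add ub_inner).congr ?_
  intro c z
  unfold Hc
  rw [one_div]
  ring

theorem ub_H : UB 1 0 1 Hc := by
  have h1 : UB 1 0 1 (fun c z => (1 / 2) * dx (pat c.ξ c.J c.σ) z) :=
    (UB.dx (k := 1) uba).const_mul (1 / 2)
  refine ((ub_Herr.mono le_rfl (m' := 0) (by omega) le_rfl).add h1).congr ?_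
  intro c z
  ring

theorem ub_PH : UB 0 0 2 (fun c => Pop c.p c.Y (Hc c)) := UB.P (k := 0) (by omega) ub_H

theorem ub_G : UB 1 1 1 Gc := UB.T (k := 1) (by omega) ub_al

theorem ub_TG : UB 0 1 2 (fun c => Top c.p c.Y (Gc c)) := UB.T (k := 0) (by omega) ub_G

/-! ### supports -/

theorem Pop_zero_of_ev {p Y f : Pl → ℝ} {z : Pl} (h : f =ᶠ[𝓝 z] fun _ => 0) :
    Pop p Y f =ᶠ[𝓝 z] fun _ => 0 := by
  refine (LinEq.Pop_congr h).trans (Filter.Eventually.of_forall fun w => ?_)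
  simp [Pop, br, dx_const, dy_const]

theorem Top_zero_of_ev {p Y f : Pl → ℝ} {z : Pl} (h : f =ᶠ[𝓝 z] fun _ => 0) :
    Top p Y f =ᶠ[𝓝 z] fun _ => 0 := by
  refine (LinEq.Top_congr h).trans (Filter.Eventually.of_forall fun w => ?_)
  simp [Top, br, dx_const, dy_const]

theorem al_ev (c : Ctx) {z : Pl} (hz : z ∉ NS c.ξ c.J c.σ) : alc c =ᶠ[𝓝 z] fun _ => 0 := by
  filter_upwards [pat_eventually_zero c.ξ c.J c.σ z hz] with w hw
  unfold alc
  rw [hw]; ring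

theorem G_supp (c : Ctx) (z : Pl) (hz : z ∉ NS c.ξ c.J c.σ) : Gc c z = 0 :=
  (Top_zero_of_ev (al_ev c hz)).eq_of_nhds

theorem H_supp (c : Ctx) (z : Pl) (hz : z ∉ NS c.ξ c.J c.σ) : Hc c z = 0 := by
  have h0 := pat_eventually_zero c.ξ c.J c.σ z hz
  have h1 : (fun z => pat c.ξ c.J c.σ z * (Top c.p c.Y (fun z => z.2) z) ^ 2)
      =ᶠ[𝓝 z] fun _ => 0 := by
    filter_upwards [h0] with w hw
    rw [hw]; ring
  have h2 : (fun z => pat c.ξ c.J c.σ z * Pop c.p c.Y (fun z => z.2) z *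
        Top c.p c.Y (fun z => z.2) z) =ᶠ[𝓝 z] fun _ => 0 := by
    filter_upwards [h0] with w hw
    rw [hw]; ring
  have e1 := (Pop_zero_of_ev (p := c.p) (Y := c.Y) h1).eq_of_nhds
  have e2 := (Top_zero_of_ev (p := c.p) (Y := c.Y) h2).eq_of_nhds
  have e3 := (al_ev c hz).eq_of_nhds
  unfold Hc inner
  rw [e1, e2, e3]
  ring

/-- the estimates and supports, packaged -/
theorem src_core : ∃ C : ℝ, 0 ≤ C ∧ ∀ c : Ctx,
    Sm (Hc c) ∧ Sm (Gc c) ∧ (∀ z, z ∉ NS c.ξ c.J c.σ → Hc c z = 0) ∧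
    (∀ z, z ∉ NS c.ξ c.J c.σ → Gc c z = 0) ∧
    (∀ z, |Hc c z - (1 / 2) * dx (pat c.ξ c.J c.σ) z| ≤ C * c.ε * c.ξ) ∧
    (∀ z, |Gc c z| ≤ C * c.ε * c.ξ) ∧
    (∀ z, |Pop c.p c.Y (Hc c) z| ≤ C * c.ξ ^ 2) ∧
    (∀ z, |Top c.p c.Y (Gc c) z| ≤ C * c.ξ ^ 2) := by
  obtain ⟨C1, hC1, h1⟩ := ub_Herr
  obtain ⟨C2, hC2, h2⟩ := ub_G
  obtain ⟨C3, hC3, h3⟩ := ub_PH
  obtain ⟨C4, hC4, h4⟩ := ub_TG
  obtain ⟨_, _, h5⟩ := ub_H
  refine ⟨C1 + C2 + C3 + C4, by positivity, fun c => ⟨(h5 c).sm, (h2 c).sm, H_supp c, G_supp c,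
    fun z => ?_, fun z => ?_, fun z => ?_, fun z => ?_⟩⟩
  · have h := (h1 c).abs_le z
    simp only [pow_one] at h
    refine h.trans ?_
    have : 0 ≤ c.ε * c.ξ := mul_nonneg c.hε0 c.ξ0
    nlinarith
  · have h := (h2 c).abs_le z
    simp only [pow_one] at h
    refine h.trans ?_
    have : 0 ≤ c.ε * c.ξ := mul_nonneg c.hε0 c.ξ0
    nlinarith
  · have h := (h3 c).abs_le z
    simp only [pow_zero, mul_one] at h
    refine h.trans ?_
    have : 0 ≤ c.ξ ^ 2 := by positivity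
    nlinarith
  · have h := (h4 c).abs_le z
    simp only [pow_one] at h
    refine h.trans ?_
    have h5 : 0 ≤ c.ξ ^ 2 := by positivity
    have h6 : c.ε * c.ξ ^ 2 ≤ c.ξ ^ 2 := by
      have := c.hε
      nlinarith
    have h7 : 0 ≤ c.ε * c.ξ ^ 2 := mul_nonneg c.hε0 h5
    nlinarith

end SrcAux

open SrcAux

/-- **src_of_strain**, from the closeness statement for the frame (`frame_close`). -/
theorem src_of_strain_aux (hfc : ∃ η0 C : ℝ, 0 < η0 ∧ 0 < C ∧ ∀ (η : ℝ) (X Y u : Pl → ℝ), η ≤ η0 →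
    NearCyl η X Y u →
    (∀ z, 1 / 2 ≤ br X Y z) ∧ Sm (pf X Y u) ∧ Sm (qf X Y u) ∧ Sm (kapf X Y u) ∧
    pf X Y u 0 = 0 ∧ (∀ z, 1 / 2 ≤ br (pf X Y u) Y z) ∧ (∀ z, br (pf X Y u) Y z ≤ 2) ∧
    (∀ w : List Bool, w.length ≤ 3 → ∀ z, |Dw w (fun z => pf X Y u z - z.1) z| ≤ C * η) ∧
    (∀ w : List Bool, w.length ≤ 2 → ∀ z,
      |Dw w (fun z => Pop (pf X Y u) Y (fun z => z.1) z - 1) z| ≤ C * η ∧
      |Dw w (fun z => Pop (pf X Y u) Y (fun z => z.2) z) z| ≤ C * η ∧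
      |Dw w (fun z => Top (pf X Y u) Y (fun z => z.1) z) z| ≤ C * η ∧
      |Dw w (fun z => Top (pf X Y u) Y (fun z => z.2) z - 1) z| ≤ C * η ∧
      |Dw w (fun z => Pop (pf X Y u) Y X z - 1) z| ≤ C * η ∧
      |Dw w (fun z => Top (pf X Y u) Y X z) z| ≤ C * η)) :
    ∃ C1 C η0 : ℝ, 1 ≤ C1 ∧ 0 < C ∧ 0 < η0 ∧
    ∀ (η ξ : ℝ) (J : ℕ) (σ : ℕ → ℝ) (X Y u D1 D2 d : Pl → ℝ), 0 < η → η ≤ η0 → 1 ≤ ξ →
      (∀ j, σ j = 0 ∨ σ j = 1 ∨ σ j = -1) →
      NearCyl η X Y u → Sm D1 → Sm D2 → Sm d →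
      Strain (sq (9/10)) (pat ξ J σ) X Y u D1 D2 d →
      ∃ H G : Pl → ℝ, Src C1 (C * η) ξ J σ (pf X Y u) Y (kapf X Y u) d H G := by
  obtain ⟨η0, C0, hη0, hC0, hfc⟩ := hfc
  obtain ⟨K, hK, hsrc⟩ := src_core
  refine ⟨K + 1, (K + 1) * C0, min η0 (1 / (2 * C0)), by linarith, by positivity,
    by positivity, ?_⟩
  intro η ξ J σ X Y u D1 D2 d hη hη' hξ hσ hN hD1 hD2 hd hS
  obtain ⟨f1, f2, f3, f4, f5, f6, f7, f8, f9⟩ := hfc η X Y u (hη'.trans (min_le_left _ _)) hN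
  have hε : C0 * η ≤ 1 / 2 := by
    have := hη'.trans (min_le_right _ _)
    rw [le_div_iff₀ (by positivity)] at this
    linarith
  have hσ1 : ∀ j, |σ j| ≤ 1 := by
    intro j
    rcases hσ j with h | h | h <;> simp [h]
  have hJ0 : ∀ z, br (pf X Y u) Y z ≠ 0 := fun z h => by have := f6 z; linarith
  have hj0 : ∀ z, br X Y z ≠ 0 := fun z h => by have := f1 z; linarith
  have hPX : ∀ z, 1 / 2 ≤ Pop (pf X Y u) Y X z := by
    intro z
    have := (f9 [] (by simp) z).2.2.2.2.1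
    simp only [Dw] at this
    have := (abs_le.1 this).1
    linarith
  let c : Ctx := {
    ε := C0 * η, ξ := ξ, J := J, σ := σ, p := pf X Y u, X := X, Y := Y
    hε0 := by positivity
    hε := by linarith
    hξ := hξ
    hσ := hσ1
    smp := f2
    smX := hN.smX
    smY := hN.smY
    hJ := hJ0
    hPX := hPX
    bA := fun w hw z => (f9 w hw z).1
    bB := fun w hw z => (f9 w hw z).2.1
    bC := fun w hw z => (f9 w hw z).2.2.1
    bD := fun w hw z => (f9 w hw z).2.2.2.1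
    bE := fun w hw z => (f9 w hw z).2.2.2.2.1
    bF := fun w hw z => (f9 w hw z).2.2.2.2.2 }
  obtain ⟨g1, g2, g3, g4, g5, g6, g7, g8⟩ := hsrc c
  have hξ0 : 0 < ξ := by linarith
  have hεξ : 0 ≤ C0 * η * ξ := by positivity
  have sa : Sm (pat ξ J σ) := pat_eq_gpat ξ J σ ▸ gpat_smooth prof_psi prof_psi _ _ _
  refine ⟨Hc c, Gc c, ⟨hd, g1, g2, g3, g4, fun z => (g5 z).trans ?_, fun z => (g6 z).trans ?_,
    fun z => (g7 z).trans ?_, fun z => (g8 z).trans ?_, ?_⟩⟩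
  · show K * (C0 * η) * ξ ≤ (K + 1) * C0 * η * ξ
    nlinarith
  · show K * (C0 * η) * ξ ≤ (K + 1) * C0 * η * ξ
    nlinarith
  · show K * ξ ^ 2 ≤ (K + 1) * ξ ^ 2
    have : 0 ≤ ξ ^ 2 := by positivity
    nlinarith
  · show K * ξ ^ 2 ≤ (K + 1) * ξ ^ 2
    have : 0 ≤ ξ ^ 2 := by positivity
    nlinarith
  · intro z h1 h2
    exact lin_eq X Y u D1 D2 d (pat ξ J σ) hN.smX hN.smY hN.smu hD1 hD2 hd sa hj0 hJ0 (9 / 10) hS
      z h1 h2

end Crest.Agent.R220
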