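import Crest.Agent.R220.VirialUpAux
import Crest.Agent.R220.Virial

/-!
# Row 220: `virial_up`, the upper bound of the energy obtained from `virial` applied to `χ d`
-/

set_option autoImplicit false

open scoped ContDiff Topology
open MeasureTheory Set

namespace Crest.Agent.R220.VirialUp

/-- the multiplier -/
noncomputable def MV (p Y f : Pl → ℝ) (z : Pl) : ℝ :=
  p z * Pop p Y f z + (1/3) * Y z * Top p Y f z - (1/6) * f z

lemma MV_congr {p Y f g : Pl → ℝ} {z : Pl} (h : f =ᶠ[𝓝 z] g) : MV p Y f z = MV p Y g z := by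
  unfold MV
  rw [Pop_congr h, Top_congr h, h.self_of_nhds]

/-- sum of squares of a function and its gradient -/
noncomputable def ssq (d : Pl → ℝ) (z : Pl) : ℝ := d z ^ 2 + dx d z ^ 2 + dy d z ^ 2

lemma ssq_nonneg (d : Pl → ℝ) (z : Pl) : 0 ≤ ssq d z := by unfold ssq; positivity

/-- error term on the frame -/
lemma err_bound {η δ' K : ℝ} {p Y κ d : Pl → ℝ} (hη : η ≤ 1 / 100) (hδ : 0 < δ')
    (hδ1 : δ' ≤ 1) (h : GoodFrame η δ' p Y κ) (hd : Sm d) (hK : 1 ≤ K) (hc : Bd 1 2 K cut)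
    {z : Pl} (hz : z ∈ sq (8/10)) (hL : Lop p Y κ d z = 0) :
    |MV p Y (fun z => cut z * d z) z * Lop p Y κ (fun z => cut z * d z) z * br p Y z| ≤
      9000000 * K ^ 2 * ssq d z := by
  have hJ0 : ∀ z, br p Y z ≠ 0 := fun z => by
    have := (frame_pt hη h z).2.2.2.2.1
    positivity
  obtain ⟨-, -, -, -, hJ1, hJ2⟩ := frame_pt hη h z
  obtain ⟨k1, -, -⟩ := kap_abs_le hη hδ hδ1 h.ck hz
  obtain ⟨hpz, hYz⟩ := p_abs_le hη h z hz.1 hz.2
  have hLc := Lop_abs_le hη hδ hδ1 h hc hz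
  have bc := Bd.first (by norm_num) hc z
  have a0 := abs_nonneg (d z)
  have ax := abs_nonneg (dx d z)
  have ay := abs_nonneg (dy d z)
  have hPd := Pop_abs_le hη h d z
  have hTd := Top_abs_le hη h d z
  have hPc : |Pop p Y cut z| ≤ 8 * K := (Pop_abs_le hη h _ z).trans (by linarith [bc.1, bc.2])
  have hTc : |Top p Y cut z| ≤ 8 * K := (Top_abs_le hη h _ z).trans (by linarith [bc.1, bc.2])
  have c1 : |cut z| ≤ 1 := by rw [abs_of_nonneg (cut_nonneg z)]; exact cut_le_one z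
  set s := |d z| + (|dx d z| + |dy d z|) with hs
  have hs0 : 0 ≤ s := by positivity
  have hK0 : 0 ≤ K := by linarith
  have hPV : |Pop p Y (fun z => cut z * d z) z| ≤ 8 * K * s := by
    rw [Pop_mul p Y _ _ cut_smooth hd]
    refine (abs_add_le _ _).trans ?_
    rw [abs_mul, abs_mul]
    have e1 : |Pop p Y cut z| * |d z| ≤ 8 * K * |d z| := by gcongr
    have e2 : |cut z| * |Pop p Y d z| ≤ 1 * (4 * (|dx d z| + |dy d z|)) :=
      mul_le_mul c1 hPd (abs_nonneg _) (by norm_num)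
    have e3 : 4 * (|dx d z| + |dy d z|) ≤ 8 * K * (|dx d z| + |dy d z|) := by
      apply mul_le_mul_of_nonneg_right _ (by positivity); linarith
    rw [hs]; linarith
  have hTV : |Top p Y (fun z => cut z * d z) z| ≤ 8 * K * s := by
    rw [Top_mul p Y _ _ cut_smooth hd]
    refine (abs_add_le _ _).trans ?_
    rw [abs_mul, abs_mul]
    have e1 : |Top p Y cut z| * |d z| ≤ 8 * K * |d z| := by gcongr
    have e2 : |cut z| * |Top p Y d z| ≤ 1 * (4 * (|dx d z| + |dy d z|)) :=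
      mul_le_mul c1 hTd (abs_nonneg _) (by norm_num)
    have e3 : 4 * (|dx d z| + |dy d z|) ≤ 8 * K * (|dx d z| + |dy d z|) := by
      apply mul_le_mul_of_nonneg_right _ (by positivity); linarith
    rw [hs]; linarith
  have hV : |cut z * d z| ≤ s := by
    rw [abs_mul]
    have : |cut z| * |d z| ≤ 1 * |d z| := by gcongr
    rw [hs]; linarith
  have hM : |MV p Y (fun z => cut z * d z) z| ≤ 44 * K * s := by
    unfold MV
    have e1 : |p z * Pop p Y (fun z => cut z * d z) z| ≤ 4 * (8/10) * (8 * K * s) := by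
      rw [abs_mul]; exact mul_le_mul hpz hPV (abs_nonneg _) (by norm_num)
    have e2 : |(1/3) * Y z * Top p Y (fun z => cut z * d z) z| ≤
        (1/3) * (4 * (8/10)) * (8 * K * s) := by
      rw [abs_mul, abs_mul, abs_of_pos (by norm_num : (0:ℝ) < 1/3)]
      exact mul_le_mul (mul_le_mul_of_nonneg_left hYz (by norm_num)) hTV (abs_nonneg _)
        (by norm_num)
    have e3 : |(1/6) * (cut z * d z)| ≤ K * s := by
      rw [abs_mul, abs_of_pos (by norm_num : (0:ℝ) < 1/6)]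
      have : s ≤ K * s := le_mul_of_one_le_left hs0 hK
      linarith
    refine (abs_sub _ _).trans ?_
    have := abs_add_le (p z * Pop p Y (fun z => cut z * d z) z)
      ((1/3) * Y z * Top p Y (fun z => cut z * d z) z)
    have hKs : 0 ≤ K * s := by positivity
    linarith
  have hLV : |Lop p Y κ (fun z => cut z * d z) z| ≤ 31000 * K * s := by
    rw [Lop_mul h.smp h.smY h.smk cut_smooth hd hJ0, hL, mul_zero, zero_add]
    have e1 : |Top p Y cut z * Top p Y d z| ≤ 8 * K * (4 * (|dx d z| + |dy d z|)) := by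
      rw [abs_mul]; exact mul_le_mul hTc hTd (abs_nonneg _) (by positivity)
    have e2 : |κ z * Pop p Y cut z * Pop p Y d z| ≤
        2 * (8 * K) * (4 * (|dx d z| + |dy d z|)) := by
      rw [abs_mul, abs_mul]
      exact mul_le_mul (mul_le_mul k1 hPc (abs_nonneg _) (by norm_num)) hPd (abs_nonneg _)
        (by positivity)
    have e3 : |d z * Lop p Y κ cut z| ≤ |d z| * (30000 * K) := by
      rw [abs_mul]; gcongr
    refine (abs_add_le _ _).trans ?_
    rw [abs_mul, abs_two]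
    have e4 := abs_add_le (Top p Y cut z * Top p Y d z) (κ z * Pop p Y cut z * Pop p Y d z)
    have h1 : 0 ≤ K * |d z| := by positivity
    have h2 : 0 ≤ K * (|dx d z| + |dy d z|) := by positivity
    rw [hs]
    nlinarith
  rw [abs_mul, abs_mul, abs_of_pos (by linarith : 0 < br p Y z)]
  have hss : s ^ 2 ≤ 3 * ssq d z := by
    unfold ssq
    rw [hs, ← sq_abs (d z), ← sq_abs (dx d z), ← sq_abs (dy d z)]
    nlinarith [sq_nonneg (|d z| - |dx d z|), sq_nonneg (|d z| - |dy d z|),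
      sq_nonneg (|dx d z| - |dy d z|)]
  calc |MV p Y (fun z => cut z * d z) z| * |Lop p Y κ (fun z => cut z * d z) z| * br p Y z
      ≤ (44 * K * s) * (31000 * K * s) * 2 :=
        mul_le_mul (mul_le_mul hM hLV (abs_nonneg _) (by positivity)) hJ2 (by linarith)
          (by positivity)
    _ = 2728000 * K ^ 2 * s ^ 2 := by ring
    _ ≤ 3000000 * K ^ 2 * s ^ 2 := by
        apply mul_le_mul_of_nonneg_right _ (sq_nonneg _)
        apply mul_le_mul_of_nonneg_right _ (sq_nonneg _)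
        norm_num
    _ ≤ 3000000 * K ^ 2 * (3 * ssq d z) := by
        apply mul_le_mul_of_nonneg_left hss (by positivity)
    _ = 9000000 * K ^ 2 * ssq d z := by ring

/-- source term on the active set -/
lemma src_bound {η δ' ξ hh C1 K' : ℝ} {J : ℕ} {σ : ℕ → ℝ} {p Y κ d H G : Pl → ℝ}
    (hη : η ≤ 1 / 100) (h : GoodFrame η δ' p Y κ) (hC1 : 1 ≤ C1)
    (hξ : 16 ≤ ξ) (hh0 : 0 < hh) (hJ : (J : ℝ) ≤ hh * ξ) (hK' : 0 ≤ K')
    (hpat : ∀ z, |dx (pat ξ J σ) z| ≤ K' * ξ) (hs : Src C1 η ξ J σ p Y κ d H G)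
    {z : Pl} (hz : z ∈ NS ξ J σ) :
    |(p z * Pop p Y d z + (1/3) * Y z * Top p Y d z) * (Pop p Y H z + Top p Y G z) * br p Y z|
      + (1/6) * |(Pop p Y d z * H z + Top p Y d z * G z) * br p Y z| ≤
    (17 + K') * ((hh + 1 / ξ) * C1 * ξ ^ 2) * (|Pop p Y d z| + |Top p Y d z|) := by
  have hξ0 : 0 < ξ := by linarith
  obtain ⟨-, -, -, -, hJ1, hJ2⟩ := frame_pt hη h z
  have hr : 0 < hh + 1 / ξ := by positivity
  have hz1 : |z.1| ≤ hh + 1 / ξ := (NS_abs_fst hξ0 hJ hz).trans (by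
    have : 0 < 1 / ξ := by positivity
    linarith)
  have hz2 : |z.2| ≤ hh + 1 / ξ := (NS_abs_snd hξ0 hz).trans (by
    have : 1 / (4 * ξ) ≤ 1 / ξ := by
      apply one_div_le_one_div_of_le hξ0; linarith
    linarith)
  obtain ⟨hp, hY⟩ := p_abs_le hη h z hz1 hz2
  set r := hh + 1 / ξ with hr'
  have hrξ : 1 ≤ r * ξ := by
    rw [hr', add_mul, one_div, inv_mul_cancel₀ hξ0.ne']
    nlinarith
  set a := |Pop p Y d z| with ha
  set b := |Top p Y d z| with hb
  have ha0 : 0 ≤ a := abs_nonneg _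
  have hb0 : 0 ≤ b := abs_nonneg _
  have e1 : |p z * Pop p Y d z + (1/3) * Y z * Top p Y d z| ≤ 4 * r * (a + b) := by
    refine (abs_add_le _ _).trans ?_
    rw [abs_mul, abs_mul, abs_mul, abs_of_pos (by norm_num : (0:ℝ) < 1/3), ← ha, ← hb]
    have f1 : |p z| * a ≤ 4 * r * a := by gcongr
    have f2 : 1 / 3 * |Y z| * b ≤ 1 * (4 * r) * b := by
      gcongr; norm_num
    linarith
  have e2 : |Pop p Y H z + Top p Y G z| ≤ 2 * (C1 * ξ ^ 2) := by
    refine (abs_add_le _ _).trans ?_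
    linarith [hs.bPH z, hs.bTG z]
  have hH : |H z| ≤ (1 + K') * ξ := by
    have h1 := hs.bH z
    have h2 := hpat z
    have h3 : |H z| ≤ |H z - (1 / 2) * dx (pat ξ J σ) z| + |(1 / 2) * dx (pat ξ J σ) z| := by
      have := abs_add_le (H z - (1 / 2) * dx (pat ξ J σ) z) ((1 / 2) * dx (pat ξ J σ) z)
      simpa using this
    rw [abs_mul (1/2) (dx (pat ξ J σ) z), abs_of_pos (by norm_num : (0:ℝ) < 1/2)] at h3
    have h4 : 0 ≤ K' * ξ := by positivity
    nlinarith
  have hG : |G z| ≤ (1 + K') * ξ := by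
    have h1 := hs.bG z
    have h4 : 0 ≤ K' * ξ := by positivity
    nlinarith
  have e3 : |Pop p Y d z * H z + Top p Y d z * G z| ≤ (1 + K') * ξ * (a + b) := by
    refine (abs_add_le _ _).trans ?_
    rw [abs_mul, abs_mul, ← ha, ← hb]
    have f1 : a * |H z| ≤ a * ((1 + K') * ξ) := by gcongr
    have f2 : b * |G z| ≤ b * ((1 + K') * ξ) := by gcongr
    linarith
  have hJp : 0 < br p Y z := by linarith
  rw [abs_mul, abs_mul, abs_mul _ (br p Y z), abs_of_pos hJp]
  have g1 : |p z * Pop p Y d z + 1 / 3 * Y z * Top p Y d z| * |Pop p Y H z + Top p Y G z| *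
      br p Y z ≤ (4 * r * (a + b)) * (2 * (C1 * ξ ^ 2)) * 2 :=
    mul_le_mul (mul_le_mul e1 e2 (abs_nonneg _) (by positivity)) hJ2 hJp.le (by positivity)
  have g2 : |Pop p Y d z * H z + Top p Y d z * G z| * br p Y z ≤ ((1 + K') * ξ * (a + b)) * 2 :=
    mul_le_mul e3 hJ2 hJp.le (by positivity)
  have g3 : ξ ≤ r * C1 * ξ ^ 2 := by
    have f1 : 1 ≤ r * ξ * C1 := by
      calc (1:ℝ) = 1 * 1 := by norm_num
        _ ≤ r * ξ * C1 := mul_le_mul hrξ hC1 (by norm_num) (by positivity)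
    calc ξ = 1 * ξ := by ring
      _ ≤ (r * ξ * C1) * ξ := by gcongr
      _ = r * C1 * ξ ^ 2 := by ring
  have g4 : (1 + K') * ξ * (a + b) ≤ (1 + K') * (r * C1 * ξ ^ 2) * (a + b) := by gcongr
  have g5 : 0 ≤ (r * C1 * ξ ^ 2) * (a + b) := by positivity
  nlinarith


lemma goodFrame_mono {η η' δ' : ℝ} {p Y κ : Pl → ℝ} (hη : η ≤ η') (hδ : 0 < δ')
    (h : GoodFrame η δ' p Y κ) : GoodFrame η' δ' p Y κ := by
  refine ⟨h.smp, h.smY, h.smk, h.p0, h.Y0, fun z => ⟨(h.cp z).1.trans hη, (h.cp z).2.trans hη⟩,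
    fun z => ⟨(h.cY z).1.trans hη, (h.cY z).2.trans hη⟩, fun w hw z => (h.cp2 w hw z).trans hη,
    fun w hw z => (h.cY2 w hw z).trans hη, fun z hz => ?_⟩
  have hm : η * δ' ≤ η' * δ' := mul_le_mul_of_nonneg_right hη hδ.le
  obtain ⟨a, b, c⟩ := h.ck z hz
  exact ⟨a.trans hm, b.trans hm, c.trans hm⟩

lemma isCompact_frame (a b : ℝ) : IsCompact (frame a b) := by
  have h2 : IsClosed {z : Pl | ¬ (|z.1| < a ∧ |z.2| < a)} := by
    have : {z : Pl | ¬ (|z.1| < a ∧ |z.2| < a)} = ({z : Pl | |z.1| < a} ∩ {z : Pl | |z.2| < a})ᶜ := by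
      ext z; simp
    rw [this]
    exact ((isOpen_lt continuous_fst.abs continuous_const).inter
      (isOpen_lt continuous_snd.abs continuous_const)).isClosed_compl
  have h1 : IsClosed (frame a b) := (ClassPigeon.isCompact_sq b).isClosed.inter h2
  exact (ClassPigeon.isCompact_sq b).of_isClosed_subset h1 (fun z hz => hz.1)

lemma en_nonneg {δ' : ℝ} (hδ : 0 < δ') (p Y d : Pl → ℝ) (z : Pl) : 0 ≤ en δ' p Y d z := by
  unfold en; positivity

/-- the sources vanish (with their derivatives) off the active set -/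
lemma src_off {C1 η ξ : ℝ} {J : ℕ} {σ : ℕ → ℝ} {p Y κ d H G : Pl → ℝ}
    (hs : Src C1 η ξ J σ p Y κ d H G) {z : Pl} (hz : z ∉ NS ξ J σ) :
    H z = 0 ∧ G z = 0 ∧ Pop p Y H z = 0 ∧ Top p Y G z = 0 := by
  have hn := (isClosed_NS ξ J σ).isOpen_compl.mem_nhds hz
  have eH : H =ᶠ[𝓝 z] fun _ => 0 := by
    filter_upwards [hn] with w hw; exact hs.suppH w hw
  have eG : G =ᶠ[𝓝 z] fun _ => 0 := by
    filter_upwards [hn] with w hw; exact hs.suppG w hw
  refine ⟨hs.suppH z hz, hs.suppG z hz, ?_, ?_⟩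
  · rw [Pop_congr eH, Pop_const]
  · rw [Top_congr eG, Top_const]

/-- energy integrals over the layer control the sources -/
lemma layer_le {δ' ξ hh : ℝ} {J : ℕ} {σ : ℕ → ℝ} {p Y d : Pl → ℝ} (hδ : 0 < δ') (hδ1 : δ' ≤ 1)
    (hξ : 0 < ξ) (hJ : (J : ℝ) ≤ hh * ξ) (hh8 : hh ≤ 1 / 8)
    (sP : Sm (Pop p Y d)) (sT : Sm (Top p Y d)) :
    (∫ z in NS ξ J σ, |Pop p Y d z|) + (∫ z in NS ξ J σ, |Top p Y d z|) ≤
      Real.sqrt (nact J σ) / ξ * Real.sqrt ((∫ z in layN ξ, en δ' p Y d z) / δ') := by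
  have cK := isCompact_layN ξ
  have i1 : IntegrableOn (fun z => Pop p Y d z ^ 2) (layN ξ) :=
    (sP.pow' 2).continuous'.continuousOn.integrableOn_compact cK
  have i2 : IntegrableOn (fun z => Top p Y d z ^ 2) (layN ξ) :=
    (sT.pow' 2).continuous'.continuousOn.integrableOn_compact cK
  have i3 : IntegrableOn (fun z => en δ' p Y d z / δ') (layN ξ) := by
    have : Continuous (fun z => en δ' p Y d z / δ') := by
      unfold en
      exact (((sT.pow' 2).continuous').add (continuous_const.mul (sP.pow' 2).continuous')).div_const _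
    exact this.continuousOn.integrableOn_compact cK
  have e1 : ∫ z in layN ξ, Pop p Y d z ^ 2 ≤ (∫ z in layN ξ, en δ' p Y d z) / δ' := by
    rw [← integral_div]
    refine integral_mono i1 i3 fun z => ?_
    show Pop p Y d z ^ 2 ≤ en δ' p Y d z / δ'
    rw [le_div_iff₀ hδ]
    unfold en
    nlinarith [sq_nonneg (Top p Y d z)]
  have e2 : ∫ z in layN ξ, Top p Y d z ^ 2 ≤ (∫ z in layN ξ, en δ' p Y d z) / δ' := by
    rw [← integral_div]
    refine integral_mono i2 i3 fun z => ?_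
    show Top p Y d z ^ 2 ≤ en δ' p Y d z / δ'
    rw [le_div_iff₀ hδ]
    unfold en
    have h1 : Top p Y d z ^ 2 * δ' ≤ Top p Y d z ^ 2 * 1 := by gcongr
    have h2 : 0 ≤ δ' * Pop p Y d z ^ 2 := by positivity
    linarith
  have f1 := integral_NS_le (σ := σ) hξ hJ hh8 sP.continuous'
  have f2 := integral_NS_le (σ := σ) hξ hJ hh8 sT.continuous'
  have g1 := Real.sqrt_le_sqrt e1
  have g2 := Real.sqrt_le_sqrt e2
  have n0 : 0 ≤ Real.sqrt (nact J σ) / (2 * ξ) := by positivity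
  have h1 := f1.trans (mul_le_mul_of_nonneg_left g1 n0)
  have h2 := f2.trans (mul_le_mul_of_nonneg_left g2 n0)
  refine (add_le_add h1 h2).trans (le_of_eq ?_)
  field_simp
  ring

/-- `virial_up` from `virial` -/
theorem of_virial (hv : ∃ η : ℝ, 0 < η ∧ ∀ (δ' : ℝ) (p Y κ V : Pl → ℝ), 0 < δ' →
    GoodFrame η δ' p Y κ → Sm V → (∀ z, z ∉ sq (8/10) → V z = 0) →
    (1 / 40) * ∫ z, en δ' p Y V z ≤
      ∫ z, (p z * Pop p Y V z + (1/3) * Y z * Top p Y V z - (1/6) * V z) * Lop p Y κ V z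
        * br p Y z) :
    ∃ η C : ℝ, 0 < η ∧ 0 < C ∧ ∀ (C1 δ' ξ hh : ℝ) (J : ℕ) (σ : ℕ → ℝ)
    (p Y κ d H G : Pl → ℝ), 1 ≤ C1 → 0 < δ' → δ' ≤ 1 → 16 ≤ ξ → 0 < hh → hh + 1 / ξ ≤ 1 / 16 →
    (J : ℝ) ≤ hh * ξ → (∀ j, σ j = 0 ∨ σ j = 1 ∨ σ j = -1) →
    GoodFrame η δ' p Y κ → Src C1 η ξ J σ p Y κ d H G →
    ∫ z in sq (7/10), en δ' p Y d z ≤
      C * ((hh + 1 / ξ) * (C1 * ξ * Real.sqrt (nact J σ) *
        Real.sqrt ((∫ z in layN ξ, en δ' p Y d z) / δ')))
      + C * ∫ z in frame (7/10) (8/10), (d z ^ 2 + dx d z ^ 2 + dy d z ^ 2) := by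
  obtain ⟨ηv, hηv, hv⟩ := hv
  obtain ⟨K, hK, hcut⟩ := exists_Bd cut_smooth cut_compact 2
  obtain ⟨K', hpat⟩ := pat_Bd 1
  have hK'0 : 0 ≤ K' := (hpat 1 0 (fun _ => 0) le_rfl (fun _ => by simp)).nonneg
  have hηpos : 0 < min ηv (1 / 100) := by positivity
  refine ⟨min ηv (1 / 100), 40 * (17 + K' + 9000000 * K ^ 2), hηpos, by positivity, ?_⟩
  intro C1 δ' ξ hh J σ p Y κ d H G hC1 hδ hδ1 hξ hh0 hhξ hJ hσ hF hS
  have hη : min ηv (1 / 100) ≤ 1 / 100 := min_le_right _ _
  have hξ0 : 0 < ξ := by linarith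
  have h1ξ : 0 < 1 / ξ := by positivity
  have hh8 : hh ≤ 1 / 8 := by linarith
  have hd := hS.smd
  have hp := hF.smp
  have hY := hF.smY
  have hJ0 : ∀ z, br p Y z ≠ 0 := fun z => by
    have := (frame_pt hη hF z).2.2.2.2.1
    positivity
  have hdpat : ∀ z, |dx (pat ξ J σ) z| ≤ K' * ξ := by
    intro z
    have h1 := (hpat ξ J σ (by linarith) (fun j => by
      rcases hσ j with h | h | h <;> simp [h])).2 [true] (by simp) z
    simpa [Dw] using h1
  have sJ := hp.br hY
  have sPd := Sm.Pop hp hY hd hJ0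
  have sTd := Sm.Top hp hY hd hJ0
  have sPH := Sm.Pop hp hY hS.smH hJ0
  have sTG := Sm.Top hp hY hS.smG hJ0
  -- compact supports
  have cNS : IsCompact (NS ξ J σ) :=
    (isCompact_layN ξ).of_isClosed_subset (isClosed_NS ξ J σ) (NS_subset_layN hξ0 hJ hh8)
  have cH : HasCompactSupport H := HasCompactSupport.intro cNS hS.suppH
  have cG : HasCompactSupport G := HasCompactSupport.intro cNS hS.suppG
  -- the function V
  set V : Pl → ℝ := fun z => cut z * d z with hVdef
  have sV : Sm V := cut_smooth.mul' hd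
  have cV : HasCompactSupport V := HasCompactSupport.mul_right cut_compact
  have hV0 : ∀ z, z ∉ sq (8/10) → V z = 0 := by
    intro z hz
    have : z ∉ sq (78/100) := fun h => hz ⟨h.1.trans (by norm_num), h.2.trans (by norm_num)⟩
    simp [hVdef, cut_zero this]
  have sPV := Sm.Pop hp hY sV hJ0
  have sTV := Sm.Top hp hY sV hJ0
  have sLV : Sm (Lop p Y κ V) := Sm.Lop hp hY hF.smk sV hJ0
  have hvir := hv δ' p Y κ V hδ (goodFrame_mono (min_le_left _ _) hδ hF) sV hV0
  have hVd : ∀ z : Pl, |z.1| < 72/100 → |z.2| < 72/100 → V =ᶠ[𝓝 z] d := by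
    intro z h1 h2
    filter_upwards [cut_eventually_one h1 h2] with w hw
    simp [hVdef, hw]
  -- lower bound
  have hlow : ∫ z in sq (7/10), en δ' p Y d z ≤ ∫ z, en δ' p Y V z := by
    have e1 : ∫ z in sq (7/10), en δ' p Y d z = ∫ z in sq (7/10), en δ' p Y V z := by
      refine setIntegral_congr_fun (ClassPigeon.isCompact_sq _).isClosed.measurableSet ?_
      intro z hz
      have hz' := hVd z (lt_of_le_of_lt hz.1 (by norm_num)) (lt_of_le_of_lt hz.2 (by norm_num))
      simp only [en]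
      rw [Pop_congr hz', Top_congr hz']
    rw [e1]
    have sen : Sm (en δ' p Y V) := (sTV.pow' 2).add' ((Sm.const δ').mul' (sPV.pow' 2))
    have cen : HasCompactSupport (en δ' p Y V) := by
      refine cV.mono' ?_
      intro z hz
      by_contra hn
      apply hz
      simp only [en]
      rw [Top_eq_zero_of_notMem hn, Pop_eq_zero_of_notMem hn]; ring
    exact setIntegral_le_integral (sen.integrable cen)
      (Filter.Eventually.of_forall (en_nonneg hδ p Y V))
  -- the pieces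
  set A : Pl → ℝ := fun z => (p z * Pop p Y d z + (1/3) * Y z * Top p Y d z) *
    (Pop p Y H z + Top p Y G z) * br p Y z with hA
  set B : Pl → ℝ := fun z => (Pop p Y d z * H z + Top p Y d z * G z) * br p Y z with hB
  set M : Pl → ℝ := fun z => MV p Y V z * Lop p Y κ V z * br p Y z with hMdef
  set Q1 : Pl → ℝ := fun z => d z * Pop p Y H z * br p Y z with hQ1
  set Q2 : Pl → ℝ := fun z => d z * Top p Y G z * br p Y z with hQ2
  have cPH : HasCompactSupport (Pop p Y H) := HasCompactSupport.Pop cH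
  have cTG : HasCompactSupport (Top p Y G) := HasCompactSupport.Top cG
  have sA : Sm A := (((hp.mul' sPd).add' (((Sm.const (1/3)).mul' hY).mul' sTd)).mul'
    (sPH.add' sTG)).mul' sJ
  have sB : Sm B := ((sPd.mul' hS.smH).add' (sTd.mul' hS.smG)).mul' sJ
  have sMV : Sm (MV p Y V) := ((hp.mul' sPV).add' (((Sm.const (1/3)).mul' hY).mul' sTV)).sub'
    ((Sm.const (1/6)).mul' sV)
  have sM : Sm M := (sMV.mul' sLV).mul' sJ
  have sQ1 : Sm Q1 := (hd.mul' sPH).mul' sJ
  have sQ2 : Sm Q2 := (hd.mul' sTG).mul' sJ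
  have cA : HasCompactSupport A := HasCompactSupport.intro cNS fun z hz => by
    obtain ⟨-, -, h3, h4⟩ := src_off hS hz
    simp only [hA]; rw [h3, h4]; ring
  have cB : HasCompactSupport B := HasCompactSupport.intro cNS fun z hz => by
    obtain ⟨h1, h2, -, -⟩ := src_off hS hz
    simp only [hB]; rw [h1, h2]; ring
  have cQ1 : HasCompactSupport Q1 := (HasCompactSupport.mul_left cPH).mul_right
  have cQ2 : HasCompactSupport Q2 := (HasCompactSupport.mul_left cTG).mul_right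
  have cM : HasCompactSupport M := by
    refine cV.mono' ?_
    intro z hz
    by_contra hn
    apply hz
    simp only [hMdef, MV]
    rw [Top_eq_zero_of_notMem hn, Pop_eq_zero_of_notMem hn, image_eq_zero_of_notMem_tsupport hn]
    ring
  have iA := sA.integrable cA
  have iB := sB.integrable cB
  have iM := sM.integrable cM
  have iQ1 := sQ1.integrable cQ1
  have iQ2 := sQ2.integrable cQ2
  -- the remainder, supported in the frame
  set R : Pl → ℝ := fun z => M z + A z - (1/6) * (Q1 z + Q2 z) with hR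
  have sR : Sm R := (sM.add' sA).sub' ((Sm.const (1/6)).mul' (sQ1.add' sQ2))
  have hRoff : ∀ z, z ∉ frame (7/10) (8/10) → R z = 0 := by
    intro z hz
    by_cases hz8 : z ∈ sq (78/100)
    · have hin : |z.1| < 7/10 ∧ |z.2| < 7/10 := by
        by_contra hn
        exact hz ⟨⟨hz8.1.trans (by norm_num), hz8.2.trans (by norm_num)⟩, hn⟩
      have he := hVd z (hin.1.trans (by norm_num)) (hin.2.trans (by norm_num))
      have hpde := hS.pde z (hin.1.trans (by norm_num)) (hin.2.trans (by norm_num))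
      simp only [hR, hMdef, hA, hQ1, hQ2]
      rw [MV_congr he, Lop_congr he, hpde, MV]
      ring
    · have hns : z ∉ NS ξ J σ := by
        intro h
        apply hz8
        have h2 := NS_subset_layN hξ0 hJ hh8 h
        refine ⟨h2.1.trans (by norm_num), h2.2.trans ?_⟩
        rw [div_le_iff₀ hξ0]; linarith
      obtain ⟨h1, h2, h3, h4⟩ := src_off hS hns
      have hVz : V =ᶠ[𝓝 z] fun _ => 0 := by
        filter_upwards [cut_eventually_zero hz8] with w hw
        simp [hVdef, hw]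
      simp only [hR, hMdef, hA, hQ1, hQ2]
      rw [Lop_congr hVz, Lop_zero, h3, h4]
      ring
  have hRon : ∀ z ∈ frame (7/10) (8/10), R z ≤ 9000000 * K ^ 2 * ssq d z := by
    intro z hz
    have hns : z ∉ NS ξ J σ := by
      intro h
      apply hz.2
      have h2 := NS_subset_layN hξ0 hJ hh8 h
      refine ⟨lt_of_le_of_lt h2.1 (by norm_num), lt_of_le_of_lt h2.2 ?_⟩
      rw [div_lt_iff₀ hξ0]; linarith
    obtain ⟨h1, h2, h3, h4⟩ := src_off hS hns
    have hL0 : Lop p Y κ d z = 0 := by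
      rw [hS.pde z (lt_of_le_of_lt hz.1.1 (by norm_num)) (lt_of_le_of_lt hz.1.2 (by norm_num)),
        h3, h4]
      ring
    have hb := err_bound hη hδ hδ1 hF hd hK hcut hz.1 hL0
    have e : R z = M z := by
      simp only [hR, hA, hQ1, hQ2]
      rw [h3, h4]; ring
    rw [e]
    exact (le_abs_self _).trans hb
  have cF := isCompact_frame (7/10) (8/10)
  have sss : Continuous (ssq d) :=
    (((hd.pow' 2).continuous').add ((hd.dx.pow' 2).continuous')).add ((hd.dy.pow' 2).continuous')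
  have hRint : ∫ z, R z ≤ 9000000 * K ^ 2 * ∫ z in frame (7/10) (8/10), ssq d z := by
    rw [← setIntegral_eq_integral_of_forall_compl_eq_zero hRoff, ← integral_const_mul]
    exact setIntegral_mono_on (sR.continuous'.continuousOn.integrableOn_compact cF)
      ((continuous_const.mul sss).continuousOn.integrableOn_compact cF)
      cF.isClosed.measurableSet hRon
  -- integration by parts
  have hQ1i : ∫ z, Q1 z = - ∫ z, Pop p Y d z * H z * br p Y z :=
    integral_mul_Pop hp hY hd hS.smH hJ0 (Or.inr cH)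
  have hQ2i : ∫ z, Q2 z = - ∫ z, Top p Y d z * G z * br p Y z :=
    integral_mul_Top hp hY hd hS.smG hJ0 (Or.inr cG)
  have iB1 : Integrable (fun z => Pop p Y d z * H z * br p Y z) :=
    ((sPd.mul' hS.smH).mul' sJ).integrable ((HasCompactSupport.mul_left cH).mul_right)
  have iB2 : Integrable (fun z => Top p Y d z * G z * br p Y z) :=
    ((sTd.mul' hS.smG).mul' sJ).integrable ((HasCompactSupport.mul_left cG).mul_right)
  have hBi : ∫ z, B z = (∫ z, Pop p Y d z * H z * br p Y z)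
      + ∫ z, Top p Y d z * G z * br p Y z := by
    rw [← integral_add iB1 iB2]
    congr 1
    funext z
    simp only [hB]; ring
  have hRi : ∫ z, R z = (∫ z, M z) + (∫ z, A z) - (1/6) * ((∫ z, Q1 z) + ∫ z, Q2 z) := by
    have iMA : Integrable (fun z => M z + A z) := iM.add iA
    have iQ : Integrable (fun z => Q1 z + Q2 z) := iQ1.add iQ2
    have iQ' : Integrable (fun z => (1/6) * (Q1 z + Q2 z)) := iQ.const_mul _
    simp only [hR]
    rw [integral_sub iMA iQ', integral_add iM iA, integral_const_mul, integral_add iQ1 iQ2]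
  -- source integrals
  have hsrc : (∫ z, |A z|) + (1/6) * ∫ z, |B z| ≤ (17 + K') * ((hh + 1 / ξ) * (C1 * ξ *
      Real.sqrt (nact J σ) * Real.sqrt ((∫ z in layN ξ, en δ' p Y d z) / δ'))) := by
    have iAB : Integrable (fun z => |A z| + (1/6) * |B z|) := iA.abs.add (iB.abs.const_mul _)
    rw [← integral_const_mul, ← integral_add iA.abs (iB.abs.const_mul _)]
    have hoff : ∀ z, z ∉ NS ξ J σ → |A z| + (1/6) * |B z| = 0 := by
      intro z hz
      obtain ⟨h1, h2, h3, h4⟩ := src_off hS hz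
      have hA0 : A z = 0 := by simp only [hA]; rw [h3, h4]; ring
      have hB0 : B z = 0 := by simp only [hB]; rw [h1, h2]; ring
      rw [hA0, hB0]; simp
    rw [← setIntegral_eq_integral_of_forall_compl_eq_zero hoff]
    have iP : IntegrableOn (fun z => |Pop p Y d z|) (NS ξ J σ) :=
      sPd.continuous'.abs.continuousOn.integrableOn_compact cNS
    have iT : IntegrableOn (fun z => |Top p Y d z|) (NS ξ J σ) :=
      sTd.continuous'.abs.continuousOn.integrableOn_compact cNS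
    have iPT : IntegrableOn (fun z => |Pop p Y d z| + |Top p Y d z|) (NS ξ J σ) := iP.add iT
    have h1 : ∫ z in NS ξ J σ, (|A z| + (1/6) * |B z|) ≤
        ∫ z in NS ξ J σ, (17 + K') * ((hh + 1 / ξ) * C1 * ξ ^ 2) *
          (|Pop p Y d z| + |Top p Y d z|) :=
      setIntegral_mono_on iAB.integrableOn (iPT.const_mul _) (measurableSet_NS ξ J σ)
        (fun z hz => src_bound hη hF hC1 hξ hh0 hJ hK'0 hdpat hS hz)
    refine h1.trans ?_
    rw [integral_const_mul, integral_add iP iT]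
    have h2 := layer_le (σ := σ) hδ hδ1 hξ0 hJ hh8 sPd sTd
    have hc : 0 ≤ (17 + K') * ((hh + 1 / ξ) * C1 * ξ ^ 2) := by positivity
    refine (mul_le_mul_of_nonneg_left h2 hc).trans (le_of_eq ?_)
    field_simp
  have hX0 : 0 ≤ (hh + 1 / ξ) * (C1 * ξ * Real.sqrt (nact J σ) *
      Real.sqrt ((∫ z in layN ξ, en δ' p Y d z) / δ')) := by positivity
  have hF0 : 0 ≤ ∫ z in frame (7/10) (8/10), ssq d z := integral_nonneg fun z => ssq_nonneg d z
  have hMi : ∫ z, M z ≤ 9000000 * K ^ 2 * (∫ z in frame (7/10) (8/10), ssq d z)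
      + (17 + K') * ((hh + 1 / ξ) * (C1 * ξ *
      Real.sqrt (nact J σ) * Real.sqrt ((∫ z in layN ξ, en δ' p Y d z) / δ'))) := by
    have hA1 : - ∫ z, A z ≤ ∫ z, |A z| := by
      have := abs_integral_le_integral_abs (f := A) (μ := volume)
      exact (neg_le_abs _).trans this
    have hB1 : - ∫ z, B z ≤ ∫ z, |B z| := by
      have := abs_integral_le_integral_abs (f := B) (μ := volume)
      exact (neg_le_abs _).trans this
    have e : ∫ z, M z = (∫ z, R z) - (∫ z, A z) - (1/6) * ∫ z, B z := by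
      rw [hRi, hQ1i, hQ2i, hBi]; ring
    rw [e]
    linarith
  have hfin : (1 / 40) * ∫ z, en δ' p Y V z ≤ ∫ z, M z := hvir
  have hssq : ∫ z in frame (7/10) (8/10), (d z ^ 2 + dx d z ^ 2 + dy d z ^ 2)
      = ∫ z in frame (7/10) (8/10), ssq d z := rfl
  rw [hssq]
  refine hlow.trans ?_
  set X := (hh + 1 / ξ) * (C1 * ξ * Real.sqrt (nact J σ) *
      Real.sqrt ((∫ z in layN ξ, en δ' p Y d z) / δ')) with hX
  set F := ∫ z in frame (7/10) (8/10), ssq d z with hFd
  have hKK : 0 ≤ K ^ 2 := sq_nonneg _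
  have q1 : 0 ≤ K' * F := by positivity
  have q2 : 0 ≤ K ^ 2 * X := by positivity
  nlinarith

end Crest.Agent.R220.VirialUp

namespace Crest.Agent.R220

/-- **virial_up**: `virial` applied to `V = χ d`. -/
theorem virial_up : ∃ η C : ℝ, 0 < η ∧ 0 < C ∧ ∀ (C1 δ' ξ hh : ℝ) (J : ℕ) (σ : ℕ → ℝ)
    (p Y κ d H G : Pl → ℝ), 1 ≤ C1 → 0 < δ' → δ' ≤ 1 → 16 ≤ ξ → 0 < hh → hh + 1 / ξ ≤ 1 / 16 →
    (J : ℝ) ≤ hh * ξ → (∀ j, σ j = 0 ∨ σ j = 1 ∨ σ j = -1) →
    GoodFrame η δ' p Y κ → Src C1 η ξ J σ p Y κ d H G →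
    ∫ z in sq (7/10), en δ' p Y d z ≤
      C * ((hh + 1 / ξ) * (C1 * ξ * Real.sqrt (nact J σ) *
        Real.sqrt ((∫ z in layN ξ, en δ' p Y d z) / δ')))
      + C * ∫ z in frame (7/10) (8/10), (d z ^ 2 + dx d z ^ 2 + dy d z ^ 2) :=
  VirialUp.of_virial virial

end Crest.Agent.R220
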