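import Crest.Agent.R220.GMI
import Crest.Agent.R220.NSInt
import Crest.Agent.R220.ClassPigeon

/-!
# Row 220: cutoffs and frame bounds used for `virial_up`
-/

set_option autoImplicit false

open scoped ContDiff Topology
open MeasureTheory Set

namespace Crest.Agent.R220.VirialUp

/-! ### Pointwise consequences of `GoodFrame` -/

lemma frame_pt {η δ' : ℝ} {p Y κ : Pl → ℝ} (hη : η ≤ 1 / 100) (h : GoodFrame η δ' p Y κ)
    (z : Pl) : |dx p z| ≤ 2 ∧ |dy p z| ≤ 1 ∧ |dx Y z| ≤ 1 ∧ |dy Y z| ≤ 2 ∧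
      1 / 2 ≤ br p Y z ∧ br p Y z ≤ 2 := by
  obtain ⟨h1, h2⟩ := h.cp z
  obtain ⟨h3, h4⟩ := h.cY z
  have g1 : |dx p z - 1| ≤ 1 / 100 := h1.trans hη
  have g2 : |dy p z| ≤ 1 / 100 := h2.trans hη
  have g3 : |dx Y z| ≤ 1 / 100 := h3.trans hη
  have g4 : |dy Y z - 1| ≤ 1 / 100 := h4.trans hη
  have m1 : |(dx p z - 1) * (dy Y z - 1)| ≤ 1 / 100 * (1 / 100) := by
    rw [abs_mul]; exact mul_le_mul g1 g4 (abs_nonneg _) (by norm_num)
  have m2 : |dy p z * dx Y z| ≤ 1 / 100 * (1 / 100) := by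
    rw [abs_mul]; exact mul_le_mul g2 g3 (abs_nonneg _) (by norm_num)
  have e : br p Y z = (dx p z - 1) * (dy Y z - 1) + (dx p z - 1) + (dy Y z - 1) + 1
      - dy p z * dx Y z := by unfold br; ring
  simp only [abs_le] at g1 g2 g3 g4 m1 m2
  rw [abs_le, abs_le, abs_le, abs_le, e]
  refine ⟨⟨?_, ?_⟩, ⟨?_, ?_⟩, ⟨?_, ?_⟩, ⟨?_, ?_⟩, ?_, ?_⟩ <;>
    linarith [g1.1, g1.2, g2.1, g2.2, g3.1, g3.2, g4.1, g4.2, m1.1, m1.2, m2.1, m2.2]

lemma p_abs_le {η δ' : ℝ} {p Y κ : Pl → ℝ} (hη : η ≤ 1 / 100) (h : GoodFrame η δ' p Y κ)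
    (z : Pl) {r : ℝ} (h1 : |z.1| ≤ r) (h2 : |z.2| ≤ r) : |p z| ≤ 4 * r ∧ |Y z| ≤ 4 * r := by
  have hr : 0 ≤ r := (abs_nonneg _).trans h1
  have hz : z ∈ sq r := ⟨h1, h2⟩
  have h0 : (0 : Pl) ∈ sq r := ⟨by simpa using hr, by simpa using hr⟩
  have hd : dist z 0 ≤ r := by
    rw [Prod.dist_eq]
    simp only [Real.dist_eq, Prod.fst_zero, Prod.snd_zero, sub_zero]
    exact max_le h1 h2
  have a1 := ClassPigeon.abs_sub_le_of_partials (M := 2) h.smp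
    (fun w _ => (frame_pt hη h w).1) (fun w _ => ((frame_pt hη h w).2.1).trans (by norm_num)) hz h0
  have a2 := ClassPigeon.abs_sub_le_of_partials (M := 2) h.smY
    (fun w _ => ((frame_pt hη h w).2.2.1).trans (by norm_num))
    (fun w _ => (frame_pt hη h w).2.2.2.1) hz h0
  rw [h.p0, sub_zero] at a1
  rw [h.Y0, sub_zero] at a2
  constructor <;> nlinarith

lemma Pop_abs_le {η δ' : ℝ} {p Y κ : Pl → ℝ} (hη : η ≤ 1 / 100) (h : GoodFrame η δ' p Y κ)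
    (f : Pl → ℝ) (z : Pl) : |Pop p Y f z| ≤ 4 * (|dx f z| + |dy f z|) := by
  obtain ⟨h1, h2, h3, h4, h5, h6⟩ := frame_pt hη h z
  have hJ : 0 < br p Y z := by linarith
  unfold Pop
  rw [abs_div, abs_of_pos hJ, div_le_iff₀ hJ]
  have e : |br f Y z| ≤ |dx f z| * 2 + |dy f z| * 1 := by
    unfold br
    refine (abs_sub _ _).trans ?_
    rw [abs_mul, abs_mul]
    gcongr
  have := abs_nonneg (dx f z)
  have := abs_nonneg (dy f z)
  nlinarith

lemma Top_abs_le {η δ' : ℝ} {p Y κ : Pl → ℝ} (hη : η ≤ 1 / 100) (h : GoodFrame η δ' p Y κ)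
    (f : Pl → ℝ) (z : Pl) : |Top p Y f z| ≤ 4 * (|dx f z| + |dy f z|) := by
  obtain ⟨h1, h2, h3, h4, h5, h6⟩ := frame_pt hη h z
  have hJ : 0 < br p Y z := by linarith
  unfold Top
  rw [abs_div, abs_of_pos hJ, div_le_iff₀ hJ]
  have e : |br p f z| ≤ 2 * |dy f z| + 1 * |dx f z| := by
    unfold br
    refine (abs_sub _ _).trans ?_
    rw [abs_mul, abs_mul]
    gcongr
  have := abs_nonneg (dx f z)
  have := abs_nonneg (dy f z)
  nlinarith

/-! ### Second order bounds -/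

lemma bd_first {η δ' : ℝ} {p Y κ : Pl → ℝ} (hη : η ≤ 1 / 100) (h : GoodFrame η δ' p Y κ) :
    Bd 1 1 2 (dx p) ∧ Bd 1 1 2 (dy p) ∧ Bd 1 1 2 (dx Y) ∧ Bd 1 1 2 (dy Y) := by
  have key : ∀ (f : Pl → ℝ) (b : Bool), Sm f → (∀ z, |Dw [b] f z| ≤ 2) →
      (∀ w : List Bool, w.length = 2 → ∀ z, |Dw w f z| ≤ η) → Bd 1 1 2 (Dw [b] f) := by
    intro f b hf h1 h2
    refine ⟨hf.Dw [b], fun w hw z => ?_⟩
    rw [one_pow, mul_one]
    match w, hw with
    | [], _ => exact h1 z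
    | [c], _ =>
      rw [← Dw_append]
      exact (h2 _ (by simp) z).trans (by linarith)
  refine ⟨key p true h.smp (fun z => (frame_pt hη h z).1) h.cp2,
    key p false h.smp (fun z => ((frame_pt hη h z).2.1).trans (by norm_num)) h.cp2,
    key Y true h.smY (fun z => ((frame_pt hη h z).2.2.1).trans (by norm_num)) h.cY2,
    key Y false h.smY (fun z => (frame_pt hη h z).2.2.2.1) h.cY2⟩

lemma bd_invJ {η δ' : ℝ} {p Y κ : Pl → ℝ} (hη : η ≤ 1 / 100) (h : GoodFrame η δ' p Y κ) :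
    Bd 1 1 68 (fun z => (br p Y z)⁻¹) := by
  obtain ⟨b1, b2, b3, b4⟩ := bd_first hη h
  have hJ : Bd 1 1 16 (br p Y) :=
    (((b1.mul le_rfl b4).sub (b2.mul le_rfl b3)).mono le_rfl le_rfl (by norm_num))
  have := Bd.inv le_rfl hJ (fun z => (frame_pt hη h z).2.2.2.2.1)
  refine this.mono le_rfl le_rfl ?_
  simp only [Bd.invC]
  norm_num

lemma bd_Pop {η δ' K : ℝ} {p Y κ f : Pl → ℝ} (hη : η ≤ 1 / 100) (h : GoodFrame η δ' p Y κ)
    (hf : Bd 1 2 K f) : Bd 1 1 (1088 * K) (Pop p Y f) := by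
  obtain ⟨b1, b2, b3, b4⟩ := bd_first hη h
  have h1 := ((hf.dx.mul le_rfl b4).sub (hf.dy.mul le_rfl b3)).mul le_rfl (bd_invJ hη h)
  have h2 := h1.mono (L := 1088 * K) le_rfl le_rfl (by linarith)
  refine h2.congr ?_
  funext z
  simp only [Pop, br, div_eq_mul_inv]

lemma bd_Top {η δ' K : ℝ} {p Y κ f : Pl → ℝ} (hη : η ≤ 1 / 100) (h : GoodFrame η δ' p Y κ)
    (hf : Bd 1 2 K f) : Bd 1 1 (1088 * K) (Top p Y f) := by
  obtain ⟨b1, b2, b3, b4⟩ := bd_first hη h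
  have h1 := ((b1.mul le_rfl hf.dy).sub (b2.mul le_rfl hf.dx)).mul le_rfl (bd_invJ hη h)
  have h2 := h1.mono (L := 1088 * K) le_rfl le_rfl (by linarith)
  refine h2.congr ?_
  funext z
  simp only [Top, br, div_eq_mul_inv]

lemma Bd.first {K : ℝ} {g : Pl → ℝ} {k : ℕ} (hk : 1 ≤ k) (h : Bd 1 k K g) (z : Pl) :
    |dx g z| ≤ K ∧ |dy g z| ≤ K := by
  have h1 := h.2 [true] (by simpa using hk) z
  have h2 := h.2 [false] (by simpa using hk) z
  simpa [Dw] using And.intro h1 h2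

/-! ### κ bounds -/

lemma kap_abs_le {η δ' : ℝ} {κ : Pl → ℝ} (hη : η ≤ 1 / 100) (hδ : 0 < δ') (hδ1 : δ' ≤ 1)
    (h : KapClose η δ' κ) {z : Pl} (hz : z ∈ sq (8/10)) :
    |κ z| ≤ 2 ∧ |dx κ z| ≤ 2 ∧ |dy κ z| ≤ 2 := by
  have hx : |z.1| ≤ 8 / 10 := hz.1
  have hy : |z.2| ≤ 8 / 10 := hz.2
  obtain ⟨h1, h2, h3⟩ := h z ⟨hx.trans (by norm_num), hy.trans (by norm_num)⟩
  have hηδ : η * δ' ≤ 1 / 100 := by nlinarith
  have k1 : |δ' * kap0 z| ≤ 16 / 10 := by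
    rw [abs_mul, abs_of_pos hδ]
    have hx2 : z.1 ^ 2 ≤ (8 / 10) ^ 2 := by
      rw [← sq_abs]; gcongr
    have hy2 : z.2 ^ 2 ≤ (8 / 10) ^ 2 := by
      rw [← sq_abs]; gcongr
    have : |kap0 z| ≤ 16 / 10 := by
      unfold kap0
      rw [abs_le]
      constructor <;> nlinarith [sq_nonneg z.1, sq_nonneg z.2]
    calc δ' * |kap0 z| ≤ 1 * (16 / 10) := mul_le_mul hδ1 this (abs_nonneg _) (by norm_num)
      _ = 16 / 10 := one_mul _
  have k2 : |δ' * (2 * z.1)| ≤ 16 / 10 := by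
    rw [abs_mul, abs_of_pos hδ, abs_mul, abs_two]
    calc δ' * (2 * |z.1|) ≤ 1 * (2 * (8 / 10)) := by gcongr
      _ = 16 / 10 := by norm_num
  have k3 : |δ' * (2 * z.2)| ≤ 16 / 10 := by
    rw [abs_mul, abs_of_pos hδ, abs_mul, abs_two]
    calc δ' * (2 * |z.2|) ≤ 1 * (2 * (8 / 10)) := by gcongr
      _ = 16 / 10 := by norm_num
  have h1' := h1.trans hηδ
  have h2' := h2.trans hηδ
  have h3' := h3.trans hηδ
  simp only [abs_le] at h1' h2' h3' k1 k2 k3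
  rw [abs_le, abs_le, abs_le]
  refine ⟨⟨?_, ?_⟩, ⟨?_, ?_⟩, ?_, ?_⟩ <;>
    linarith [h1'.1, h1'.2, h2'.1, h2'.2, h3'.1, h3'.2, k1.1, k1.2, k2.1, k2.2, k3.1, k3.2]

lemma Lop_abs_le {η δ' K : ℝ} {p Y κ f : Pl → ℝ} (hη : η ≤ 1 / 100) (hδ : 0 < δ')
    (hδ1 : δ' ≤ 1) (h : GoodFrame η δ' p Y κ) (hf : Bd 1 2 K f) {z : Pl} (hz : z ∈ sq (8/10)) :
    |Lop p Y κ f z| ≤ 30000 * K := by
  have hJ0 : ∀ z, br p Y z ≠ 0 := fun z => by
    have := (frame_pt hη h z).2.2.2.2.1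
    positivity
  have hK : 0 ≤ K := hf.nonneg
  rw [Lop_eq h.smp h.smY h.smk hf.sm hJ0]
  obtain ⟨k1, k2, k3⟩ := kap_abs_le hη hδ hδ1 h.ck hz
  have bP := Bd.first le_rfl (bd_Pop hη h hf) z
  have bT := Bd.first le_rfl (bd_Top hη h hf) z
  have bf := Bd.first (by norm_num) hf z
  have a1 : |Top p Y (Top p Y f) z| ≤ 8704 * K := by
    refine (Top_abs_le hη h _ z).trans ?_
    linarith [bT.1, bT.2]
  have a2 : |Pop p Y (Pop p Y f) z| ≤ 8704 * K := by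
    refine (Pop_abs_le hη h _ z).trans ?_
    linarith [bP.1, bP.2]
  have a3 : |Pop p Y f z| ≤ 8 * K := by
    refine (Pop_abs_le hη h _ z).trans ?_
    linarith [bf.1, bf.2]
  have a4 : |Pop p Y κ z| ≤ 16 := by
    refine (Pop_abs_le hη h _ z).trans ?_
    linarith
  have b1 : |κ z * Pop p Y (Pop p Y f) z| ≤ 2 * (8704 * K) := by
    rw [abs_mul]; exact mul_le_mul k1 a2 (abs_nonneg _) (by norm_num)
  have b2 : |Pop p Y f z * Pop p Y κ z| ≤ 8 * K * 16 := by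
    rw [abs_mul]; exact mul_le_mul a3 a4 (abs_nonneg _) (by positivity)
  calc |Top p Y (Top p Y f) z + κ z * Pop p Y (Pop p Y f) z + Pop p Y f z * Pop p Y κ z|
      ≤ |Top p Y (Top p Y f) z| + |κ z * Pop p Y (Pop p Y f) z| + |Pop p Y f z * Pop p Y κ z| :=
        abs_add_three _ _ _
    _ ≤ 30000 * K := by linarith

/-! ### Cutoff -/

lemma exists_Bd {f : Pl → ℝ} (hf : Sm f) (hc : HasCompactSupport f) (k : ℕ) :
    ∃ K : ℝ, 1 ≤ K ∧ Bd 1 k K f := by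
  choose B hB using exists_bound_Dw hf hc
  set s := (List.finite_length_le Bool k).toFinset
  refine ⟨1 + ∑ w ∈ s, |B w|, ?_, hf, fun w hw z => ?_⟩
  · have : 0 ≤ ∑ w ∈ s, |B w| := Finset.sum_nonneg fun _ _ => abs_nonneg _
    linarith
  · rw [one_pow, mul_one]
    have hmem : w ∈ s := by
      rw [Set.Finite.mem_toFinset]; exact hw
    have h1 : |B w| ≤ ∑ w ∈ s, |B w| :=
      Finset.single_le_sum (f := fun w => |B w|) (fun _ _ => abs_nonneg _) hmem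
    have h2 := (hB w z).trans (le_abs_self _)
    linarith

noncomputable def cb : ContDiffBump (0 : ℝ) := ⟨72/100, 78/100, by norm_num, by norm_num⟩
noncomputable def cut (z : Pl) : ℝ := cb z.1 * cb z.2

lemma cut_smooth : Sm cut :=
  (cb.contDiff.comp contDiff_fst).mul (cb.contDiff.comp contDiff_snd)

lemma cut_one {z : Pl} (h1 : |z.1| ≤ 72/100) (h2 : |z.2| ≤ 72/100) : cut z = 1 := by
  unfold cut
  rw [cb.one_of_mem_closedBall, cb.one_of_mem_closedBall, one_mul]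
  · rw [Metric.mem_closedBall, Real.dist_eq, sub_zero]; exact h2
  · rw [Metric.mem_closedBall, Real.dist_eq, sub_zero]; exact h1

lemma cut_zero {z : Pl} (h : z ∉ sq (78/100)) : cut z = 0 := by
  have : 78 / 100 < |z.1| ∨ 78 / 100 < |z.2| := by
    by_contra hn
    push Not at hn
    exact h hn
  unfold cut
  rcases this with h | h
  · rw [cb.zero_of_le_dist, zero_mul]
    rw [Real.dist_eq, sub_zero]; exact h.le
  · rw [cb.zero_of_le_dist (x := z.2), mul_zero]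
    rw [Real.dist_eq, sub_zero]; exact h.le

lemma cut_nonneg (z : Pl) : 0 ≤ cut z := mul_nonneg cb.nonneg cb.nonneg

lemma cut_le_one (z : Pl) : cut z ≤ 1 := mul_le_one₀ cb.le_one cb.nonneg cb.le_one

lemma cut_compact : HasCompactSupport cut :=
  HasCompactSupport.intro (ClassPigeon.isCompact_sq (78/100)) fun _ hz => cut_zero hz

lemma cut_eventually_one {z : Pl} (h1 : |z.1| < 72/100) (h2 : |z.2| < 72/100) :
    cut =ᶠ[𝓝 z] fun _ => 1 := by
  have e1 : ∀ᶠ w : Pl in 𝓝 z, |w.1| < 72/100 :=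
    (continuous_fst.abs.tendsto z).eventually (gt_mem_nhds h1)
  have e2 : ∀ᶠ w : Pl in 𝓝 z, |w.2| < 72/100 :=
    (continuous_snd.abs.tendsto z).eventually (gt_mem_nhds h2)
  filter_upwards [e1, e2] with w hw1 hw2
  exact cut_one hw1.le hw2.le

lemma cut_eventually_zero {z : Pl} (h : z ∉ sq (78/100)) : cut =ᶠ[𝓝 z] fun _ => 0 := by
  filter_upwards [(ClassPigeon.isCompact_sq (78/100)).isClosed.isOpen_compl.mem_nhds h] with w hw
  exact cut_zero hw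

/-! ### The operator `L` on products -/

lemma Lop_congr {p Y κ f g : Pl → ℝ} {z : Pl} (h : f =ᶠ[𝓝 z] g) :
    Lop p Y κ f z = Lop p Y κ g z := by
  have h' := h.eventually_nhds
  have h1 : Top p Y f =ᶠ[𝓝 z] Top p Y g := by
    filter_upwards [h'] with w hw
    exact Top_congr hw
  have h2 : (fun z => κ z * Pop p Y f z) =ᶠ[𝓝 z] fun z => κ z * Pop p Y g z := by
    filter_upwards [h'] with w hw
    rw [Pop_congr hw]
  unfold Lop
  rw [Top_congr h1, Pop_congr h2]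

lemma Lop_zero {p Y κ : Pl → ℝ} {z : Pl} : Lop p Y κ (fun _ => 0) z = 0 := by
  have e0 : Top p Y (fun _ => (0:ℝ)) = fun _ => 0 := by
    funext w; exact Top_const _
  unfold Lop
  simp only [e0, Pop_const, mul_zero, Top_const, add_zero]

lemma Lop_mul {p Y κ f g : Pl → ℝ} (hp : Sm p) (hY : Sm Y) (hκ : Sm κ) (hf : Sm f) (hg : Sm g)
    (hJ : ∀ z, br p Y z ≠ 0) (z : Pl) :
    Lop p Y κ (fun z => f z * g z) z = f z * Lop p Y κ g z
      + 2 * (Top p Y f z * Top p Y g z + κ z * Pop p Y f z * Pop p Y g z)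
      + g z * Lop p Y κ f z := by
  have sfg := hf.mul' hg
  rw [Lop_eq hp hY hκ sfg hJ, Lop_eq hp hY hκ hf hJ, Lop_eq hp hY hκ hg hJ]
  have eT : Top p Y (fun z => f z * g z) = fun z => Top p Y f z * g z + f z * Top p Y g z := by
    funext w; exact Top_mul p Y f g hf hg w
  have eP : Pop p Y (fun z => f z * g z) = fun z => Pop p Y f z * g z + f z * Pop p Y g z := by
    funext w; exact Pop_mul p Y f g hf hg w
  have sTf := Sm.Top hp hY hf hJ
  have sTg := Sm.Top hp hY hg hJ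
  have sPf := Sm.Pop hp hY hf hJ
  have sPg := Sm.Pop hp hY hg hJ
  rw [eT, eP, Top_add p Y _ _ (sTf.mul' hg) (hf.mul' sTg), Top_mul p Y _ _ sTf hg,
    Top_mul p Y _ _ hf sTg, Pop_add p Y _ _ (sPf.mul' hg) (hf.mul' sPg), Pop_mul p Y _ _ sPf hg,
    Pop_mul p Y _ _ hf sPg]
  ring

end Crest.Agent.R220.VirialUp
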